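import Vale.Agent.P257.H545.T1P
import Vale.Agent.P251.F.T1Coc

/-!
# P236, block DETH: the cobar complex of the additive group in low degrees

* `fP_surj`, `fP_proj`, `fP_bcls_pow`, `eq_of_wt`;
* `bP_ne` : the cocycle `b_j` is not a coboundary.
-/

noncomputable section

namespace Vale.Agent.P236H

open Vale.Agent.P251 Vale.Agent.P251.F Vale.Agent.P257 Vale.Agent.P257.H93 MvPolynomial
open Vale.Agent.P251.I (IsT1 bcls)
open Vale.Agent.P251.F.F3 (del)

set_option linter.unusedSectionVars false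

variable {p : ℕ} [hp : Fact p.Prime]

theorem fP_surj : Function.Surjective (fP p 1) := by
  intro y
  change y ∈ (fP p 1).range
  induction y using MvPolynomial.induction_on with
  | C c =>
    obtain ⟨m, rfl⟩ := ZMod.intCast_surjective c
    exact ⟨m, by rw [map_intCast, map_intCast]⟩
  | add a b ha hb => exact add_mem ha hb
  | mul_X a ki ha =>
    refine mul_mem ha ⟨(((Cob.univ Laz 1).g 1)⁻¹).c (p ^ (ki.2 + 1) - 1), ext_evG fun g => ?_⟩
    obtain ⟨k, i⟩ := ki
    obtain rfl : k = 0 := Subsingleton.elim _ _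
    rw [evG_fP, ← InvSeries.c_map, map_inv, ← Chain.map_g, Cob.univ_map_ev, mkC_g, evG_X, tc_eq_c,
      mul_inv_rev, inv_inv]
    rfl

theorem fP_proj {n : ℕ} {z : Cob Laz n} (hz : fP p n z = 0) (w : ℤ) :
    fP p n (Cob.proj w z) = 0 := by
  ext e
  by_cases he : Finsupp.weight (wX p n) e = w
  · by_cases hw : w ∈ Cob.wts z
    · rw [← hz]
      conv_rhs => rw [← Cob.sum_proj z, map_sum, coeff_sum]
      symm
      refine Finset.sum_eq_single_of_mem w hw fun v _ hv => ?_
      by_contra h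
      exact hv ((fP_wt (Cob.isWt_proj v z) h).symm.trans he)
    · rw [Cob.proj_eq_zero hw, map_zero]
  · by_contra h
    exact he (fP_wt (Cob.isWt_proj w z) h)

theorem fP_t {t : Cob Laz 1} (ht : IsT1 p t) : fP p 1 t = X (0, 0) := by
  rw [H545.fP_t ht, H134.hP, pow_zero, pow_one]
  rfl

theorem bP_one (k : ℕ) : H134.bP p 1 k = H134.cp p (X (0, 0) ^ p ^ k) (X (1, 0) ^ p ^ k) := by
  rw [H134.bP, H134.bb, show Finset.HasAntidiagonal.antidiagonal 1 = {(0, 1), (1, 0)} from rfl,
    H134.gam_pair p (by decide), H134.cp_comm]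
  simp only [H134.tt, one_pow, one_mul, mul_one, zero_add]

theorem fP_bcls_pow {t : Cob Laz 1} (ht : IsT1 p t) (j : ℕ) :
    fP p 2 (bcls p (t ^ p ^ j)) = H134.bP p 1 j := by
  rw [bcls, map_sum, bP_one, H134.cp]
  refine Finset.sum_congr rfl fun i _ => ?_
  rw [map_zsmul, zsmul_eq_mul, Int.cast_natCast]
  congr 1
  refine (fP_cup (a := 1) (b := 1) _ _).trans ?_
  simp only [map_pow, fP_t ht, cupP, rename_X]
  rfl

theorem weight_eq (e : (Fin 1 × ℕ) →₀ ℕ) (s : Finset (Fin 1 × ℕ)) (h : e.support ⊆ s) :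
    Finsupp.weight (wX p 1) e = ∑ v ∈ s, (e v : ℤ) * wX p 1 v := by
  rw [Finsupp.weight_apply, Finsupp.sum_of_support_subset e h _ fun _ _ => by simp]
  exact Finset.sum_congr rfl fun v _ => nsmul_eq_mul _ _

/-- The elements of weight `p - 1`. -/
theorem eq_of_wt {y : CobP p 1} (hy : IsWtP p 1 ((p : ℤ) - 1) y) :
    ∃ c : ℤ, y = c • X (0, 0) := by
  classical
  have h2 : (2 : ℤ) ≤ p := by exact_mod_cast hp.out.two_le
  obtain ⟨c, hc⟩ := ZMod.intCast_surjective (coeff (Finsupp.single (0, 0) 1) y)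
  refine ⟨c, MvPolynomial.ext _ _ fun e => ?_⟩
  rw [zsmul_eq_mul, ← map_intCast (C : ZMod p →+* CobP p 1), coeff_C_mul, coeff_X, hc]
  split_ifs with he
  · rw [he, mul_one]
  rw [mul_zero]
  by_contra h
  have h1 := hy h
  have h3 : ∀ v, (0 : ℤ) ≤ (e v : ℤ) * wX p 1 v := fun v => mul_nonneg (by positivity) (by
    have : (1 : ℤ) ≤ (p : ℤ) ^ (v.2 + 1) := one_le_pow₀ (by omega)
    rw [wX]
    omega)
  have h4 : e.support ⊆ {(0, 0)} := fun v hv => by
    obtain ⟨k, i⟩ := v
    obtain rfl : k = 0 := Subsingleton.elim _ _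
    rcases i with _ | i
    · exact Finset.mem_singleton_self _
    have h5 := Finset.single_le_sum (fun v _ => h3 v) hv
    rw [← weight_eq e _ subset_rfl, h1, wX] at h5
    have h6 : (1 : ℤ) ≤ e (0, i + 1) := by exact_mod_cast Nat.pos_of_ne_zero (by simpa using hv)
    have h7 : (p : ℤ) ^ 1 < (p : ℤ) ^ (i + 1 + 1) := pow_lt_pow_right₀ (by omega) (by omega)
    nlinarith
  rw [weight_eq e _ h4, Finset.sum_singleton, wX] at h1
  have h5 : (e (0, 0) : ℤ) = 1 := mul_right_cancel₀ (b := (p : ℤ) - 1) (by omega) (by simpa using h1)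
  exact he (by
    rw [(Finsupp.support_subset_singleton.1 h4), show e (0, 0) = 1 by exact_mod_cast h5])

section ne

theorem coeff_zero_of_dvd {K ι : Type*} [CommRing K] (S : Finset ι) (c : ι → K) (n k : ι → ℕ)
    {q : ℕ} (hk : ∀ a ∈ S, k a < q) (hi : Set.InjOn k S) (h : (Polynomial.X : Polynomial K) ^ q ∣
      ∑ a ∈ S, Polynomial.C (c a) * ((1 + Polynomial.X) ^ n a * Polynomial.X ^ k a)) :
    ∀ a ∈ S, c a = 0 := by
  have key : ∀ m, ∀ a ∈ S, k a = m → c a = 0 := fun m => by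
    induction m using Nat.strong_induction_on with
    | _ m ih =>
      rintro a ha rfl
      have h1 := Polynomial.X_pow_dvd_iff.1 h _ (hk a ha)
      rw [Polynomial.finsetSum_coeff, Finset.sum_eq_single_of_mem a ha fun b hb hab => ?_] at h1
      · simpa [Polynomial.coeff_mul_X_pow', Polynomial.coeff_zero_eq_eval_zero] using h1
      · rcases lt_trichotomy (k b) (k a) with h2 | h2 | h2
        · rw [ih _ h2 b hb rfl, map_zero, zero_mul, Polynomial.coeff_zero]
        · exact absurd (hi hb ha h2) hab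
        · rw [Polynomial.coeff_C_mul, Polynomial.coeff_mul_X_pow', if_neg h2.not_ge, mul_zero]
  exact fun a ha => key _ a ha rfl

variable {B : Type} [CommRing B] [FpA p B]

open Classical in
theorem evG_monomial (g : ℕ → addS B) (h : ∀ i, H134.co (p := p) (g 0 * (g 1)⁻¹) (i + 3) = 0)
    (e : (Fin 1 × ℕ) →₀ ℕ) (c : ZMod p) : evG 1 g (monomial e c) =
      if e.support ⊆ {(0, 0), (0, 1)} then zm p B c * (H134.co (p := p) (g 0 * (g 1)⁻¹) 1 ^ e (0, 0) *
        H134.co (p := p) (g 0 * (g 1)⁻¹) 2 ^ e (0, 1)) else 0 := by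
  rw [evG, eval₂Hom_monomial]
  split_ifs with he
  · rw [Finsupp.prod_of_support_subset e he _ fun _ _ => pow_zero _, Finset.prod_pair (by decide)]
    rfl
  · obtain ⟨⟨k, i⟩, h1, h2⟩ := Finset.not_subset.1 he
    obtain rfl : k = 0 := Subsingleton.elim _ _
    obtain ⟨i, rfl⟩ : ∃ l, i = l + 2 := ⟨i - 2, by
      simp only [Finset.mem_insert, Finset.mem_singleton, Prod.mk.injEq, true_and] at h2
      omega⟩
    rw [Finsupp.prod, Finset.prod_eq_zero h1, mul_zero]
    exact (congrArg (· ^ _) (h i)).trans (zero_pow (Finsupp.mem_support_iff.1 h1))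

theorem co_mkA (a : B) (i : ℕ) : H134.co (p := p) (mkA (p := p) fun k => if k = 0 then a else 0) i =
    if i = 0 then 1 else if i = 1 then a else 0 := by
  rcases i with _ | i
  · exact H134.co_zero _
  · rw [H134.co, val_mkA, tc_addMk]
    simp

instance : Fact (Nat.Prime 3) := ⟨Nat.prime_three⟩

/-- The cocycle `b_j` is not a coboundary. -/
theorem bP_ne (j : ℕ) {y : CobP 3 1} (hy : IsWtP 3 1 (2 * 3 ^ (j + 1)) y) {ε : ℤ}
    (hε : ε = 1 ∨ ε = -1) : ε • H134.bP 3 1 j ≠ dP 1 y := by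
  classical
  intro h
  let f : addS (Polynomial (ZMod 3)) := mkA (p := 3) fun k => if k = 0 then Polynomial.X else 0
  let g : addS (Polynomial (ZMod 3)) := mkA (p := 3) fun k => if k = 0 then 1 else 0
  let γ : ℕ → addS (Polynomial (ZMod 3)) := fun k => if k = 0 then f * g else if k = 1 then g else 1
  have e0 : del 0 γ 0 * (del 0 γ 1)⁻¹ = g := by simp [del, γ]
  have e1 : del 1 γ 0 * (del 1 γ 1)⁻¹ = f * g := by simp [del, γ]
  have e2 : del 2 γ 0 * (del 2 γ 1)⁻¹ = f := by simp [del, γ]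
  have hfg : ∀ i, H134.co (p := 3) (f * g) (i + 1) =
      if i = 0 then 1 + Polynomial.X else if i = 1 then Polynomial.X else 0 := fun i => by
    rw [H134.co_mul, H134.comp, Finset.Nat.sum_antidiagonal_succ]
    rcases i with _ | i
    · simp [f, g, co_mkA]
    · rw [Finset.Nat.sum_antidiagonal_succ]
      simp [f, g, co_mkA]
  have h1 := congrArg (evG 2 γ) h
  rw [H134.evG_dP, Finset.sum_range_succ, Finset.sum_range_succ, Finset.sum_range_one, map_zsmul,
    bP_one, H134.map_cp, map_pow, map_pow, evG_X, evG_X] at h1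
  have h2 : γ ((0 : Fin 2) : ℕ) * (γ ((0 : Fin 2) + 1 : ℕ))⁻¹ = f := by simp [γ]
  have h3 : γ ((1 : Fin 2) : ℕ) * (γ ((1 : Fin 2) + 1 : ℕ))⁻¹ = g := by simp [γ]
  change ε • H134.cp 3 (H134.co (p := 3) _ 1 ^ _) (H134.co (p := 3) _ 1 ^ _) = _ at h1
  rw [h2, h3, co_mkA, co_mkA] at h1
  let S := y.support.filter fun e => e.support ⊆ {(0, 0), (0, 1)} ∧ e (0, 1) ≠ 0
  have hw : ∀ e ∈ y.support, e.support ⊆ {(0, 0), (0, 1)} →
      e (0, 0) + 4 * e (0, 1) = 3 ^ (j + 1) := fun e he hs => by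
    have h4 := hy (mem_support_iff.1 he)
    rw [weight_eq e _ hs, Finset.sum_pair (by decide), wX, wX] at h4
    zify
    push_cast at h4
    omega
  have h4 : ∑ e ∈ S, Polynomial.C (coeff e y) * ((1 + Polynomial.X) ^ e (0, 0) *
      Polynomial.X ^ e (0, 1)) = -ε • (Polynomial.X ^ 3 ^ j * (1 + Polynomial.X ^ 3 ^ j)) := by
    have h5 : H134.cp 3 ((Polynomial.X : Polynomial (ZMod 3)) ^ 3 ^ j) 1 =
        Polynomial.X ^ 3 ^ j * (1 + Polynomial.X ^ 3 ^ j) := by
      rw [H134.cp, show Finset.Ioo 0 3 = {1, 2} from rfl, Finset.sum_pair (by decide)]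
      norm_num [Nat.choose]
      ring
    simp only [one_ne_zero, if_false, if_true, one_pow] at h1
    rw [neg_smul, ← h5, h1, Finset.sum_filter]
    conv_rhs => rw [as_sum y]
    simp only [map_sum, Finset.smul_sum, ← Finset.sum_add_distrib, ← Finset.sum_neg_distrib]
    refine Finset.sum_congr rfl fun e he => ?_
    rw [evG_monomial _ (by simp [e0, g, co_mkA]), evG_monomial _ (by simp [e1, hfg]),
      evG_monomial _ (by simp [show (1 + 1 : ℕ) = 2 from rfl, e2, f, co_mkA]), e0, e1,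
      show (1 + 1 : ℕ) = 2 from rfl, e2, hfg, hfg, co_mkA, co_mkA, co_mkA, co_mkA,
      Subsingleton.elim (zm 3 (Polynomial (ZMod 3))) Polynomial.C]
    by_cases hs : e.support ⊆ {(0, 0), (0, 1)}
    · by_cases h6 : e (0, 1) = 0
      · have h7 := hw e he hs
        rw [h6, mul_zero, add_zero] at h7
        simp [hs, h6, h7, add_pow_char_pow]
        ring
      · simp [hs, h6]
    · simp [hs]
  have h5 := coeff_zero_of_dvd S (fun e => coeff e y) (fun e => e (0, 0)) (fun e => e (0, 1))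
    (q := 3 ^ j) (fun e he => by
    have h6 := hw e (Finset.mem_filter.1 he).1 (Finset.mem_filter.1 he).2.1
    have h7 := (Finset.mem_filter.1 he).2.2
    rw [pow_succ] at h6
    omega) (fun a ha b hb hab => by
    obtain ⟨ha1, ha2, -⟩ := Finset.mem_filter.1 ha
    obtain ⟨hb1, hb2, -⟩ := Finset.mem_filter.1 hb
    have h6 := hw a ha1 ha2
    have h7 := hw b hb1 hb2
    ext v
    by_cases hv : v ∈ ({(0, 0), (0, 1)} : Finset (Fin 1 × ℕ))
    · rcases Finset.mem_insert.1 hv with rfl | hv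
      · simp only at hab
        omega
      · rw [Finset.mem_singleton.1 hv]
        exact hab
    · rw [Finsupp.notMem_support_iff.1 fun h => hv (ha2 h),
        Finsupp.notMem_support_iff.1 fun h => hv (hb2 h)]) (by
    rw [h4, zsmul_eq_mul]
    exact (dvd_mul_right _ _).mul_left _)
  rw [Finset.sum_eq_zero fun e he => by rw [h5 e he, map_zero, zero_mul]] at h4
  have h6 := congrArg (Polynomial.coeff · (3 ^ j)) h4
  have h7 : (3 : ℕ) ^ j ≠ 0 := by positivity
  rcases hε with rfl | rfl <;>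
    simp [Polynomial.coeff_X_pow_mul', Polynomial.coeff_X_pow, h7.symm] at h6

end ne

end Vale.Agent.P236H

end
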