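import Vale.Agent.P236H.BrgA
import Vale.Agent.P236L.Mu

/-!
# P236, block BRG: from the tables of the small complex to the tables of the cobar complex
-/

noncomputable section

namespace Vale.Agent.P236H

open Vale.Agent.P251.F Vale.Agent.P257.H314 Vale.Agent.P236A Vale.Agent.P236B
  Vale.Agent.P236D Vale.Agent.P236K Vale.Agent.P236L Vale.Agent.P236T MvPolynomial

theorem exists_three {s : ℕ} {z : Cob Laz s} (hz : z ∈ IC 3 1 s) : ∃ y, z = (3 : ℤ) • y := by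
  have hI : IC 3 1 s ≤ Ideal.span {((3 : ℕ) : Cob Laz s)} := by
    rw [IC, Laz.I, Ih, Ideal.map_span]
    refine Ideal.span_mono ?_
    rintro _ ⟨_, ⟨i, hi, rfl⟩, rfl⟩
    obtain rfl : i = 0 := by omega
    rw [vv_zero, map_natCast]
    rfl
  obtain ⟨y, hy⟩ := Ideal.mem_span_singleton.1 (hI hz)
  exact ⟨y, by rw [hy, zsmul_eq_mul]; push_cast; rfl⟩

theorem three_mem {s : ℕ} (y : Cob Laz s) : (3 : ℤ) • y ∈ IC 3 1 s := by
  have h := Ideal.mul_mem_right y _ (p_mem_IC (p := 3) (h := 1) (s := s) Nat.one_pos)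
  rw [zsmul_eq_mul]
  exact_mod_cast h

variable {ι : Type} [Fintype ι] [DecidableEq ι] {Γ : Gens ι} {δ : Mat ι (Av (ZMod 9))}
  {S N : ℕ} {τ : Tab} (K : Cmp Γ δ S (2 * N))

/-- the comparison map modulo `3` -/
def psi (s : ℕ) : Cob Laz s →+ (ι → Av (ZMod 3)) := rcH.comp (K.Φ s)

theorem psi_apply (s : ℕ) (z : Cob Laz s) : psi K s z = rc (K.Φ s z) := rfl

theorem psi_mem {s : ℕ} {z : Cob Laz s} (hz : z ∈ IC 3 1 s) : psi K s z = 0 := by
  obtain ⟨y, rfl⟩ := exists_three hz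
  rw [map_zsmul, three_smul]

theorem psi_congr {s : ℕ} {z z' : Cob Laz s} (hz : z - z' ∈ IC 3 1 s) :
    psi K s z = psi K s z' := by
  rw [← sub_eq_zero, ← map_sub, psi_mem K hz]

theorem psi_d {s : ℕ} {w : ℤ} {z : Cob Laz s} (hw : w ≤ 2 * N) (hz : Cob.IsWt w z) :
    psi K (s + 1) (Cob.d s z) = D3 δ (psi K s z) := by
  rw [psi_apply, K.d s w z hw hz, rc_X0, psi_apply]

theorem psi_pow {s : ℕ} (a : Laz) (n : ℕ) (z : Cob Laz s) :
    psi K s (C a ^ n * z) = map r3 (hzA 3 (ZMod 9) a) ^ n • psi K s z := by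
  rw [← map_pow, psi_apply, K.smul, rc_smul, map_pow, map_pow, psi_apply]

theorem psi_cl {s T : ℕ} (z : Co s T) : Cl Γ s T (psi K s z.1) := Hom.rc (K.hom s _ z.1 z.2)

theorem psi_Z {s T : ℕ} (hT : T ≤ N) {z : Co s T} (hz : IsZ z) : D3 δ (psi K s z.1) = 0 := by
  rw [← psi_d K (by omega) z.2, psi_mem K hz]

variable (R : CReal Γ δ τ S N)

/-- the coordinates -/
def coB (s T : ℕ) : Co s T →+ (ℕ → ZMod 3) :=
  (R.co s T).comp ((psi K s).comp (Cob.wt Laz s (2 * (T : ℤ))).subtype)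

theorem coB_apply {s T : ℕ} (z : Co s T) : coB K R s T z = R.co s T (psi K s z.1) := rfl

theorem coB_ker {s T : ℕ} (h : τ.reg s T = true) (z : Co s T) (hz : IsZ z) :
    coB K R s T z = 0 ↔ IsB z := by
  obtain ⟨hs, hT⟩ := R.reg_le s T h
  rw [coB_apply]
  cases s with
  | zero =>
    refine ⟨fun h0 => K.inj0 _ z.1 z.2 hz (R.ker_zero T h _ (psi_cl K z) (psi_Z K hT hz) h0),
      fun h0 => ?_⟩
    rw [psi_mem K h0, map_zero]
  | succ s =>
    refine ⟨fun h0 => ?_, fun ⟨y, hy⟩ => ?_⟩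
    · obtain ⟨c, hc, e⟩ := R.ker_succ s T h _ (psi_cl K z) (psi_Z K hT hz) h0
      obtain ⟨y, hy, h1⟩ := K.inj s _ z.1 c (by omega) (by omega) z.2 hz hc e.symm
      exact ⟨⟨y, hy⟩, h1⟩
    · rw [psi_congr K hy, psi_d K (by omega) y.2]
      exact R.co_d s T h _ (psi_cl K y)

theorem coB_surj {s T i : ℕ} (h : τ.reg s T = true) (hi : i < τ.dim s T) :
    ∃ z : Co s T, IsZ z ∧ coB K R s T z = Pi.single i 1 := by
  obtain ⟨hs, hT⟩ := R.reg_le s T h
  obtain ⟨c, hc, h0, h1⟩ := R.surj s T i h hi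
  cases s with
  | zero =>
    obtain ⟨z, hz, h2, h3⟩ := K.surj0 _ c (by omega) hc h0
    exact ⟨⟨z, hz⟩, h2, by rw [← h1, h3]; rfl⟩
  | succ s =>
    obtain ⟨z, c', hz, h2, h3, h4⟩ := K.surj s _ c (by omega) (by omega) hc h0
    refine ⟨⟨z, hz⟩, h2, ?_⟩
    rw [← h1, h4, map_add, show R.co (s + 1) T (X0 3 (mapM r93 δ) c') = 0 from R.co_d s T h _ h3,
      add_zero]
    rfl

theorem lt_dim {s T i : ℕ} {c : ι → Av (ZMod 3)} (h : R.co s T c = Pi.single i 1) :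
    i < τ.dim s T := by
  by_contra hi
  have h1 := R.co_ge s T c i (Nat.le_of_not_lt hi)
  rw [h, Pi.single_eq_same] at h1
  exact one_ne_zero h1

/-- two cocycles with the same coordinates differ by a coboundary -/
theorem rep {s T : ℕ} (h : τ.reg s T = true) {c c' : ι → Av (ZMod 3)} (hc : Cl Γ s T c)
    (hc' : Cl Γ s T c') (h0 : D3 δ c = 0) (h0' : D3 δ c' = 0) (e : R.co s T c = R.co s T c') :
    c = c' ∨ ∃ s₀ u, s = s₀ + 1 ∧ Cl Γ s₀ T u ∧ c = c' + D3 δ u := by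
  have h1 : D3 δ (c - c') = 0 := by rw [D3_sub, h0, h0', sub_zero]
  have h2 : R.co s T (c - c') = 0 := by rw [map_sub, e, sub_self]
  cases s with
  | zero => exact Or.inl (sub_eq_zero.1 (R.ker_zero T h _ (hom_sub hc hc') h1 h2))
  | succ s =>
    obtain ⟨u, hu, h3⟩ := R.ker_succ s T h _ (hom_sub hc hc') h1 h2
    exact Or.inr ⟨s, u, rfl, hu, by rw [h3, add_sub_cancel]⟩

/-- the products with a multiplier are given by the table -/
def MulP (k : ℕ) {a U : ℕ} (μ : Co a U) : Prop :=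
  ∀ (s T i l s' T' : ℕ) (h : a + s = s') (hT : U + T = T'),
    τ.reg s T = true → τ.reg s' T' = true → τ.mul k s T i l < 3 →
    ∀ z : Co s T, IsZ z → coB K R s T z = Pi.single i 1 →
      coB K R s' T' (cupT h hT μ z) l = (τ.mul k s T i l : ℕ)

theorem mulP_zero : MulP K R 0 mu0 := by
  intro s T i l s' T' h hT hr hr' hm z hz hco
  obtain rfl : s = s' := by omega
  obtain rfl : T' = T + 1 := by omega
  obtain ⟨c, hc, h0, h1, h2⟩ := R.mul_zero s T i l hr hr' hm (lt_dim R hco)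
  have h3 : psi K s (cupT h hT mu0 z).1 = (X 0 : Av (ZMod 3)) • psi K s z.1 := by
    rw [coe_cupT_mu0, ← pow_one (C _), psi_pow, map_hzA_v_one, pow_one]
  rw [coB_apply, h3, ← h2]
  rcases rep R hr (psi_cl K z) hc (psi_Z K (R.reg_le s T hr).2 hz) h0 (hco.trans h1.symm) with
    e | ⟨s₀, u, rfl, hu, e⟩
  · rw [e]
  · have h4 : Cl Γ s₀ (T + 1) ((X 0 : Av (ZMod 3)) ^ 1 • u) := by
      have h5 := hom_X_pow 0 1 hu
      rw [Cl]
      convert h5 using 1
      norm_num [wz]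
      ring
    have h5 := R.co_d s₀ (T + 1) hr' _ h4
    rw [D3_smul0, pow_one] at h5
    rw [e, smul_add, map_add, h5, add_zero]

theorem exists_mulP (hδ : HomD 3 Γ δ) (hq : SqZero 3 Γ δ (2 * N)) {k : ℕ} (hk : 0 < k) :
    ∃ μ : Co 1 (τ.mT k), IsZ μ ∧ MulP K R k μ := by
  obtain ⟨a, ha, ha1, ha2⟩ := exists_multipliers
  obtain ⟨-, hd, hU⟩ := R.ms_pos k hk
  obtain ⟨μ, hμ, hμ1⟩ := ha2 _ _ _ hd hU
  refine ⟨μ, hμ, ?_⟩
  intro s T i l s' T' h hT hr hr' hm z hz hco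
  obtain rfl : s' = s + 1 := by omega
  subst hT
  obtain ⟨c, hc, h0, h1, h2⟩ := R.mul_pos k s T i l hk hr hr' hm (lt_dim R hco)
  have hN : 2 * ((T : ℤ) + 4 * R.kap k) ≤ 2 * N := by
    have := R.mul_le k s T i l hk hm
    omega
  have h3 := psi_congr K (hμ1 s T _ h rfl z hz)
  rw [psi_d K (w := R.kap k * 8 + 2 * T) (by omega) (((ha s).pow _).mul z.2), psi_pow, psi_pow,
    ha1, map_hzA_v_one] at h3
  rw [coB_apply]
  rcases rep R hr hc (psi_cl K z) h0 (psi_Z K (R.reg_le s T hr).2 hz) (h1.trans hco.symm) with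
    e | ⟨s₀, u, rfl, hu, e⟩
  · exact h2 _ (e ▸ h3)
  · obtain ⟨f, hf, h4⟩ := exists_tw hδ hq hd hU hN hu
    have h5 := h2 (psi K _ (cupT h rfl μ z).1 + D3 δ f) (by
      rw [e, smul_add, D3_add, h3, h4, smul_add])
    rwa [map_add, R.co_d _ _ hr' f hf, add_zero] at h5

theorem exists_mu (hδ : HomD 3 Γ δ) (hq : SqZero 3 Γ δ (2 * N)) (k : ℕ) :
    ∃ μ : Co (τ.ms k) (τ.mT k), IsZ μ ∧ MulP K R k μ ∧
      ∀ (h : τ.ms k + 0 = 0) (hT : τ.mT k + 0 = 1), (cupT h hT μ oneC).1 = C (Laz.v 3 1) := by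
  rcases Nat.eq_zero_or_pos k with rfl | hk
  · have key : ∀ a U : ℕ, a = 0 → U = 1 → ∃ μ : Co a U, IsZ μ ∧ MulP K R 0 μ ∧
        ∀ (h : a + 0 = 0) (hT : U + 0 = 1), (cupT h hT μ oneC).1 = C (Laz.v 3 1) := by
      rintro _ _ rfl rfl
      exact ⟨mu0, isZ_mu0, mulP_zero K R, fun h hT => (coe_cupT_mu0 h hT oneC).trans (mul_one _)⟩
    exact key _ _ R.ms_zero R.mT_zero
  · have key : ∀ a : ℕ, a = 1 → ∃ μ : Co a (τ.mT k), IsZ μ ∧ MulP K R k μ ∧
        ∀ (h : a + 0 = 0) (hT : τ.mT k + 0 = 1), (cupT h hT μ oneC).1 = C (Laz.v 3 1) := by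
      rintro _ rfl
      obtain ⟨μ, h1, h2⟩ := exists_mulP K R hδ hq hk
      exact ⟨μ, h1, h2, fun h => absurd h one_ne_zero⟩
    exact key _ (R.ms_pos k hk).1

theorem coB_bok (hδ : HomD 3 Γ δ) (hq : SqZero 3 Γ δ (2 * N)) {s T i l : ℕ}
    (hr : τ.reg s T = true) (hr' : τ.reg (s + 1) T = true) (hm : τ.bok s T i l < 3) (z : Co s T)
    (y : Co (s + 1) T) (hy : Cob.d s z.1 = (3 : ℤ) • y.1) (hco : coB K R s T z = Pi.single i 1) :
    coB K R (s + 1) T y l = (τ.bok s T i l : ℕ) := by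
  have hT := (R.reg_le s T hr).2
  obtain ⟨c, hc, h0, h1, h2⟩ := R.bok s T i l hr hr' hm (lt_dim R hco)
  have hz : IsZ z := by
    rw [IsZ, hy]
    exact three_mem _
  have h3 : X0H 3 δ (K.Φ s z.1) = (3 : ℤ) • K.Φ (s + 1) y.1 := by
    rw [X0H_apply, ← K.d s _ z.1 (by omega) z.2, hy, map_zsmul]
  have key : ∀ b : ι → Av (ZMod 9), Cl Γ s T b → X0H 3 δ b = 0 → psi K s z.1 = rc c + rc b →
      coB K R (s + 1) T y l = (τ.bok s T i l : ℕ) := fun b hb hb0 e => by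
    obtain ⟨u, hu, h4⟩ := exists_div (hom_sub (hom_sub (K.hom s _ z.1 z.2) hc) hb) (by
      rw [← rcH_apply, map_sub, map_sub, rcH_apply, ← psi_apply, e, rcH_apply, rcH_apply,
        add_sub_cancel_left, sub_self])
    have h5 := congrArg (X0H 3 δ) h4
    rw [map_sub, map_sub, hb0, sub_zero, h3, map_zsmul] at h5
    have h6 := h2 (K.Φ (s + 1) y.1 - X0H 3 δ u) (by
      rw [smul_sub, ← h5, sub_sub_cancel, X0H_apply])
    rwa [← rcH_apply, map_sub, map_sub, X0H_apply, rcH_apply (X0 3 δ u), rc_X0,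
      R.co_d s T hr' _ (Hom.rc hu), sub_zero] at h6
  rcases rep R hr (psi_cl K z) (Hom.rc hc) (psi_Z K hT hz) h0 (hco.trans h1.symm) with
    e | ⟨s₀, u, rfl, hu, e⟩
  · exact key 0 ((hom_iff 3 Γ).2 (zero_mem _)) (map_zero _) (by
      rw [e, ← rcH_apply 0, map_zero, add_zero])
  · obtain ⟨u', hu', rfl⟩ := exists_lift hu
    exact key (X0 3 δ u') (Hom.X0 3 Γ hδ hu') (X0_X0_zero 3 Γ hq (by omega) hu') (by
      rw [e, rc_X0])

theorem coB_lead (j : ℕ) (hj : j ≤ 3) : τ.reg 2 (3 ^ (j + 1)) = true ∧ ∃ ε : ZMod 3, ε ≠ 0 ∧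
    ∀ y : Co 2 (3 ^ (j + 1)), IsZ y → ∃ e : Vale.Agent.P257.H93.CobP 3 1,
      Vale.Agent.P257.H93.fP 3 2 y.1 = (ε * coB K R 2 (3 ^ (j + 1)) y (τ.lead j)) •
        Vale.Agent.P257.H134.bP 3 1 j + Vale.Agent.P257.H93.dP 1 e := by
  obtain ⟨hr, g, hg, h1⟩ := R.lead j hj
  obtain ⟨hs, hT⟩ := R.reg_le _ _ hr
  have hT' : (3 : ℤ) ^ (j + 1) ≤ N := by exact_mod_cast hT
  obtain ⟨ε, hε, h2⟩ := K.lead j g (by omega) (by omega) hg
  refine ⟨hr, ε, hε, fun y hy => ?_⟩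
  rw [coB_apply, h1]
  exact h2 y.1 (by have := y.2; rw [Cob.mem_wt] at this; exact_mod_cast this) hy

include K R in
/-- **Bridge**: the tables of the small complex describe the cobar complex modulo `3`. -/
theorem real_of_cmp (hδ : HomD 3 Γ δ) (hq : SqZero 3 Γ δ (2 * N)) : Nonempty (Real τ) := by
  choose μ h1 h2 h3 using exists_mu K R hδ hq
  exact ⟨{
    co := coB K R
    co_ge := fun s T z i hi => R.co_ge s T _ i hi
    ker := fun s T h z hz => coB_ker K R h z hz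
    surj := fun s T i h hi => coB_surj K R h hi
    reg_zero := R.reg_zero
    co_one := by
      rw [coB_apply, psi_apply, ← R.co_one]
      congr 1
      refine (congrArg rc K.one).trans (funext fun g => ?_)
      rw [rc, Pi.apply_single (fun _ => map r3) fun _ => map_zero _, map_one]
    mu := μ
    mu_Z := h1
    ms_zero := R.ms_zero
    mT_zero := R.mT_zero
    mu_zero := h3 0
    mul := fun k => h2 k
    bok := fun s T i l hr hr' hm z y hy hco => coB_bok K R hδ hq hr hr' hm z y hy hco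
    lead := coB_lead K R }⟩

/-- **Bridge**, from the comparison theorem. -/
theorem brg_of (h : CmpStmt) : BrgStmt := fun ι _ _ Γ δ S N _ hδ hq he _ R =>
  (h ι Γ δ S (2 * N) hδ hq he).elim fun K => real_of_cmp K R hδ hq

end Vale.Agent.P236H
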