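import Vale.Agent.P236Z.Top.St
import Vale.Agent.P251.St.Chrom

/-!
# P236, statement layer: the classes `b_j` in the mod three Adams spectral sequence

`H` is a ring spectrum, `π_* (H ∧ H)` is the dual Steenrod algebra when `H = H 𝔽_p`, and
`π_* (H ∧ H ∧ H)` is the term of degree two of its cobar complex.
-/

open CategoryTheory MonoidalCategory

noncomputable section

namespace Vale.Agent.P236H.St

open Vale.Agent.P251.St Vale.Agent.P251.St.SHCat Vale.Agent.P236Z.St

variable {T : SHCat} {H : RingSp T}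

/-- The product `x y` in the ring `π_* (H ∧ H)`. -/
def mul {A B : T.C} (x : Hom A (ten H.obj H.obj)) (y : Hom B (ten H.obj H.obj)) :
    Hom (ten A B) (ten H.obj H.obj) :=
  comp (tenHom x y) (comp (exch H.obj H.obj H.obj H.obj) (tenHom H.mul H.mul))

/-- The smash power `A ^ (3 ^ j)`. -/
def cube (A : T.C) : ℕ → T.C
  | 0 => A
  | j + 1 => ten (cube A j) (ten (cube A j) (cube A j))

/-- The power `x ^ (3 ^ j)` in the ring `π_* (H ∧ H)`. -/
def frob {A : T.C} (x : Hom A (ten H.obj H.obj)) : ∀ j : ℕ, Hom (cube A j) (ten H.obj H.obj)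
  | 0 => x
  | j + 1 => mul (frob x j) (mul (frob x j) (frob x j))

/-- the associativity `A ⊗ (B ⊗ D) ⟶ (A ⊗ B) ⊗ D` -/
abbrev assoc' (A B D : T.C) : Hom (ten A (ten B D)) (ten (ten A B) D) := (α_ A B D).inv

/-- The cobar cochain `[x | y] ∈ π_* (H ∧ H ∧ H)`: multiply the two middle factors of
`x ∧ y ∈ π_* (H ∧ H ∧ H ∧ H)`. -/
def bar {A B : T.C} (x : Hom A (ten H.obj H.obj)) (y : Hom B (ten H.obj H.obj)) :
    Hom (ten A B) (ten H.obj (ten H.obj H.obj)) :=
  comp (tenHom x y) (comp (assoc H.obj H.obj (ten H.obj H.obj)) (tenHom (ident H.obj)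
    (comp (assoc' H.obj H.obj H.obj) (tenHom H.mul (ident H.obj)))))

/-- The cobar cocycle `b_j = [y | y ^ 2] + [y ^ 2 | y]`, `y = ξ ^ (3 ^ j)`. -/
def bj {A : T.C} (ξ : Hom A (ten H.obj H.obj)) (j : ℕ) :
    Hom (cube A (j + 1)) (ten H.obj (ten H.obj H.obj)) :=
  bar (frob ξ j) (mul (frob ξ j) (frob ξ j)) +
    comp (assoc' (cube A j) (cube A j) (cube A j)) (bar (mul (frob ξ j) (frob ξ j)) (frob ξ j))

/-- the canonical map `A ⊗ Σ B ⟶ Σ (A ⊗ B)` -/
def susOut (A B : T.C) : Hom (ten A (sus B)) (sus (ten A B)) :=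
  comp (tenHom (ident A) (T.tensor.e B).inv) (comp (assoc' A B (sus T.one)) (tenSus (ten A B)))

/-- the suspension of a morphism -/
abbrev susHom {A B : T.C} (f : Hom A B) : Hom (sus A) (sus B) := f⟦(1 : ℤ)⟧'

variable (A : AdamsTower H.unit)

/-- The projection `H ∧ H ⟶ H ∧ Σ X 1 ⟶ Σ Σ X 2` given by the connecting maps of the tower. -/
def proj : Hom (ten H.obj H.obj) (sus (sus (A.X 2))) :=
  comp (tenHom (ident H.obj) (comp (ρ_ H.obj).inv (comp (tenHom (ident H.obj) A.base.inv) (A.d 0))))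
    (comp (susOut H.obj (A.X 1)) (susHom (A.d 1)))

/-- The projection `H ∧ H ∧ H ⟶ Σ Σ (H ∧ X 2)` from the cobar complex to the `E_1`-term. -/
def edge : Hom (ten H.obj (ten H.obj H.obj)) (sus (sus (ten H.obj (A.X 2)))) :=
  comp (tenHom (ident H.obj) (proj A))
    (comp (susOut H.obj (sus (A.X 2))) (susHom (susOut H.obj (A.X 2))))

variable (ξ : Hom (sph T 4) (ten H.obj H.obj)) (j : ℕ)

/-- `x ∈ E_1^{2, n + 2} = π_n (H ∧ X 2)`, `n = 4 * 3 ^ (j + 1) - 2`, is `± b_j`: it is the image of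
the cobar cocycle `b_j`, for an identification `φ` of the two spheres of dimension `n + 2`. -/
def IsB (x : Hom (sph T (4 * 3 ^ (j + 1) - 2)) (ten H.obj (A.X 2))) : Prop :=
  ∃ φ : sus (sus (sph T (4 * 3 ^ (j + 1) - 2))) ≅ cube (sph T 4) (j + 1),
    comp φ.hom (comp (bj ξ j) (edge A)) = susHom (susHom x)

/-- `b_j` survives nontrivially to `E_∞`: it is a permanent cycle which is not hit by a
differential. -/
def Survives : Prop :=
  ∃ x, IsB A ξ j x ∧ A.IsPermCycle 2 x ∧ ¬ A.IsBoundary 2 x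

/-- `θ` is detected by `b_j`: it has a lift to `X 2` whose image in `E_1` is `± b_j`, and it does
not have filtration three. -/
def Detects (θ : Hom (sph T (4 * 3 ^ (j + 1) - 2)) T.one) : Prop :=
  (∃ w : Hom (sph T (4 * 3 ^ (j + 1) - 2)) (A.X 2),
    comp w (A.toSphere 2) = θ ∧ IsB A ξ j (comp w (hur H.unit (A.X 2)))) ∧ ¬ A.FiltGe 3 θ

end Vale.Agent.P236H.St
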