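import Vale.Agent.P236H.Val
import Vale.Agent.P236H.St
import Vale.Agent.P236Z.Top.Fin

/-!
# P236, block DETH: detection by `b_j`

`detects` : a class with a lift to the second stage of the tower of `MU` whose cocycle reduces to
`± b_j` is detected by `b_j` in the mod three Adams spectral sequence.
-/

open CategoryTheory MonoidalCategory Limits Pretriangulated MonObj

set_option linter.unusedSectionVars false

universe u

noncomputable section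

namespace Vale.Agent.P236H

open Vale.Agent.P251 Vale.Agent.P251.T Vale.Agent.P251.M Vale.Agent.P251.S Vale.Agent.P251.F
  Vale.Agent.P251.H Vale.Agent.P251.X Vale.Agent.P251.Z
  Vale.Agent.P251.M.EvenSpheres Vale.Agent.P236Z Vale.Agent.P257.H93
open Vale.Agent.P251.I hiding addLaw

theorem bcls_three (y : Cob Laz 1) : bcls 3 y = Cob.cup y (y ^ 2) + Cob.cup (y ^ 2) y := by
  rw [bcls, show Finset.Ioo 0 3 = {1, 2} from rfl, Finset.sum_pair (by norm_num)]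
  norm_num

theorem isWt_b {t : Cob Laz 1} (ht : IsT1 3 t) (j : ℕ) :
    Cob.IsWt (2 * 3 ^ (j + 1)) (bcls 3 (t ^ 3 ^ j)) := by
  have h := ((BCocycle 3 (by norm_num) t ht).1).pow (3 ^ j)
  have h1 := h.cup (h.pow 2)
  have h2 := (h.pow 2).cup h
  rw [bcls_three]
  refine Cob.IsWt.add (by convert h1 using 1; push_cast; ring) (by convert h2 using 1; push_cast; ring)

section gen

variable {T : Type u} [Category.{0} T] [Preadditive T] [HasZeroObject T]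
    [HasShift T ℤ] [∀ n : ℤ, (shiftFunctor T n).Additive] [Pretriangulated T] [IsTriangulated T]
    [MonoidalCategory T] [SymmetricCategory T] [TensorTriangulated T] [MonoidalClosed T]
    [HasCoproducts.{0} T] [HasProducts.{0} T] [StableCat T] {D : MUData T}

theorem of_add (N : T) (w : ℤ) (a b : (stdEven T).S w ⟶ N) : HRing.of (stdEven T) N w (a + b) =
    HRing.of (stdEven T) N w a + HRing.of (stdEven T) N w b :=
  map_add (DirectSum.of ((stdEven T).Gr N) w) a b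

theorem of_zsmul (N : T) (w n : ℤ) (a : (stdEven T).S w ⟶ N) :
    HRing.of (stdEven T) N w (n • a) = n • HRing.of (stdEven T) N w a :=
  map_zsmul (DirectSum.of ((stdEven T).Gr N) w) n a

theorem exists_sgn {X Y : T} (φ : X ≅ Y) {s : ℤ} (hs : s = 1 ∨ s = -1) :
    ∃ φ' : X ≅ Y, φ'.hom = s • φ.hom := by
  have h : s * s = 1 := by rcases hs with rfl | rfl <;> norm_num
  exact ⟨⟨s • φ.hom, s • φ.inv, by
    rw [Preadditive.zsmul_comp, Preadditive.comp_zsmul, smul_smul, h, one_smul, φ.hom_inv_id], by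
    rw [Preadditive.zsmul_comp, Preadditive.comp_zsmul, smul_smul, h, one_smul, φ.inv_hom_id]⟩, rfl⟩

theorem adjust (U : UnitCof D.R) {j : ℕ} {w' : ℤ} (hw' : w' = 2 * 3 ^ (j + 1))
    (t : (stdEven T).S w' ⟶ (Tw.ofCof U).C₂) (x : Cob.wt Laz 2 w')
    (a : (stdEven T).S w' ⟶ D.R ⊗ (Tw.ofCof U).C₂)
    (h2 : t ≫ unitMap D.R _ = D.evw 2 w' x ≫ Dt.qq D U 2 + (3 : ℤ) • a) {ε : ℤ} {y : CobP 3 1}
    (h4 : fP 3 2 x.1 = ε • P257.H134.bP 3 1 j + dP 1 y) :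
    ∃ (t₁ : (stdEven T).S w' ⟶ (Tw.ofCof U).C₂) (x₁ : Cob.wt Laz 2 w'),
      t₁ ≫ (Tw.ofCof U).bb = t ≫ (Tw.ofCof U).bb ∧
      t₁ ≫ unitMap D.R _ = D.evw 2 w' x₁ ≫ Dt.qq D U 2 + (3 : ℤ) • a ∧
      Cob.d 2 x₁.1 = Cob.d 2 x.1 ∧ fP 3 2 x₁.1 = ε • P257.H134.bP 3 1 j := by
  obtain ⟨y₀, rfl⟩ := fP_surj (p := 3) y
  obtain ⟨t0, ht0⟩ := T1 3
  have h5 := fP_proj (p := 3) (z := x.1 - ε • bcls 3 (t0 ^ 3 ^ j) - Cob.d 1 y₀) (by
    rw [map_sub, map_sub, map_zsmul, fP_bcls_pow ht0, fP_d, h4, add_sub_cancel_left, sub_self]) w'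
  rw [← Cob.projHom_apply, map_sub (Cob.projHom _ _ _), map_sub (Cob.projHom _ _ _), map_zsmul,
    Cob.projHom_apply, Cob.projHom_apply, Cob.projHom_apply, Cob.proj_d, Cob.proj_of_isWt x.2, if_pos rfl,
    Cob.proj_of_isWt (hw' ▸ isWt_b ht0 j), if_pos rfl, sub_right_comm, map_sub, map_zsmul,
    fP_bcls_pow ht0, sub_eq_zero] at h5
  let y₁ : Cob.wt Laz 1 w' := ⟨_, Cob.isWt_proj w' y₀⟩
  refine ⟨t - D.evw 1 w' y₁ ≫ Dt.qq D U 1 ≫ (Tw.ofCof U).k₁, x - Cob.dwt Laz 1 w' y₁, ?_, ?_, ?_, h5⟩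
  · rw [Preadditive.sub_comp, Tw.bb, Category.assoc, Category.assoc,
      reassoc_of% (Tw.ofCof U).d₁.zero₂₃, zero_comp, comp_zero, comp_zero, sub_zero]
  · rw [Preadditive.sub_comp, h2, map_sub, Preadditive.sub_comp, D.evw_dwt, ← Dt.dd,
      Category.assoc, Category.assoc, Category.assoc, Dt.dd_qq D U 1, add_sub_right_comm]
  · change Cob.d 2 (x.1 - Cob.d 1 _) = _
    rw [map_sub, Cob.d_d, sub_zero]

end gen

open Vale.Agent.P251.St Vale.Agent.P251.St.SHCat Vale.Agent.P236Z.St Vale.Agent.P236H.St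

variable {T : SHCat} {H : RingSp T}

/-- the first two stages of an Adams tower -/
abbrev twA (A : AdamsTower H.unit) : Tw H.obj where
  C₁ := (A.X 1)⟦(1 : ℤ)⟧
  C₂ := ((A.X 2)⟦(1 : ℤ)⟧)⟦(1 : ℤ)⟧
  k₀ := H.obj ◁ A.base.inv ≫ A.d 0
  b₀ := -(A.g 0 ≫ A.base.hom)⟦(1 : ℤ)⟧'
  k₁ := (csh H.obj 1 (A.X 1)).hom ≫ (A.d 1)⟦(1 : ℤ)⟧'
  b₁ := ((A.g 1)⟦(1 : ℤ)⟧')⟦(1 : ℤ)⟧'
  d₀ := by
    have h := Tr.dist_iso (Top.tower_dist A 0).rot A.base.symm (whiskerLeftIso H.obj A.base.symm)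
      (Iso.refl _) (f' := unitMap H.obj (𝟙_ T.C)) (g' := H.obj ◁ A.base.inv ≫ A.d 0)
      (unitMap_nat _).symm (Category.comp_id _)
    rwa [Iso.refl_hom, Category.id_comp, Preadditive.neg_comp, ← Functor.map_comp] at h
  d₁ := by
    obtain ⟨φ, hφ⟩ := exists_sgn (csh H.obj 1 (A.X 1)) (Or.inr rfl)
    have h := Tr.dist_iso (Top.tower_dist A 1).rot.rot.rot.rot (Iso.refl _) φ (Iso.refl _)
      (f' := unitMap H.obj _) (g' := (csh H.obj 1 (A.X 1)).hom ≫ (A.d 1)⟦(1 : ℤ)⟧') (by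
        rw [hφ, neg_smul, one_smul, Preadditive.comp_neg, unitMap_csh]
        exact (Category.id_comp _).symm) (by
        rw [hφ, neg_smul, one_smul, Preadditive.neg_comp_neg]
        exact Category.comp_id _)
    rwa [Iso.refl_hom, Category.id_comp, Iso.refl_inv, CategoryTheory.Functor.map_id,
      Category.comp_id, Functor.map_neg, neg_neg] at h

variable (A : AdamsTower H.unit)

theorem twA_bb : (twA A).bb = -((A.toSphere 2)⟦(1 : ℤ)⟧')⟦(1 : ℤ)⟧' := by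
  change ((A.g 1)⟦(1 : ℤ)⟧')⟦(1 : ℤ)⟧' ≫ (-(A.g 0 ≫ A.base.hom)⟦(1 : ℤ)⟧')⟦(1 : ℤ)⟧' = _
  rw [Functor.map_neg, Preadditive.comp_neg, ← Functor.map_comp, ← Functor.map_comp]
  rfl

theorem susOut_eq (X Y : T.C) : susOut X Y = (csh X 1 Y).hom := by
  rw [csh_one, ← id_tensorHom]
  rfl

theorem twA_pr : (twA A).pr = H.obj ◁ (ρ_ H.obj).hom ≫ St.proj A := by
  refine Eq.symm ?_
  rw [St.proj, susOut_eq]
  simp only [comp, tenHom, ident, id_tensorHom]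
  rw [← MonoidalCategory.whiskerLeft_comp_assoc, Iso.hom_inv_id_assoc]
  rfl

theorem edge_eq : edge A = H.obj ◁ St.proj A ≫ (csh H.obj 1 _).hom ≫
    (csh H.obj 1 (A.X 2)).hom⟦(1 : ℤ)⟧' := by
  rw [edge, susOut_eq, susOut_eq]
  simp only [comp, tenHom, ident, id_tensorHom]

theorem of_mul {m n k : ℤ} (h : m + n = k) {X Y : T.C} (a : (stdEven T.C).S m ⟶ X)
    (b : (stdEven T.C).S n ⟶ Y) (x : X ⟶ H.obj ⊗ H.obj) (y : Y ⟶ H.obj ⊗ H.obj) :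
    HRing.of _ _ k ((stdEven T.C).ext h a b ≫ St.mul x y) =
      HRing.of _ _ m (a ≫ x) * HRing.of _ _ n (b ≫ y) :=
  of_ext_mul h a b x y

theorem of_bar {m n k : ℤ} (h : m + n = k) {X Y : T.C} (a : (stdEven T.C).S m ⟶ X)
    (b : (stdEven T.C).S n ⟶ Y) (x : X ⟶ H.obj ⊗ H.obj) (y : Y ⟶ H.obj ⊗ H.obj) :
    HRing.of _ _ k ((stdEven T.C).ext h a b ≫ St.bar x y) =
      HRing.map (e₀₁ H.obj) (HRing.of _ _ m (a ≫ x)) *
        HRing.map (inrM H.obj (H.obj ⊗ H.obj)) (HRing.of _ _ n (b ≫ y)) := by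
  rw [HRing.map_of, HRing.map_of, Category.assoc, Category.assoc, ← of_ext_mul h,
    ← tensorHom_comp_tensorHom_assoc, ← bar_eq, bar]
  simp only [comp, tenHom, ident, id_tensorHom, tensorHom_id]

theorem of_bj {X : T.C} (y : X ⟶ H.obj ⊗ H.obj) {k k' : ℤ} (hk : k + (k + k) = k')
    (a : (stdEven T.C).S k ⟶ X) :
    HRing.of _ _ k' ((stdEven T.C).ext hk a ((stdEven T.C).ext rfl a a) ≫
      (bar y (St.mul y y) + (α_ X X X).inv ≫ bar (St.mul y y) y)) =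
        HRing.map (e₀₁ H.obj) (HRing.of _ _ k (a ≫ y)) *
          HRing.map (inrM H.obj (H.obj ⊗ H.obj)) (HRing.of _ _ k (a ≫ y) ^ 2) +
        HRing.map (e₀₁ H.obj) (HRing.of _ _ k (a ≫ y) ^ 2) *
          HRing.map (inrM H.obj (H.obj ⊗ H.obj)) (HRing.of _ _ k (a ≫ y)) := by
  rw [Preadditive.comp_add, of_add, of_bar, of_mul, ← sq,
    ← ext_assoc rfl (by omega : k + k + k = k') rfl hk, Category.assoc, Iso.hom_inv_id_assoc,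
    of_bar, of_mul, ← sq]

theorem exists_bj {X : T.C} (ξ : X ⟶ H.obj ⊗ H.obj) (j : ℕ) {k k' : ℤ} (hk : k + (k + k) = k')
    (φ : (stdEven T.C).S k ≅ cube X j) : ∃ ψ : (stdEven T.C).S k' ≅ cube X (j + 1),
      HRing.of _ _ k' (ψ.hom ≫ frob ξ (j + 1)) = HRing.of _ _ k (φ.hom ≫ frob ξ j) ^ 3 ∧
      HRing.of _ _ k' (ψ.hom ≫ bj ξ j) =
        HRing.map (e₀₁ H.obj) (HRing.of _ _ k (φ.hom ≫ frob ξ j)) *
          HRing.map (inrM H.obj (H.obj ⊗ H.obj)) (HRing.of _ _ k (φ.hom ≫ frob ξ j) ^ 2) +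
        HRing.map (e₀₁ H.obj) (HRing.of _ _ k (φ.hom ≫ frob ξ j) ^ 2) *
          HRing.map (inrM H.obj (H.obj ⊗ H.obj)) (HRing.of _ _ k (φ.hom ≫ frob ξ j)) := by
  let ψ : (stdEven T.C).S k' ≅ cube X (j + 1) := ((stdEven T.C).mu k (k + k) k' hk).symm ≪≫
    (φ ⊗ᵢ (((stdEven T.C).mu k k _ rfl).symm ≪≫ (φ ⊗ᵢ φ)))
  have h : ψ.hom = (stdEven T.C).ext hk φ.hom ((stdEven T.C).ext rfl φ.hom φ.hom) := rfl
  refine ⟨ψ, ?_, ?_⟩
  · rw [h]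
    refine (of_mul hk _ _ _ _).trans ?_
    rw [of_mul]
    ring
  · exact of_bj _ hk _

theorem exists_frob {X : T.C} (ξ : X ⟶ H.obj ⊗ H.obj) {m : ℤ} (φ₀ : (stdEven T.C).S m ≅ X) :
    ∀ j : ℕ, ∃ φ : (stdEven T.C).S (m * 3 ^ j) ≅ cube X j,
      HRing.of _ _ _ (φ.hom ≫ frob ξ j) = HRing.of _ _ m (φ₀.hom ≫ ξ) ^ 3 ^ j
  | 0 => by
    rw [pow_zero, pow_zero, _root_.mul_one, pow_one]
    exact ⟨φ₀, rfl⟩
  | j + 1 => by
    obtain ⟨φ, h⟩ := exists_frob ξ φ₀ j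
    obtain ⟨ψ, h', -⟩ := exists_bj ξ j (k' := m * 3 ^ (j + 1)) (by ring) φ
    exact ⟨ψ, by rw [h', h, ← pow_mul, ← pow_succ]⟩

variable {D : MUData T.C} {F : SpaceFunctor T.C} {e : F.S.obj CCF ≅ (stdEven T.C).L}
  (hU : MUUniv e D) (hH : IsHF 3 H.unit)
include hU hH

/-- The cocycle `b_j` is the image of the cochain `bcls (t ^ (3 ^ j))`. -/
theorem exists_val (u : D.R ⟶ H.obj) [IsMonHom u] {ξ : Hom (sph T 4) (ten H.obj H.obj)}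
    (hξ : ξ = 0 → ∀ ξ' : Hom (sph T 4) (ten H.obj H.obj), ξ' = 0) {t : Cob Laz 1} (ht : IsT1 3 t) (j : ℕ) {w' : ℤ} (hw' : w' = 2 * 3 ^ (j + 1)) :
    ∃ ψ : (stdEven T.C).S w' ≅ cube (sph T 4) (j + 1),
      HRing.of _ _ w' (ψ.hom ≫ bj ξ j) = val D (s := 2) (ψ₃ u) (bcls 3 (t ^ 3 ^ j)) := by
  have hH' := (Top.isHF_iff 3).1 hH
  let φ₀ : (stdEven T.C).S 2 ≅ sph T 4 := sI 2
  obtain ⟨σ, hσ⟩ := exists_mul u hH' hU (by norm_num) ht (w := 2) (by norm_num) (φ₀.hom ≫ ξ)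
  have := fpA_of hH' (inlM H.obj H.obj)
  have h3 : (3 : ℤ) • val D (s := 1) (ψ₂ u) t = 0 := by
    rw [← map_zsmul]
    refine val₂_of_fP u hH' ?_
    rw [map_zsmul, zsmul_eq_mul]
    exact mul_eq_zero_of_left (CharP.cast_eq_zero (CobP 3 1) 3) _
  obtain ⟨φ₁, h₁⟩ : ∃ φ₁ : (stdEven T.C).S 2 ≅ sph T 4,
      HRing.of _ _ 2 (φ₁.hom ≫ ξ) = val D (s := 1) (ψ₂ u) t := by
    obtain ⟨m, rfl | rfl | rfl⟩ : ∃ m : ℤ, σ = m * 3 ∨ σ = m * 3 + 1 ∨ σ = m * 3 - 1 :=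
      ⟨(σ + 1) / 3, by omega⟩
    · rw [mul_smul, h3, smul_zero, ← of_zero _ 2] at hσ
      have h4 := hξ ((Preadditive.IsIso.comp_left_eq_zero _ _).1 (MUData.of_injective hσ))
      refine ⟨φ₀, Eq.trans ?_ (val_evw D (s := 1) (ψ₂ u)
        (⟨t, (BCocycle 3 (by norm_num) t ht).1⟩ : Cob.wt Laz 1 2)).symm⟩
      rw [h4 ξ, ← φ₀.hom_inv_id_assoc (D.evw 1 2 _ ≫ _), h4 (φ₀.inv ≫ _)]
    · exact ⟨φ₀, by rw [hσ, add_smul, mul_smul, h3, smul_zero, zero_add, one_smul]⟩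
    · obtain ⟨φ₁, h₁⟩ := exists_sgn φ₀ (Or.inr rfl)
      exact ⟨φ₁, by rw [h₁, Preadditive.zsmul_comp, of_zsmul, hσ, sub_smul, mul_smul, h3, smul_zero,
        zero_sub, one_smul, neg_smul_neg, one_smul]⟩
  obtain ⟨φ, hφ⟩ := exists_frob ξ φ₁ j
  obtain ⟨ψ, -, h⟩ := exists_bj ξ j (k' := w') (by rw [hw']; ring) φ
  refine ⟨ψ, ?_⟩
  rw [h, hφ, h₁, bcls_three, map_add, val_cup, val_cup, map_pow _ (t ^ 3 ^ j), map_pow _ t]

/-- **Detection by `b_j`.** -/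
theorem detects' {ξ : Hom (sph T 4) (ten H.obj H.obj)}
    (hξ : ξ = 0 → ∀ ξ' : Hom (sph T 4) (ten H.obj H.obj), ξ' = 0) (U : UnitCof D.R) {j : ℕ}
    {w w' : ℤ} (hw : w + 1 = w') (hw' : w' = 2 * 3 ^ (j + 1)) (θ : (stdEven T.C).S w ⟶ 𝟙_ T.C)
    (t : (stdEven T.C).S w' ⟶ (Tw.ofCof U).C₂) (x : Cob.wt Laz 2 w')
    (a : (stdEven T.C).S w' ⟶ D.R ⊗ (Tw.ofCof U).C₂)
    (h1 : t ≫ (Tw.ofCof U).bb = (Dt.eS hw).hom ≫ (θ⟦(1 : ℤ)⟧')⟦(1 : ℤ)⟧')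
    (h2 : t ≫ unitMap D.R _ = D.evw 2 w' x ≫ Dt.qq D U 2 + (3 : ℤ) • a) {h : ℕ}
    (h3 : Cob.d 2 x.1 ∈ IC 3 h 3) {ε : ℤ} (hε : ε = 1 ∨ ε = -1) {y : CobP 3 1}
    (h4 : fP 3 2 x.1 = ε • P257.H134.bP 3 1 j + dP 1 y)
    (c : sph T (4 * 3 ^ (j + 1) - 2) ≅ (stdEven T.C).S w) : Detects A ξ j (c.hom ≫ θ) := by
  obtain ⟨t₁, x₁, e1, e2, e3, e4⟩ := adjust U hw' t x a h2 h4
  have hH' := (Top.isHF_iff 3).1 hH
  refine ⟨?_, fun ⟨v, hv⟩ => not_af hU hH' U hw hw' θ t₁ x₁ a (e1.trans h1) e2 (e3 ▸ h3) hε e4 ?_⟩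
  · obtain ⟨u, hu⟩ := Dt.exists_thom D hH'.conc
    obtain ⟨t', f1, f2⟩ := (Tw.ofCof U).push (twA A) u t₁ (D.evw 2 w' x₁ ≫ unA D.R) a
      ((hH'.ord 3).2 dvd_rfl) (by rw [e2, qq_two, Category.assoc])
    obtain ⟨v₁, hv⟩ := (shiftFunctor T.C (1 : ℤ)).map_surjective
      ((Dt.eS hw).inv ≫ t' : _ ⟶ ((A.X 2)⟦(1 : ℤ)⟧)⟦(1 : ℤ)⟧)
    obtain ⟨v, rfl⟩ := (shiftFunctor T.C (1 : ℤ)).map_surjective v₁
    obtain ⟨t0, ht0⟩ := T1 3
    obtain ⟨ψ, hψ⟩ := exists_val hU hH u hξ ht0 j hw'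
    obtain ⟨ψ', hψ'⟩ := exists_sgn ψ (s := -ε) (by omega)
    have h5 : D.evw 2 w' x₁ ≫ ψ₃ u = ε • ψ.hom ≫ bj ξ j := by
      apply MUData.of_injective
      rw [of_zsmul, hψ, ← val_evw, ← map_zsmul, ← sub_eq_zero, ← map_sub]
      exact val₃_of_fP u hH' (by rw [map_sub, map_zsmul, fP_bcls_pow ht0, e4, sub_self])
    refine ⟨-(c.hom ≫ v), ?_, (shiftFunctor _ _).mapIso ((shiftFunctor _ _).mapIso c) ≪≫
      (Dt.eS hw).symm ≪≫ ψ', ?_⟩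
    · apply (shiftFunctor T.C (1 : ℤ)).map_injective
      apply (shiftFunctor T.C (1 : ℤ)).map_injective
      rw [e1, h1, twA_bb, ← Iso.inv_comp_eq, ← Category.assoc] at f1
      simp only [comp, Functor.map_comp, Functor.map_neg]
      rw [← f1, hv, Preadditive.neg_comp, Preadditive.comp_neg, Preadditive.comp_neg,
        Category.assoc]
    · rw [twA_pr, Category.assoc, MonoidalCategory.whiskerLeft_comp, reassoc_of% unA_ψ₃,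
        reassoc_of% h5] at f2
      have h6 : ((unitMap H.obj (A.X 2))⟦(1 : ℤ)⟧')⟦(1 : ℤ)⟧' = unitMap H.obj _ ≫
          (csh H.obj 1 _).hom ≫ (csh H.obj 1 (A.X 2)).hom⟦(1 : ℤ)⟧' := by
        rw [unitMap_csh_assoc, ← Functor.map_comp, unitMap_csh]
      rw [show hur H.unit (A.X 2) = unitMap H.obj _ from Top.hur_eq _]
      simp only [comp, susHom, Functor.map_comp, Functor.map_neg, Iso.trans_hom, Functor.mapIso_hom,
        Iso.symm_hom, Category.assoc]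
      rw [hv, h6, edge_eq, hψ', Preadditive.neg_comp, Category.assoc, Category.assoc]
      rw [reassoc_of% f2]
      simp only [neg_smul, Preadditive.neg_comp, Preadditive.comp_neg, Preadditive.zsmul_comp,
        Category.assoc]
  · have h5 := ((Tr.AF.of_three (Top.tower_dist A 0) (Top.tower_dist A 1) (Top.tower_dist A 2)
      v).post A.base.hom).pre c.inv
    have h6 : (v ≫ A.g 2 ≫ A.g 1 ≫ A.g 0) ≫ A.base.hom = c.hom ≫ θ := by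
      rw [← hv]
      simp only [Category.assoc]
      rfl
    rwa [h6, Iso.inv_hom_id_assoc] at h5

theorem detects {ξ : Hom (sph T 4) (ten H.obj H.obj)} (hξ : ξ ≠ 0) (U : UnitCof D.R) {j : ℕ}
    {w w' : ℤ} (hw : w + 1 = w') (hw' : w' = 2 * 3 ^ (j + 1)) (θ : (stdEven T.C).S w ⟶ 𝟙_ T.C)
    (t : (stdEven T.C).S w' ⟶ (Tw.ofCof U).C₂) (x : Cob.wt Laz 2 w')
    (a : (stdEven T.C).S w' ⟶ D.R ⊗ (Tw.ofCof U).C₂)
    (h1 : t ≫ (Tw.ofCof U).bb = (Dt.eS hw).hom ≫ (θ⟦(1 : ℤ)⟧')⟦(1 : ℤ)⟧')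
    (h2 : t ≫ unitMap D.R _ = D.evw 2 w' x ≫ Dt.qq D U 2 + (3 : ℤ) • a) {h : ℕ}
    (h3 : Cob.d 2 x.1 ∈ IC 3 h 3) {ε : ℤ} (hε : ε = 1 ∨ ε = -1) {y : CobP 3 1}
    (h4 : fP 3 2 x.1 = ε • P257.H134.bP 3 1 j + dP 1 y)
    (c : sph T (4 * 3 ^ (j + 1) - 2) ≅ (stdEven T.C).S w) : Detects A ξ j (c.hom ≫ θ) :=
  detects' A hU hH (fun h => absurd h hξ) U hw hw' θ t x a h1 h2 h3 hε h4 c

end Vale.Agent.P236H

end
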