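import Vale.Agent.P236H.Cs
import Vale.Agent.P236S.Ex2
import Vale.Agent.P236Z.Top.All

/-!
# P236: the assembly of the final statement from the output of the spectral sequence of `MU`
-/

open CategoryTheory MonoidalCategory Limits Pretriangulated MonObj

set_option linter.unusedSectionVars false

noncomputable section

namespace Vale.Agent.P236H

open Vale.Agent.P251 Vale.Agent.P251.T Vale.Agent.P251.M Vale.Agent.P251.S Vale.Agent.P251.F
  Vale.Agent.P251.X Vale.Agent.P251.Z Vale.Agent.P236Z Vale.Agent.P236K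
open Vale.Agent.P251.I hiding addLaw
open Vale.Agent.P251.St Vale.Agent.P251.St.SHCat Vale.Agent.P236Z.St Vale.Agent.P236H.St

/-- A property of the tower of `MU` and of `S / 3` holds in every stable homotopy category. -/
def Always
    (P : ∀ (T : SHCat) (D : MUData T.C) (_ : UnitCof D.R) (V : T.C), (𝟙_ T.C ⟶ V) → Prop) : Prop :=
  ∀ (T : SHCat) (F : SpaceFunctor T.C) (e : F.S.obj CCF ≅ (stdEven T.C).L) (D : MUData T.C),
    MUUniv e D → ∀ (U : UnitCof D.R) (V : T.C) (i : 𝟙_ T.C ⟶ V) (δ : V ⟶ (𝟙_ T.C)⟦(1 : ℤ)⟧),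
      H.Dist ((3 : ℤ) • 𝟙 (𝟙_ T.C)) i δ → P T D U V i

theorem Always.elim {P} (h : Always P) {T : SHCat} (S : Susp T) :
    ∃ (F : SpaceFunctor T.C) (e : F.S.obj CCF ≅ (stdEven T.C).L) (D : MUData T.C) (_ : MUUniv e D)
      (U : UnitCof D.R) (V : T.C) (i : 𝟙_ T.C ⟶ V) (δ : V ⟶ (𝟙_ T.C)⟦(1 : ℤ)⟧),
      H.Dist ((3 : ℤ) • 𝟙 (𝟙_ T.C)) i δ ∧ P T D U V i := by
  have := locallySmall_self.{0} T.C
  obtain ⟨M⟩ := nonempty_MUMon S.toSpaceFunctor (stdEven T.C) (lineIso S.toSpaceFunctor)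
  obtain ⟨b⟩ := M.nonempty_muBasis
  obtain ⟨U⟩ := exists_unitCof (M.data b).R
  obtain ⟨V, i, δ, hC⟩ := H.exists_cone ((3 : ℤ) • 𝟙 (𝟙_ T.C))
  exact ⟨_, _, _, M.muUniv b, U, V, i, δ, hC, h T _ _ _ (M.muUniv b) U V i δ hC⟩

theorem always_zero : Always fun _ D U _ _ => ExOut D U 0 3 :=
  fun _ _ _ _ _ _ _ _ _ hC => exOut_of_engOut3 hC (engOut3_zero hC)

theorem always_core3 {j : ℕ} (h : Always fun _ D U _ i => EngOut3 D U i j) :
    Always fun _ D U _ _ => P236S.Core D U 3 j :=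
  fun T F e D hU U V i δ hC => P236S.core_of_engOut3 hC (h T F e D hU U V i δ hC)

theorem always_core9 {j : ℕ} (h : Always fun _ D U _ i => EngOut D U i j) :
    Always fun _ D U _ _ => P236S.Core D U 9 j :=
  fun T F e D hU U V i δ hC => P236S.core_of_engOut hC (h T F e D hU U V i δ hC)

variable {T : SHCat} {H : RingSp T} {A : AdamsTower H.unit}
  {ξ : Hom (sph T 4) (ten H.obj H.obj)} {j : ℕ}

theorem filtGe_of {θ : Hom (sph T (4 * 3 ^ (j + 1) - 2)) T.one}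
    (w : Hom (sph T (4 * 3 ^ (j + 1) - 2)) (A.X 2)) (hw : w ≫ A.toSphere 2 = θ)
    (h : w ≫ hur H.unit (A.X 2) = 0) : A.FiltGe 3 θ := by
  obtain ⟨v, rfl⟩ := P251.H.Dist.lift₂ (A.dist 2) w h
  exact ⟨v, by rw [← hw, Category.assoc]; rfl⟩

theorem survives_of_detects {θ : Hom (sph T (4 * 3 ^ (j + 1) - 2)) T.one}
    (h : Detects A ξ j θ) : Survives A ξ j := by
  obtain ⟨⟨w, hw, hB⟩, hn⟩ := h
  refine ⟨_, hB, fun r => ⟨0, ?_⟩, fun ⟨y, h1, h2⟩ => hn (filtGe_of (w - y) ?_ ?_)⟩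
  · refine zero_comp.trans (Eq.symm ((Category.assoc _ _ _).trans ?_))
    rw [P251.H.Dist.zero₂₃ (A.dist 2), comp_zero]
  · rw [Preadditive.sub_comp, sub_eq_iff_eq_add]
    exact hw.trans ((add_zero _).symm.trans (congrArg _ h1.symm))
  · rw [Preadditive.sub_comp, sub_eq_zero]
    exact h2.symm

variable (S : Susp T) (hH : IsHF 3 H.unit)
include S hH

theorem not_survives (h : ∀ θ : Hom (sph T (4 * 3 ^ (j + 1) - 2)) T.one, A.FiltGe 3 θ) :
    ¬ Survives A ξ j := by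
  rintro ⟨x, -, hx, hn⟩
  have := locallySmall_self.{0} T.C
  obtain ⟨y, rfl⟩ := Cv.exists_of_perm A S Cv.sahn (Cv.exp T.C) (Cv.divi T.C) hH (by
    have : (0 : ℤ) < 3 ^ (j + 1) := by positivity
    omega) 2 x hx
  exact hn (Cv.boundary_of A h le_rfl y)

theorem not_survives_of_le (hj : 4 ≤ j) : ¬ Survives A ξ j :=
  not_survives S hH (((Top.fin.2 T S).2 _ _ hH).2 A j hj)

theorem not_survives_one
    (h : Always fun _ D U _ i => ∀ x : Co 2 9, IsZ x → P236L.Perm D U i x → P236K.IsB x) :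
    ¬ Survives A ξ 1 := by
  obtain ⟨F, e, D, hU, U, V, i, δ, hC, h⟩ := h.elim S
  refine not_survives S hH fun θ => Top.filtGe_three A ?_
  let c : (stdEven T.C).S 17 ≅ sph T (4 * 3 ^ (1 + 1) - 2) := sI 17
  have h1 := (P236S.af_of_engOut1 hC h ((Top.isHF_iff 3).1 hH) rfl (c.hom ≫ θ)).pre c.inv
  rwa [Iso.inv_hom_id_assoc] at h1

theorem exists_detects {q : ℤ} (h : Always fun _ D U _ _ => P236S.Core D U q j) (hξ : ξ ≠ 0) :
    ∃ θ, Detects A ξ j θ ∧ zmul q θ = 0 := by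
  obtain ⟨F, e, D, hU, U, V, i, δ, hC, h⟩ := h.elim S
  exact P236S.detects_of_core A hU hH hξ h

theorem detects_zero (hξ : ξ ≠ 0) : ∃ θ, Detects A ξ 0 θ ∧ zmul 3 θ = 0 := by
  obtain ⟨F, e, D, hU, U, V, i, δ, hC, h⟩ := always_zero.elim S
  exact detects_of_exOut A hU hH (fun h => absurd h hξ) h

theorem exists_xi : ∃ ξ : Hom (sph T 4) (ten H.obj H.obj), ξ ≠ 0 := by
  by_contra h0
  push Not at h0
  obtain ⟨A⟩ := Top.nonempty_tower H.unit
  obtain ⟨F, e, D, hU, U, V, i, δ, hC, h⟩ := always_zero.elim S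
  obtain ⟨θ, ⟨⟨w, hw, φ, hφ⟩, hn⟩, -⟩ := detects_of_exOut A hU hH (ξ := 0) (fun _ => h0) h
  refine hn (filtGe_of w hw ?_)
  apply (shiftFunctor T.C (1 : ℤ)).map_injective
  apply (shiftFunctor T.C (1 : ℤ)).map_injective
  have h1 : ∀ {X Y : T.C} (y : Y ⟶ H.obj ⊗ H.obj), bar (0 : X ⟶ H.obj ⊗ H.obj) y = 0 := by
    simp [bar, comp, tenHom, MonoidalCategory.tensorHom_def]
  have h2 : ∀ {X Y : T.C} (y : Y ⟶ H.obj ⊗ H.obj), bar y (0 : X ⟶ H.obj ⊗ H.obj) = 0 := by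
    simp [bar, comp, tenHom, MonoidalCategory.tensorHom_def]
  have h3 : bj (0 : Hom (sph T 4) (ten H.obj H.obj)) 0 = 0 :=
    (congrArg₂ (· + ·) (h1 _) ((congrArg _ (h2 _)).trans comp_zero)).trans (add_zero _)
  refine hφ.symm.trans ?_
  rw [h3, Functor.map_zero, Functor.map_zero]
  exact (congrArg _ zero_comp).trans comp_zero

omit hH in
theorem exists_H : ∃ H : RingSp T, IsHF 3 H.unit := by
  have := locallySmall_self.{0} T.C
  obtain ⟨H, m, c, h⟩ := Dt.exists_HFmon S.toSpaceFunctor (p := 3) (by norm_num)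
  exact ⟨@RingSp.mk T H m c, (Top.isHF_iff 3).2 h⟩

omit S hH

/-- The final statement. -/
def FIN (q : ℤ) : Prop :=
  (∃ T : SHCat, Nonempty (Susp T)) ∧ ∀ (T : SHCat) (_ : Susp T),
    (∃ H : RingSp T, IsHF 3 H.unit) ∧ ∀ H : RingSp T, IsHF 3 H.unit →
      Nonempty (AdamsTower H.unit) ∧ (∃ ξ : Hom (sph T 4) (ten H.obj H.obj), ξ ≠ 0) ∧
      ∀ (A : AdamsTower H.unit) (ξ : Hom (sph T 4) (ten H.obj H.obj)), ξ ≠ 0 →
        (∀ j : ℕ, Survives A ξ j ↔ j = 0 ∨ j = 2 ∨ j = 3) ∧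
        (∃ θ, Detects A ξ 0 θ ∧ zmul 3 θ = 0) ∧ (∃ θ, Detects A ξ 2 θ ∧ zmul 3 θ = 0) ∧
        ∃ θ, Detects A ξ 3 θ ∧ zmul q θ = 0

/-- The final statement for `j ≥ 3` only. -/
def FIN3 (q : ℤ) : Prop :=
  (∃ T : SHCat, Nonempty (Susp T)) ∧ ∀ (T : SHCat) (_ : Susp T),
    (∃ H : RingSp T, IsHF 3 H.unit) ∧ ∀ H : RingSp T, IsHF 3 H.unit →
      Nonempty (AdamsTower H.unit) ∧ (∃ ξ : Hom (sph T 4) (ten H.obj H.obj), ξ ≠ 0) ∧
      ∀ (A : AdamsTower H.unit) (ξ : Hom (sph T 4) (ten H.obj H.obj)), ξ ≠ 0 →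
        (∀ j : ℕ, 3 ≤ j → (Survives A ξ j ↔ j = 3)) ∧ ∃ θ, Detects A ξ 3 θ ∧ zmul q θ = 0

theorem fin3_of {q : ℤ} (h3 : Always fun _ D U _ _ => P236S.Core D U q 3) : FIN3 q := by
  refine ⟨nonempty_susp, fun T S => ⟨exists_H S, fun H hH => ⟨Top.nonempty_tower _,
    exists_xi S hH, fun A ξ hξ => ?_⟩⟩⟩
  obtain ⟨θ, h⟩ := exists_detects (A := A) S hH h3 hξ
  refine ⟨fun j hj => ⟨fun hs => ?_, ?_⟩, θ, h⟩
  · by_contra h4
    exact not_survives_of_le S hH (by omega) hs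
  · rintro rfl
    exact survives_of_detects h.1

theorem fin_of {q : ℤ}
    (h1 : Always fun _ D U _ i => ∀ x : Co 2 9, IsZ x → P236L.Perm D U i x → P236K.IsB x)
    (h2 : Always fun _ D U _ _ => P236S.Core D U 3 2)
    (h3 : Always fun _ D U _ _ => P236S.Core D U q 3) : FIN q := by
  refine ⟨nonempty_susp, fun T S => ⟨exists_H S, fun H hH => ⟨Top.nonempty_tower _,
    exists_xi S hH, fun A ξ hξ => ?_⟩⟩⟩
  obtain ⟨θ₀, e0⟩ := detects_zero (A := A) S hH hξ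
  obtain ⟨θ₂, e2⟩ := exists_detects (A := A) S hH h2 hξ
  obtain ⟨θ₃, e3⟩ := exists_detects (A := A) S hH h3 hξ
  refine ⟨fun j => ⟨fun hs => ?_, ?_⟩, ⟨θ₀, e0⟩, ⟨θ₂, e2⟩, θ₃, e3⟩
  · by_contra h4
    by_cases h5 : j = 1
    · subst h5
      exact not_survives_one S hH h1 hs
    · exact not_survives_of_le S hH (by omega) hs
  · rintro (rfl | rfl | rfl)
    exacts [survives_of_detects e0.1, survives_of_detects e2.1, survives_of_detects e3.1]

end Vale.Agent.P236H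

end
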