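import Vale.Agent.P236Z.Dt.Moore

/-!
# P236, block ORD: maps to the unit which are represented by a cochain of filtration one
-/

open CategoryTheory MonoidalCategory Limits Pretriangulated MonObj

universe v u

namespace Vale.Agent.P236H

open Vale.Agent.P251 Vale.Agent.P251.T Vale.Agent.P251.M Vale.Agent.P251.S Vale.Agent.P251.F
  Vale.Agent.P251.I Vale.Agent.P236Z

variable {T : Type u} [Category.{v} T] [Preadditive T] [HasZeroObject T]
    [HasShift T ℤ] [∀ n : ℤ, (shiftFunctor T n).Additive] [Pretriangulated T]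
    [MonoidalCategory T] [SymmetricCategory T] [TensorTriangulated T] [HasCoproducts.{0} T]
    (D : MUData T) (U : UnitCof D.R)

/-- `φ` lifts to the first stage of the tower of `MU`, and the class of the lift is `x` on the cell
`π`. -/
def Rep {w : ℤ} (x : Cob.wt Laz 1 w) {X : T} (φ : X ⟶ 𝟙_ T)
    (π : X⟦(1 : ℤ)⟧ ⟶ (stdEven T).S w) : Prop :=
  ∃ c : X⟦(1 : ℤ)⟧ ⟶ U.cobar.B 1 (𝟙_ T), c ≫ U.bd 0 (𝟙_ T) = φ⟦(1 : ℤ)⟧' ∧
    c ≫ unitMap D.R _ = π ≫ D.evw 1 w x ≫ Dt.qq D U 1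

end Vale.Agent.P236H
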