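import Vale.Agent.P236H.OrdD
import Vale.Agent.P236R.Asm

/-!
# P236, block ORD: the statement `OrdC`
-/

namespace Vale.Agent.P236H

theorem ordC : Always fun _ D U _ _ => P236R.OrdC D U :=
  fun _ _ _ _ hU _ _ _ _ _ _ _ _ _ _ _ _ _ hX hL hC K κ _ _ hG hg _ φ hd hx hf _ _ hy =>
    det hU hX hL (by norm_num) hC K κ hG hg (by norm_num) hd hx φ hf hy

end Vale.Agent.P236H
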