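import Vale.Agent.P236T.Defs
import Vale.Agent.P236A.Wt

/-!
# P236, block BRG: algebra of the small complex modulo `3`

* `rcH`, `rc_X0`, `D3H` : reduction modulo `3`;
* `D3_smul0` : the differential is `v_1`-linear modulo `3`;
* `exists_tw` : `D (v_2 ^ κ D e) = v_1 ^ j D f` with `f` homogeneous;
* `exists_lift`, `exists_div` : lifting to `ℤ/9` and division by `3`.
-/

noncomputable section

namespace Vale.Agent.P236H

open Vale.Agent.P236A Vale.Agent.P236B Vale.Agent.P236T MvPolynomial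

section Coeff

variable {R R' : Type} [CommRing R] [CommRing R']

theorem exists_coeff (σ : R → R') (h0 : σ 0 = 0) (f : MvPolynomial ℕ R) :
    ∃ g : MvPolynomial ℕ R', ∀ d, coeff d g = σ (coeff d f) := by
  classical
  refine ⟨∑ d ∈ f.support, monomial d (σ (coeff d f)), fun d => ?_⟩
  rw [coeff_sum]
  simp only [coeff_monomial]
  rw [Finset.sum_ite_eq']
  split_ifs with h
  · rfl
  · rw [notMem_support_iff.1 h, h0]

theorem exists_vec {ι : Type} (Γ : Gens ι) (σ : R → R') (h0 : σ 0 = 0) {s : ℕ} {w : ℤ}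
    {c : ι → Av R} (hc : Hom 3 Γ s w c) :
    ∃ c' : ι → Av R', Hom 3 Γ s w c' ∧ ∀ g d, coeff d (c' g) = σ (coeff d (c g)) := by
  choose c' hc' using fun g => exists_coeff σ h0 (c g)
  refine ⟨c', fun g => ⟨fun d hd => (hc g).1 fun h => hd ?_, fun h => ?_⟩, hc'⟩
  · rw [hc', h, h0]
  · ext d
    rw [hc', (hc g).2 h, coeff_zero, h0, coeff_zero]

theorem isWH_of_X_pow {j : ℕ} {w : ℤ} {f : Av R}
    (h : IsWeightedHomogeneous (wz 3) ((X 0 : Av R) ^ j * f) (2 * j + w)) :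
    IsWeightedHomogeneous (wz 3) f w := by
  intro d hd
  have h1 : coeff (Finsupp.single 0 j + d) ((X 0 : Av R) ^ j * f) ≠ 0 := by
    rwa [X_pow_eq_monomial, coeff_monomial_mul, one_mul]
  have h2 := h h1
  rw [map_add, Finsupp.weight_single] at h2
  have h3 : wz 3 0 = 2 := by norm_num [wz]
  rw [h3, nsmul_eq_mul] at h2
  omega

theorem X_pow_cancel {j : ℕ} {f : Av R} (h : (X 0 : Av R) ^ j * f = 0) : f = 0 := by
  ext d
  have h1 := congrArg (coeff (Finsupp.single 0 j + d)) h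
  rwa [X_pow_eq_monomial, coeff_monomial_mul, one_mul] at h1

end Coeff

variable {ι : Type} [Fintype ι] {Γ : Gens ι} {δ : Mat ι (Av (ZMod 9))}

/-- reduction as an additive map -/
def rcH : (ι → Av (ZMod 9)) →+ (ι → Av (ZMod 3)) :=
  AddMonoidHom.mk' rc fun _ _ => funext fun _ => map_add (map r3) _ _

omit [Fintype ι] in
theorem rcH_apply (c : ι → Av (ZMod 9)) : rcH c = rc c := rfl

theorem rc_X0 (c : ι → Av (ZMod 9)) : rc (X0 3 δ c) = D3 δ (rc c) := map_X0 3 r3 δ c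

omit [Fintype ι] in
theorem rc_smul (a : Av (ZMod 9)) (c : ι → Av (ZMod 9)) : rc (a • c) = map r3 a • rc c :=
  funext fun g => map_mul (map r3) a (c g)

omit [Fintype ι] in
theorem three_smul (c : ι → Av (ZMod 3)) : (3 : ℤ) • c = 0 := by
  funext g
  rw [Pi.smul_apply, zsmul_eq_mul, ← map_intCast (C : ZMod 3 →+* Av (ZMod 3)),
    show ((3 : ℤ) : ZMod 3) = 0 from rfl, map_zero, zero_mul, Pi.zero_apply]

omit [Fintype ι] in
theorem rc_three (c : ι → Av (ZMod 9)) : rc ((3 : ℤ) • c) = 0 := by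
  rw [← rcH_apply, map_zsmul, three_smul]

omit [Fintype ι] in
theorem Hom.rc {s : ℕ} {w : ℤ} {c : ι → Av (ZMod 9)} (hc : Hom 3 Γ s w c) : Hom 3 Γ s w (rc c) :=
  (hom_iff 3 Γ).2 (HomG.map Γ ((Grd.map_triv r3).map _) ((hom_iff 3 Γ).1 hc))

omit [Fintype ι] in
theorem hom_sub {k : Type} [CommRing k] {s : ℕ} {w : ℤ} {c c' : ι → Av k} (hc : Hom 3 Γ s w c)
    (hc' : Hom 3 Γ s w c') : Hom 3 Γ s w (c - c') :=
  (hom_iff 3 Γ).2 (sub_mem ((hom_iff 3 Γ).1 hc) ((hom_iff 3 Γ).1 hc'))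

omit [Fintype ι] in
theorem hom_X_pow {k : Type} [CommRing k] (i n : ℕ) {s : ℕ} {w : ℤ} {c : ι → Av k}
    (hc : Hom 3 Γ s w c) : Hom 3 Γ s (n • wz 3 i + w) ((X i : Av k) ^ n • c) :=
  (hom_iff 3 Γ).2 (HomG.smul Γ ((gA 3 k).pow_mem (Grd.X_mem _ _ i) n) ((hom_iff 3 Γ).1 hc))

omit [Fintype ι] in
theorem hom_of_X_pow {k : Type} [CommRing k] {j s : ℕ} {w : ℤ} {c : ι → Av k}
    (hc : Hom 3 Γ s (2 * j + w) ((X 0 : Av k) ^ j • c)) : Hom 3 Γ s w c := fun g =>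
  ⟨isWH_of_X_pow (j := j) (by rw [← add_sub_assoc]; exact (hc g).1),
    fun h => X_pow_cancel ((hc g).2 h)⟩

omit [Fintype ι] in
theorem homD3 (hδ : HomD 3 Γ δ) : HomD 3 Γ (mapM r3 δ) where
  wt g g' J := (mem_gA 3).1 ((Grd.map_triv r3).map _ _ _ ((mem_gA 3).2 (hδ.wt g g' J)))
  deg g g' J h := by rw [mapM, hδ.deg g g' J h, map_zero]
  unit g' := by rw [mapM, hδ.unit, map_zero]

theorem sq3 {N : ℤ} (hδ : SqZero 3 Γ δ N) : SqZero 3 Γ (mapM r3 δ) N := fun g g'' J h => by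
  rw [← mapM_RR, mapM, hδ g g'' J h, map_zero]

/-- the differential modulo `3` as an additive map -/
def D3H (δ : Mat ι (Av (ZMod 9))) : (ι → Av (ZMod 3)) →+ (ι → Av (ZMod 3)) := X0H 3 (mapM r3 δ)

theorem D3H_apply (c : ι → Av (ZMod 3)) : D3H δ c = D3 δ c := rfl

theorem D3_add (c c' : ι → Av (ZMod 3)) : D3 δ (c + c') = D3 δ c + D3 δ c' := map_add (D3H δ) _ _

theorem D3_sub (c c' : ι → Av (ZMod 3)) : D3 δ (c - c') = D3 δ c - D3 δ c' := map_sub (D3H δ) _ _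

theorem three_G : ((3 : ℕ) : Gm (ZMod 3)) = 0 := by
  rw [← map_natCast (C : Av (ZMod 3) →+* Gm (ZMod 3)),
    ← map_natCast (C : ZMod 3 →+* Av (ZMod 3)), ZMod.natCast_self, map_zero, map_zero]

theorem etaR_X (i : ℕ) :
    etaR 3 (ZMod 3) (X i) = eta 3 (fun i => (C (X i) : Gm (ZMod 3))) X i := by
  simp [etaR]

theorem etaR_X0 : etaR 3 (ZMod 3) (X 0) = C (X 0) := by
  rw [etaR_X, eta_one, three_G, zero_mul, add_zero]

theorem etaR_X1 : ∃ θ : Gm (ZMod 3), etaR 3 (ZMod 3) (X 1) = C (X 1) + C (X 0) * θ := by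
  have h := eta_sub_mem 3 (fun i => (C (X i) : Gm (ZMod 3))) X 1
  rw [← etaR_X] at h
  have h1 : Vale.Agent.P257.H80.HI 3 (vH fun i => (C (X i) : Gm (ZMod 3))) 1 ≤
      Ideal.span {C (X 0)} := by
    refine Ideal.span_le.2 ?_
    rintro _ (rfl | ⟨j, hj, rfl⟩)
    · rw [three_G]
      exact zero_mem _
    · obtain rfl : j = 0 := Nat.lt_one_iff.1 hj
      simp only [vH_X]
      exact Ideal.subset_span rfl
  obtain ⟨θ, hθ⟩ := Ideal.mem_span_singleton.1 (h1 h)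
  exact ⟨θ, by rw [← hθ, add_sub_cancel]⟩

theorem etaR_X1_pow {e κ : ℕ} (h : 3 ^ e ∣ κ) : ∃ θ : Gm (ZMod 3),
    etaR 3 (ZMod 3) (X 1 ^ κ) = C (X 1 ^ κ) + C (X 0 ^ 3 ^ e) * θ := by
  obtain ⟨θ, hθ⟩ := etaR_X1
  obtain ⟨m, rfl⟩ := h
  have : CharP (Gm (ZMod 3)) 3 := inferInstance
  have h1 := sub_dvd_pow_sub_pow (etaR 3 (ZMod 3) (X 1) ^ 3 ^ e) (C (X 1) ^ 3 ^ e) m
  rw [hθ, add_pow_char_pow, add_sub_cancel_left, ← add_pow_char_pow, ← hθ, mul_pow] at h1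
  obtain ⟨θ', h2⟩ := (dvd_mul_right _ _).trans h1
  refine ⟨θ', ?_⟩
  rw [map_pow, map_pow, map_pow, pow_mul, pow_mul, ← h2, add_sub_cancel]

theorem D3_smul0 (j : ℕ) (c : ι → Av (ZMod 3)) :
    D3 δ ((X 0 : Av (ZMod 3)) ^ j • c) = (X 0 : Av (ZMod 3)) ^ j • D3 δ c := by
  funext g'
  simp only [D3, X0, Pi.smul_apply, smul_eq_mul, Finset.mul_sum, act0]
  refine Finset.sum_congr rfl fun g _ => ?_
  rw [map_mul, map_pow, etaR_X0, ← map_pow, lin_C_mul]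

theorem exists_div_pow {e κ : ℕ} (h : 3 ^ e ∣ κ) (c : ι → Av (ZMod 3)) :
    ∃ f, D3 δ ((X 1 : Av (ZMod 3)) ^ κ • c) =
      (X 1 : Av (ZMod 3)) ^ κ • D3 δ c + (X 0 : Av (ZMod 3)) ^ 3 ^ e • f := by
  obtain ⟨θ, hθ⟩ := etaR_X1_pow h
  refine ⟨fun g' => ∑ g, lin (mapM r3 δ g g') (θ * etaR 3 (ZMod 3) (c g)), funext fun g' => ?_⟩
  simp only [D3, X0, Pi.add_apply, Pi.smul_apply, smul_eq_mul, Finset.mul_sum, act0]
  rw [← Finset.sum_add_distrib]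
  refine Finset.sum_congr rfl fun g _ => ?_
  rw [map_mul, hθ, add_mul, map_add, lin_C_mul, mul_assoc, lin_C_mul]

theorem exists_tw (hδ : HomD 3 Γ δ) {N : ℤ} (hq : SqZero 3 Γ δ N) {e κ U s T : ℕ} (h : 3 ^ e ∣ κ)
    (hU : U + 3 ^ e = 4 * κ) (hN : 2 * ((T : ℤ) + 4 * κ) ≤ N) {c : ι → Av (ZMod 3)}
    (hc : Cl Γ s T c) : ∃ f, Cl Γ (s + 1) (U + T) f ∧
      D3 δ ((X 1 : Av (ZMod 3)) ^ κ • D3 δ c) = (X 0 : Av (ZMod 3)) ^ 3 ^ e • D3 δ f := by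
  obtain ⟨f, hf⟩ := exists_div_pow (δ := δ) h c
  have hw : wz 3 1 = 8 := by norm_num [wz]
  have hU' : (U : ℤ) + (3 ^ e : ℕ) = 4 * κ := by exact_mod_cast hU
  have h1 := hom_X_pow 1 κ hc
  have h2 : Hom 3 Γ (s + 1) _ (D3 δ _) := Hom.X0 3 Γ (homD3 hδ) h1
  have h3 := hom_X_pow 1 κ (Hom.X0 3 Γ (homD3 hδ) hc)
  have h4 := hom_sub h3 h2
  have h5 : (X 1 : Av (ZMod 3)) ^ κ • X0 3 (mapM r3 δ) c - D3 δ ((X 1 : Av (ZMod 3)) ^ κ • c) =
      (X 0 : Av (ZMod 3)) ^ 3 ^ e • (-f) := by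
    rw [hf, smul_neg, D3, sub_add_cancel_left]
  refine ⟨-f, hom_of_X_pow (j := 3 ^ e) ?_, ?_⟩
  · rw [h5] at h4
    convert h4 using 1
    rw [hw, nsmul_eq_mul]
    push_cast at hU' ⊢
    linarith
  · rw [← D3_smul0, ← h5, D3_sub]
    have h6 : D3 δ (D3 δ ((X 1 : Av (ZMod 3)) ^ κ • c)) = 0 :=
      X0_X0_zero 3 Γ (sq3 hq) (by rw [hw, nsmul_eq_mul]; linarith) h1
    rw [h6, sub_zero]
    rfl

omit [Fintype ι] in
theorem exists_lift {s : ℕ} {w : ℤ} {c : ι → Av (ZMod 3)} (hc : Hom 3 Γ s w c) :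
    ∃ c' : ι → Av (ZMod 9), Hom 3 Γ s w c' ∧ rc c' = c := by
  obtain ⟨c', h1, h2⟩ := exists_vec Γ (fun x : ZMod 3 => ((x.val : ℕ) : ZMod 9)) (by simp) hc
  refine ⟨c', h1, funext fun g => MvPolynomial.ext _ _ fun d => ?_⟩
  rw [rc, coeff_map, h2, map_natCast, ZMod.natCast_zmod_val]

theorem div3 : ∀ x : ZMod 9, (ZMod.cast x : ZMod 3) = 0 →
    x = 3 * ((x.val / 3 : ℕ) : ZMod 9) := by decide

omit [Fintype ι] in
theorem exists_div {s : ℕ} {w : ℤ} {c : ι → Av (ZMod 9)} (hc : Hom 3 Γ s w c) (h : rc c = 0) :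
    ∃ c' : ι → Av (ZMod 9), Hom 3 Γ s w c' ∧ c = (3 : ℤ) • c' := by
  obtain ⟨c', h1, h2⟩ := exists_vec Γ (fun x : ZMod 9 => ((x.val / 3 : ℕ) : ZMod 9)) (by simp) hc
  refine ⟨c', h1, funext fun g => MvPolynomial.ext _ _ fun d => ?_⟩
  have h3 := congrArg (coeff d) (congrFun h g)
  rw [rc, coeff_map, Pi.zero_apply, coeff_zero] at h3
  rw [Pi.smul_apply, coeff_smul, h2, zsmul_eq_mul]
  exact div3 _ h3

end Vale.Agent.P236H
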