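import Vale.Agent.P236H.Cmp
import Vale.Agent.P236S.Bock
import Vale.Agent.P236K.Spec
import Vale.Agent.P257.H314.Line

/-!
# P236, block DETH: the interface with the spectral sequence of `MU`

* `bne` : `b_j` is not a coboundary;
* `ExOut j q` : there is an element of the second stage of the tower of the sphere whose class
  reduces to `± b_j` and whose image in the sphere is killed by `q`;
* `detects_of_exOut`, `exOut_of_engOut3`, `engOut3_zero`.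
-/

open CategoryTheory MonoidalCategory Limits Pretriangulated MonObj

set_option linter.unusedSectionVars false

universe u

noncomputable section

namespace Vale.Agent.P236H

open Vale.Agent.P251 Vale.Agent.P251.T Vale.Agent.P251.M Vale.Agent.P251.S Vale.Agent.P251.F
  Vale.Agent.P251.H Vale.Agent.P251.X Vale.Agent.P251.Z
  Vale.Agent.P251.M.EvenSpheres Vale.Agent.P236Z Vale.Agent.P257.H93
open Vale.Agent.P251.I hiding addLaw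
open Vale.Agent.P236K Vale.Agent.P236L
open Vale.Agent.P236S (CS cls0)

theorem bne (j : ℕ) : BNe j := by
  rintro ⟨y, hy⟩
  obtain ⟨y₀, rfl⟩ := fP_surj (p := 3) y
  obtain ⟨t0, ht0⟩ := T1 3
  have h5 := fP_proj (p := 3) (z := bcls 3 (t0 ^ 3 ^ j) - Cob.d 1 y₀) (by
    rw [map_sub, fP_bcls_pow ht0, fP_d, hy, sub_self]) (2 * 3 ^ (j + 1))
  rw [← Cob.projHom_apply, map_sub (Cob.projHom _ _ _), Cob.projHom_apply, Cob.projHom_apply,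
    Cob.proj_d, Cob.proj_of_isWt (isWt_b ht0 j), if_pos rfl, map_sub, fP_bcls_pow ht0, fP_d,
    sub_eq_zero] at h5
  exact bP_ne j (fP_wt (Cob.isWt_proj _ y₀)) (Or.inl rfl) ((one_smul _ _).trans h5)

section gen

variable {T : Type u} [Category.{0} T] [Preadditive T] [HasZeroObject T]
    [HasShift T ℤ] [∀ n : ℤ, (shiftFunctor T n).Additive] [Pretriangulated T] [IsTriangulated T]
    [MonoidalCategory T] [SymmetricCategory T] [TensorTriangulated T] [MonoidalClosed T]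
    [HasCoproducts.{0} T] [HasProducts.{0} T] [StableCat T] (D : MUData T) (U : UnitCof D.R)

/-- There is an element of the second stage of the tower of the sphere whose class reduces to
`± b_j` and whose image in the sphere is killed by `q`. -/
def ExOut (j : ℕ) (q : ℤ) : Prop :=
  ∃ (x : Co 2 (3 ^ (j + 1))) (n : ℤ) (h : n + ((2 : ℕ) : ℤ) = 2 * (2 * ((3 ^ (j + 1) : ℕ) : ℤ)))
    (g : (CS D U).D 2 n), IsZ x ∧ Lead j x ∧ (CS D U).j 2 n g = cls0 D U 2 _ n h x ∧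
      q • (CS D U).i 0 n ((CS D U).i 1 n g) = 0

variable {D U}

theorem of_cs {n w w' : ℤ} (hw : w + 1 = w') (hn : n + ((2 : ℕ) : ℤ) = 2 * w')
    (g : (CS D U).D 2 n) (x : Cob.wt Laz 2 w') (hj : (CS D U).j 2 n g = cls0 D U 2 w' n hn x) :
    ∃ (θ : (stdEven T).S w ⟶ 𝟙_ T) (_ : (𝟙_ T)⟦n⟧ ≅ (stdEven T).S w)
      (t : (stdEven T).S w' ⟶ (Tw.ofCof U).C₂),
      t ≫ (Tw.ofCof U).bb = (Dt.eS hw).hom ≫ (θ⟦(1 : ℤ)⟧')⟦(1 : ℤ)⟧' ∧
      t ≫ unitMap D.R _ = D.evw 2 w' x ≫ Dt.qq D U 2 ∧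
      ∀ q : ℤ, q • (CS D U).i 0 n ((CS D U).i 1 n g) = 0 → q • θ = 0 := by
  have h0 : n + ((0 : ℕ) : ℤ) = n := by simp
  have h1 : n + ((1 : ℕ) : ℤ) = n + 1 := by simp
  have h2 : n + 1 + 1 = 2 * w' := by omega
  let θ : (𝟙_ T)⟦n⟧ ⟶ 𝟙_ T := (U.tow (𝟙_ T)).eD _ h0 ((CS D U).i 0 n ((CS D U).i 1 n g))
  let g₁ : (𝟙_ T)⟦n + 1⟧ ⟶ (Tw.ofCof U).C₁ := (U.tow (𝟙_ T)).eD _ h1 ((CS D U).i 1 n g)
  let g₂ : (𝟙_ T)⟦2 * w'⟧ ⟶ (Tw.ofCof U).C₂ := (U.tow (𝟙_ T)).eD _ hn g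
  have e1 : S.sh (n + 1) 1 _ h2 g₁ = g₂ ≫ (Tw.ofCof U).b₁ := (U.tow (𝟙_ T)).eD_i _ h1 hn h2 g
  have e0 : S.sh n 1 _ rfl θ = g₁ ≫ (Tw.ofCof U).b₀ :=
    (U.tow (𝟙_ T)).eD_i _ h0 h1 rfl ((CS D U).i 1 n g)
  have e2 : ((sM T w').inv ≫ D.phi U 2 w' x) ≫ U.cobar.q 2 (𝟙_ T) = g₂ ≫ unitMap D.R _ :=
    (P236S.eE_cls0 D U 2 _ n hn x).symm.trans ((congrArg _ hj.symm).trans
      ((U.tow (𝟙_ T)).eE_j _ hn g))
  let E : (stdEven T).S w' ≅ (((𝟙_ T)⟦n⟧)⟦(1 : ℤ)⟧)⟦(1 : ℤ)⟧ := sM T w' ≪≫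
    (shiftFunctorAdd' T (n + 1) 1 _ h2).app _ ≪≫
      (shiftFunctor T (1 : ℤ)).mapIso ((shiftFunctorAdd' T n 1 _ rfl).app _)
  let c : (𝟙_ T)⟦n⟧ ≅ (stdEven T).S w := (shiftFunctor T (1 : ℤ)).preimageIso
    ((shiftFunctor T (1 : ℤ)).preimageIso (E.symm ≪≫ Dt.eS hw))
  have hc : (Dt.eS hw).hom ≫ (c.inv⟦(1 : ℤ)⟧')⟦(1 : ℤ)⟧' = E.hom := by
    simp [c]
  refine ⟨c.inv ≫ θ, c, (sM T w').hom ≫ g₂, ?_, ?_, fun q hq => ?_⟩
  · rw [Functor.map_comp, Functor.map_comp, reassoc_of% hc, Category.assoc, Tw.bb,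
      ← reassoc_of% e1, ← sh_comp, ← e0]
    simp only [E, S.sh, AddEquiv.coe_mk, Equiv.coe_fn_mk, Iso.trans_hom, Iso.app_hom,
      Functor.mapIso_hom, Functor.map_comp, Category.assoc]
  · rw [Category.assoc, ← e2, Category.assoc, Iso.hom_inv_id_assoc, D.phi_apply, Dt.qq,
      Category.assoc]
  · have h3 : q • θ = 0 := (map_zsmul ((U.tow (𝟙_ T)).eD _ h0) _ _).symm.trans
      ((congrArg _ hq).trans (map_zero _))
    rw [← Preadditive.comp_zsmul, h3, comp_zero]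

variable {V : T} {i : 𝟙_ T ⟶ V} {δ : V ⟶ (𝟙_ T)⟦(1 : ℤ)⟧}
  (hC : Dist ((3 : ℤ) • 𝟙 (𝟙_ T)) i δ)
include hC

theorem gen3 : Gen D U i (P257.H314.IC 3 1) :=
  gen_of_cyc (P257.H314.cyc_modP D (p := 3) (by norm_num) hC)

theorem exOut_of_engOut3 {j : ℕ} (h : EngOut3 D U i j) : ExOut D U j 3 := by
  obtain ⟨x, x₂, hd, hp, hl⟩ := h
  obtain ⟨c, h1, h2⟩ := P236S.perm_bock_int hC (gen3 hC) hp hd
    (m := 2 * (2 * ((3 ^ (j + 1) : ℕ) : ℤ)) - 2) (by push_cast; ring)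
  refine ⟨x₂, _, _, c, ?_, hl, h1, by rw [← map_zsmul, h2, map_zero]⟩
  have h3 : Cob.d 2 x₂.1 = 0 := Cob.eq_zero_of_smul (by norm_num : (3 : ℤ) ≠ 0) (by
    rw [← map_zsmul, ← hd, Cob.d_d])
  rw [IsZ, h3]
  exact zero_mem _

theorem engOut3_zero : EngOut3 D U i 0 := by
  obtain ⟨t, ht⟩ := T1 3
  obtain ⟨h1, -, h2, -, h3⟩ := BCocycle 3 (by norm_num) t ht
  have h0 : BigCell T 0 (𝟙_ T) :=
    BigCell.of_iso ((shiftFunctorZero T ℤ).app (𝟙_ T)) (BigCell.sphere 0 le_rfl)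
  have hV : BigCell T 0 V := BigCell.ext _ hC.rot h0 ((h0.shift 1 1 rfl).mono (by norm_num))
  have hd : Cob.d 1 (-t ^ 3) = (3 : ℤ) • bcls 3 t := by rw [map_neg]; exact h3.symm
  refine ⟨⟨-t ^ 3, (h1.pow 3).neg⟩, ⟨bcls 3 t, h2⟩, hd, (gen3 hC).perm hV ?_ ?_, 1, 0, one_ne_zero, ?_⟩
  · change Cob.d 1 (-t ^ 3) ∈ _
    rw [hd, zsmul_eq_mul]
    refine Ideal.mul_mem_right _ _ ?_
    have h4 := Ideal.mem_map_of_mem (MvPolynomial.C : Laz →+* Cob Laz 2)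
      (vv_mem_Ih (p := 3) (h := 1) (i := 0) (by omega) Laz.univ)
    rwa [vv_zero, map_natCast] at h4
  · intro s w y hs hy hD
    obtain ⟨s, rfl⟩ : ∃ s', s = s' + 1 := ⟨s - 1, by omega⟩
    have h4 := hD.deg
    obtain ⟨e, he, h5⟩ := P257.H314.algVan_line (p := 3) (h := 1) le_rfl (s := s + 1) (w := w)
      (by push_cast at h4 ⊢; omega) y.1 y.2 hy
    exact (((gen3 hC).bd_iff hy).2 ⟨⟨e, he⟩, h5⟩).mono (by omega)
  · rw [map_zero, add_zero, one_smul]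
    exact P257.H545.fP_bcls ht

end gen

open Vale.Agent.P251.St Vale.Agent.P251.St.SHCat Vale.Agent.P236Z.St Vale.Agent.P236H.St

variable {T : SHCat} {H : RingSp T} (A : AdamsTower H.unit) {D : MUData T.C}
  {F : SpaceFunctor T.C} {e : F.S.obj CCF ≅ (stdEven T.C).L}

theorem detects_of_exOut (hU : MUUniv e D) (hH : IsHF 3 H.unit)
    {ξ : Hom (sph T 4) (ten H.obj H.obj)}
    (hξ : ξ = 0 → ∀ ξ' : Hom (sph T 4) (ten H.obj H.obj), ξ' = 0) {U : UnitCof D.R} {j : ℕ} {q : ℤ}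
    (h : ExOut D U j q) : ∃ θ, Detects A ξ j θ ∧ q • θ = 0 := by
  obtain ⟨x, n, hn, g, hZ, ⟨ε, y, hε, hl⟩, hj, hq⟩ := h
  obtain rfl : n = 4 * 3 ^ (j + 1) - 2 := by push_cast at hn; omega
  obtain ⟨θ, c, t, h1, h2, h3⟩ := of_cs (sub_add_cancel _ 1) hn g x hj
  have h4 : ∀ ε : ZMod 3, ε ≠ 0 → ε = ((1 : ℤ) : ZMod 3) ∨ ε = ((-1 : ℤ) : ZMod 3) := by decide
  obtain ⟨ε', hε', rfl⟩ : ∃ ε' : ℤ, (ε' = 1 ∨ ε' = -1) ∧ (ε' : ZMod 3) = ε := by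
    rcases h4 ε hε with rfl | rfl
    exacts [⟨1, Or.inl rfl, rfl⟩, ⟨-1, Or.inr rfl, rfl⟩]
  exact ⟨_, detects' A hU hH hξ U _ (by push_cast; rfl) θ t x 0 h1
    (by rw [h2, smul_zero, add_zero]) hZ hε' (hl.trans (by rw [Int.cast_smul_eq_zsmul])) c,
    by rw [← Preadditive.comp_zsmul, h3 q hq, comp_zero]⟩

end Vale.Agent.P236H

end
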