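import Vale.Agent.P251.X.PDSucc
import Vale.Agent.P251.Z.KMU
import Vale.Agent.P236Z.Dt.Top
import Vale.Agent.P257.H93.FP

/-!
# P236, block DETH: the homotopy of `P ⊗ MU ⊗ ⋯ ⊗ MU`, `P = MU / I_n`

* `val ψ` : the values of cochains in a monoid under `MU ^ (s + 1)`;
* `Good ψ` : `val ψ` is onto with kernel in `I_n`; `good_zero`, `Good.step`;
* `cobdy_of_P` : a cochain which is a coboundary in the cobar complex of `P` is a coboundary in the
  cobar complex of the additive group.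
-/

open CategoryTheory MonoidalCategory Limits Pretriangulated MonObj

set_option linter.unusedSectionVars false

universe u

noncomputable section

namespace Vale.Agent.P236H

open Vale.Agent.P251 Vale.Agent.P251.T Vale.Agent.P251.M Vale.Agent.P251.S Vale.Agent.P251.F
  Vale.Agent.P251.I Vale.Agent.P251.H Vale.Agent.P251.X Vale.Agent.P251.Z
  Vale.Agent.P251.M.EvenSpheres Vale.Agent.P236Z Vale.Agent.P257.H93

section alg

theorem map_C {m n : ℕ} (α : Fin (m + 1) → Fin (n + 1)) (h : α 0 = 0) (a : Laz) :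
    Cob.map α (MvPolynomial.C a : Cob Laz m) = MvPolynomial.C a := by
  have h1 := DFunLike.congr_fun (map_comp_C α) a
  rw [RingHom.comp_apply] at h1
  rw [h1, h, (Cob.univ Laz n).zero, one_smul, Laz.lift_map_univ]

theorem map_X {m n : ℕ} (α : Fin (m + 1) → Fin (n + 1)) (h : α 0 = 0) (k : Fin m) (l : Fin n)
    (hl : α k.succ = l.succ) (i : ℕ) :
    Cob.map α (MvPolynomial.X (k, i) : Cob Laz m) = MvPolynomial.X (l, i) := by
  rw [Cob.map, Cob.ev_X, Chain.res_g, h, hl, (Cob.univ Laz n).zero, inv_one, _root_.mul_one,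
    Cob.univ_g_succ, c_succ_strictMk]

end alg

variable {T : Type u} [Category.{0} T] [Preadditive T] [HasZeroObject T]
    [HasShift T ℤ] [∀ n : ℤ, (shiftFunctor T n).Additive] [Pretriangulated T] [IsTriangulated T]
    [MonoidalCategory T] [SymmetricCategory T] [TensorTriangulated T] [MonoidalClosed T]
    [HasCoproducts.{0} T] [HasProducts.{0} T] [StableCat T]

theorem eq_of_sum {N : T} (s : Finset ℤ) (a : ∀ v, (stdEven T).S v ⟶ N) {w : ℤ}
    {b : (stdEven T).S w ⟶ N} (h : ∑ v ∈ s, HRing.of (stdEven T) N v (a v) = HRing.of _ N w b)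
    (h0 : w ∉ s → a w = 0) : a w = b := by
  classical
  have h1 := congrArg (DirectSum.component ℤ ℤ ((stdEven T).Gr N) w) h
  rw [map_sum, Finset.sum_eq_single w] at h1
  · exact ((DirectSum.of_eq_same (β := (stdEven T).Gr N) w (a w)).symm.trans h1).trans
      (DirectSum.of_eq_same (β := (stdEven T).Gr N) w b)
  · intro v _ hv
    exact DirectSum.of_eq_of_ne (β := (stdEven T).Gr N) _ _ _ hv.symm
  · intro hw
    rw [h0 hw]
    exact DirectSum.of_eq_same (β := (stdEven T).Gr N) w 0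

variable (D : MUData T) {N : T} [MonObj N] [IsCommMonObj N] {s : ℕ}

/-- the values of cochains -/
def val (ψ : Am D.R (s + 1) ⟶ N) [IsMonHom ψ] : Cob Laz s →+* HRing (stdEven T) N :=
  (HRing.map (E := stdEven T) ψ).comp (D.ev s)

theorem val_evw (ψ : Am D.R (s + 1) ⟶ N) [IsMonHom ψ] {w : ℤ} (z : Cob.wt Laz s w) :
    val D ψ z.1 = HRing.of _ N w (D.evw s w z ≫ ψ) := by
  rw [val, RingHom.comp_apply, ← D.of_evw, HRing.map_of]

theorem val_congr {ψ ψ' : Am D.R (s + 1) ⟶ N} [IsMonHom ψ] [IsMonHom ψ'] (h : ψ = ψ') :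
    val D ψ = val D ψ' := by
  subst h
  rfl

theorem val_map {m : ℕ} (ψ : Am D.R (s + 1) ⟶ N) [IsMonHom ψ] (α : Fin (m + 1) → Fin (s + 1))
    (z : Cob Laz m) : val D ψ (Cob.map α z) = val D (Am.map D.R α ≫ ψ) z := by
  rw [val, val, RingHom.comp_apply, ← D.ev_map, HRing.map_comp]
  rfl

theorem val_comp (ψ : Am D.R (s + 1) ⟶ N) [IsMonHom ψ] {N' : T} [MonObj N'] [IsCommMonObj N']
    (f : N ⟶ N') [IsMonHom f] (z : Cob Laz s) :
    val D (ψ ≫ f) z = HRing.map f (val D ψ z) := by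
  rw [val, val, HRing.map_comp]
  rfl

theorem val_C (ψ : Am D.R (s + 1) ⟶ N) [IsMonHom ψ] (a : Laz) :
    val D ψ (MvPolynomial.C a) = Laz.lift (lawOf (Am.v D.R 0 ≫ ψ)) a := by
  rw [← GD.map_C_zero, val_map]
  unfold lawOf MUData.law MUData.law1
  rw [Law.map_map, Law.map_map, Laz.lift_map_univ, ← HRing.map_comp, val,
    HRing_map_congr (f := amOne D.R ≫ Am.v D.R 0 ≫ ψ)
      (f' := Am.map D.R (fun _ : Fin 1 => (0 : Fin (s + 1))) ≫ ψ)
      (by rw [← Category.assoc, amOne_v])]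
  rfl

theorem exists_wt (ψ : Am D.R (s + 1) ⟶ N) [IsMonHom ψ] {w : ℤ} {z : Cob Laz s}
    {a : (stdEven T).S w ⟶ N} (h : val D ψ z = HRing.of _ N w a) :
    D.evw s w ⟨_, Cob.isWt_proj w z⟩ ≫ ψ = a := by
  refine eq_of_sum (Cob.wts z) (fun v => D.evw s v ⟨_, Cob.isWt_proj v z⟩ ≫ ψ) ?_ fun hw => ?_
  · rw [← h]
    conv_rhs => rw [← Cob.sum_proj z, map_sum]
    exact Finset.sum_congr rfl fun v _ => (val_evw D ψ ⟨_, Cob.isWt_proj v z⟩).symm
  · have h1 : (⟨_, Cob.isWt_proj w z⟩ : Cob.wt Laz s w) = 0 := Subtype.ext (Cob.proj_eq_zero hw)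
    rw [h1, map_zero, zero_comp]

/-- the ideal `I_h` is killed -/
theorem val_IC {p h : ℕ} [Fact p.Prime] (ψ : Am D.R (s + 1) ⟶ N) [IsMonHom ψ]
    (hv : ∀ i < h, vv p i (lawOf (Am.v D.R 0 ≫ ψ)) = 0) {z : Cob Laz s} (hz : z ∈ IC p h s) :
    val D ψ z = 0 := by
  have h1 : IC p h s ≤ RingHom.ker (val D ψ) := by
    rw [CobCompl.IC_eq_span, Ideal.span_le]
    rintro _ ⟨k, hk, rfl⟩
    rw [SetLike.mem_coe, RingHom.mem_ker, val_C, Laz.lift_v, hv k hk]
  exact h1 hz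

/-- `val ψ` is the quotient by `I` -/
structure Good (I : Ideal Laz) (ψ : Am D.R (s + 1) ⟶ N) [IsMonHom ψ] : Prop where
  surj : Function.Surjective (val D ψ)
  ext : ∀ (B : Type) [CommRing B] (φ : Cob Laz s →+* B), (∀ a ∈ I, φ (MvPolynomial.C a) = 0) →
    ∃ χ : HRing (stdEven T) N →+* B, χ.comp (val D ψ) = φ
  odd : Odd0 N

variable {D}

theorem odd_ten {F : SpaceFunctor T} {e : F.S.obj CCF ≅ (stdEven T).L} (hU : MUUniv e D)
    (k : D.R ⟶ N) [IsMonHom k] (h : Odd0 N) : Odd0 (N ⊗ D.R) := by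
  obtain ⟨b, -, -⟩ := D.exists_basis_of k hU
  intro l f
  have h1 := b.odd (Iso.refl _) (𝟙_ T) (fun l f => by
    rw [← cancel_mono (ρ_ N).hom, zero_comp]
    exact h l _) l (f ≫ (ρ_ _).inv)
  rwa [← cancel_mono (ρ_ (N ⊗ D.R)).inv, zero_comp]

theorem val_castSucc (ψ : Am D.R (s + 1) ⟶ N) [IsMonHom ψ] (z : Cob Laz s) :
    val D (s := s + 1) (ψ ▷ D.R) (Cob.map Fin.castSucc z) =
      epsH (bK D (Am.v D.R 0 ≫ ψ)) (MvPolynomial.C (val D ψ z)) := by
  rw [val_map, epsH_C, ← val_comp]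
  exact DFunLike.congr_fun (val_congr D (by rw [Am.map_castSucc, inlM_whiskerRight])) z

theorem val_last (ψ : Am D.R (s + 1) ⟶ N) [IsMonHom ψ] (i : ℕ) :
    val D (s := s + 1) (ψ ▷ D.R) (MvPolynomial.X (Fin.last s, i)) =
      epsH (bK D (Am.v D.R 0 ≫ ψ)) (MvPolynomial.X i) := by
  rw [← map_X (m := 1) ![0, Fin.last (s + 1)] rfl 0 (Fin.last s) rfl, val_map, epsH_X]
  refine DFunLike.congr_fun
    (val_congr D (s := 1) (ψ' := D.toKR (Am.v D.R 0 ≫ ψ)) (Am.hom_ext fun j => ?_)) _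
  rw [Am.v_map_assoc]
  fin_cases j
  · refine Eq.trans ?_ (D.v_zero_toKR _).symm
    have h : Am.v D.R (0 : Fin (s + 2)) = Am.v D.R 0 ≫ inlM _ D.R := Am.v_castSucc D.R 0
    exact (congrArg (· ≫ _) h).trans (by rw [Category.assoc, inlM_whiskerRight, Category.assoc])
  · refine Eq.trans ?_ (D.v_one_toKR _).symm
    exact (congrArg (· ≫ _) (Am.v_last D.R (s + 1))).trans (inrM_whiskerRight _)

theorem Good.step {F : SpaceFunctor T} {e : F.S.obj CCF ≅ (stdEven T).L} (hU : MUUniv e D)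
    {I : Ideal Laz} {ψ : Am D.R (s + 1) ⟶ N} [IsMonHom ψ] (h : Good D I ψ) :
    Good D (s := s + 1) I (ψ ▷ D.R) := by
  have hb := epsK_bijective (Am.v D.R 0 ≫ ψ) hU
  refine ⟨fun y => ?_, fun B _ φ hφ => ?_, odd_ten hU (Am.v D.R 0 ≫ ψ) h.odd⟩
  · obtain ⟨y, rfl⟩ := hb.2 y
    change _ ∈ (val D (s := s + 1) (ψ ▷ D.R)).range
    induction y using MvPolynomial.induction_on with
    | C c =>
      obtain ⟨z, rfl⟩ := h.surj c
      exact ⟨_, val_castSucc ψ z⟩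
    | add a b ha hb => rw [map_add]; exact add_mem ha hb
    | mul_X a i ha => rw [map_mul]; exact mul_mem ha ⟨_, val_last ψ i⟩
  · obtain ⟨χ, hχ⟩ := h.ext B (φ.comp (Cob.map Fin.castSucc)) fun a ha => by
      rw [RingHom.comp_apply, map_C _ rfl, hφ a ha]
    let E := RingEquiv.ofBijective _ hb
    have hE : ∀ y, E.symm (epsH (bK D (Am.v D.R 0 ≫ ψ)) y) = y := E.symm_apply_apply
    let χ' := (MvPolynomial.eval₂Hom χ fun i => φ (MvPolynomial.X (Fin.last s, i))).comp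
      E.symm.toRingHom
    have h1 : ∀ z, χ' (val D (s := s + 1) (ψ ▷ D.R) (Cob.map Fin.castSucc z)) =
        φ (Cob.map Fin.castSucc z) := fun z => by
      rw [val_castSucc]
      change MvPolynomial.eval₂Hom _ _ (E.symm _) = _
      rw [hE, MvPolynomial.eval₂Hom_C]
      exact DFunLike.congr_fun hχ z
    refine ⟨χ', MvPolynomial.ringHom_ext (fun a => ?_) fun ki => ?_⟩
    · have h2 := h1 (MvPolynomial.C a)
      rwa [map_C _ rfl] at h2
    · obtain ⟨k, i⟩ := ki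
      refine Fin.lastCases ?_ (fun k => ?_) k
      · rw [RingHom.comp_apply, val_last]
        change MvPolynomial.eval₂Hom _ _ (E.symm _) = _
        rw [hE, MvPolynomial.eval₂Hom_X']
      · have h2 := h1 (MvPolynomial.X (k, i))
        rwa [map_X _ rfl k k.castSucc rfl] at h2

theorem good_zero {p n : ℕ} [Fact p.Prime] (Q : PD D p n) :
    Good D (s := 0) (Laz.I p n) (amOne D.R ≫ Q.u) := by
  have h1 : ∀ a, val D (s := 0) (amOne D.R ≫ Q.u) (MvPolynomial.C a) = Laz.lift (lawOf Q.u) a :=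
    fun a => by
      rw [val_C, lawOf_congr (g' := Q.u) (by rw [← Category.assoc, v_amOne, Category.id_comp])]
  refine ⟨fun y => ?_, fun B _ φ hφ => ?_, Q.odd⟩
  · obtain ⟨a, rfl⟩ := Q.surj y
    exact ⟨_, h1 a⟩
  · let χ := RingHom.liftOfSurjective _ Q.surj ⟨φ.comp MvPolynomial.C, fun a ha =>
      hφ a ((Q.ker a).1 ha)⟩
    refine ⟨χ, MvPolynomial.ringHom_ext (fun a => ?_) fun ki => ki.1.elim0⟩
    rw [RingHom.comp_apply, h1]
    exact RingHom.liftOfRightInverse_comp_apply _ _ _ _ a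

/-- the alternating sum of the cofaces -/
def ddA (R : T) [MonObj R] [IsCommMonObj R] (n : ℕ) : Am R n ⟶ Am R (n + 1) :=
  ∑ i : Fin (n + 1), (-1 : ℤ) ^ (i : ℕ) • Am.map R (Fin.succAbove i : Fin n → Fin (n + 1))

/-- the tensor powers of a map -/
def upA {R P : T} (u : R ⟶ P) : ∀ n, Am R n ⟶ Am P n
  | 0 => 𝟙 _
  | n + 1 => upA u n ⊗ₘ u

section up

variable {R P : T} [MonObj R] [MonObj P] (u : R ⟶ P) [IsMonHom u]

instance isMonHom_upA : ∀ n, IsMonHom (upA u n)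
  | 0 => inferInstanceAs (IsMonHom (𝟙 _))
  | n + 1 => by
    have := isMonHom_upA n
    exact inferInstanceAs (IsMonHom (upA u n ⊗ₘ u))

@[reassoc]
theorem v_upA : ∀ {n : ℕ} (i : Fin n), Am.v R i ≫ upA u n = u ≫ Am.v P i
  | 0, i => i.elim0
  | n + 1, i => by
    refine Fin.lastCases ?_ (fun j => ?_) i
    · rw [Am.v_last, Am.v_last, upA, MonoidalCategory.tensorHom_def, inrM_whiskerRight_assoc, inrM, inrM,
        Category.assoc, ← whisker_exchange, leftUnitor_inv_naturality_assoc]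
    · rw [Am.v_castSucc, Am.v_castSucc, ← reassoc_of% v_upA j, Category.assoc, upA,
        MonoidalCategory.tensorHom_def,
        inlM_whiskerRight_assoc, inlM, inlM, Category.assoc, ← MonoidalCategory.whiskerLeft_comp,
        IsMonHom.one_hom]

variable [IsCommMonObj R] [IsCommMonObj P]

@[reassoc]
theorem map_upA {m n : ℕ} (α : Fin m → Fin n) :
    Am.map R α ≫ upA u n = upA u m ≫ Am.map P α :=
  Am.hom_ext fun i => by rw [Am.v_map_assoc, v_upA, v_upA_assoc, Am.v_map]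

@[reassoc]
theorem ddA_upA (n : ℕ) : ddA R n ≫ upA u (n + 1) = upA u n ≫ ddA P n := by
  rw [ddA, ddA, Preadditive.sum_comp, Preadditive.comp_sum]
  exact Finset.sum_congr rfl fun i _ => by
    rw [Preadditive.zsmul_comp, Preadditive.comp_zsmul, map_upA]

end up

/-- The retraction to the algebraic cobar complex. -/
theorem cobdy_of_P {F : SpaceFunctor T} {e : F.S.obj CCF ≅ (stdEven T).L} (hU : MUUniv e D)
    {p n : ℕ} [Fact p.Prime] (Q : PD D p n) {w : ℤ} (x : Cob.wt Laz 2 w)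
    (y' : (stdEven T).S w ⟶ Am Q.P 2) (h : y' ≫ ddA Q.P 2 = D.evw 2 w x ≫ upA Q.u 3) :
    ∃ y : Cob.wt Laz 1 w, fP p 2 x.1 = dP 1 (fP p 1 y.1) := by
  have g1 := (good_zero Q).step hU
  have g2 := g1.step hU
  let ψ₁ : Am D.R 2 ⟶ Q.P ⊗ D.R := (amOne D.R ≫ Q.u) ▷ D.R
  let ψ₂ : Am D.R 3 ⟶ (Q.P ⊗ D.R) ⊗ D.R := ψ₁ ▷ D.R
  have e0 : Am.v D.R 0 ≫ ψ₁ = Q.u ≫ inlM _ _ := D.v_zero_toKR Q.u
  have e1 : Am.v D.R 1 ≫ ψ₁ = inrM _ _ := D.v_one_toKR Q.u
  have e2 : Am.v D.R 0 ≫ ψ₂ = Q.u ≫ inlM _ _ ≫ inlM _ _ := by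
    have h : Am.v D.R (0 : Fin 3) = Am.v D.R 0 ≫ inlM _ D.R := Am.v_castSucc D.R (0 : Fin 2)
    rw [h, Category.assoc, inlM_whiskerRight, reassoc_of% e0]
  choose f₁ hf₁ hf₁' using fun i : Fin 2 => Q.desc _ (Am.v D.R i ≫ ψ₁) g1.odd fun k hk =>
    vv_lawOf_lt (Q.u ≫ inlM _ _) _ (fun _ hi => Q.vv_inl hi) hk
  choose f₂ hf₂ hf₂' using fun i : Fin 3 => Q.desc _ (Am.v D.R i ≫ ψ₂) g2.odd fun k hk =>
    vv_lawOf_lt (Q.u ≫ inlM _ _ ≫ inlM _ _) _ (fun _ hi => by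
      rw [lawOf_comp, vv_map, Q.vv_zero_of_lt hi, map_zero]) hk
  obtain ⟨z, hz⟩ := g1.surj (HRing.of _ _ w (y' ≫ Am.lift f₁))
  have hy := exists_wt D ψ₁ hz
  refine ⟨⟨_, Cob.isWt_proj w z⟩, ?_⟩
  set y : Cob.wt Laz 1 w := ⟨_, Cob.isWt_proj w z⟩
  have key : ∀ α : Fin 2 → Fin 3,
      y' ≫ Am.map Q.P α ≫ Am.lift f₂ = D.evw 1 w y ≫ Am.map D.R α ≫ ψ₂ := by
    intro α
    let δ : Q.P ⊗ D.R ⟶ (Q.P ⊗ D.R) ⊗ D.R := descM (f₂ (α 0)) (Am.v D.R (α 1) ≫ ψ₂)
    have h1 : ∀ i, Am.v D.R i ≫ ψ₁ ≫ δ = Am.v D.R (α i) ≫ ψ₂ := fun i => by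
      fin_cases i
      · exact ((reassoc_of% e0) δ).trans (by rw [inlM_descM, hf₂']; rfl)
      · exact ((reassoc_of% e1) δ).trans (inrM_descM _ _)
    have h2 : ψ₁ ≫ δ = Am.map D.R α ≫ ψ₂ := Am.hom_ext fun i => by rw [h1, Am.v_map_assoc]
    have h3 : Am.lift f₁ ≫ δ = Am.map Q.P α ≫ Am.lift f₂ := Am.hom_ext fun i => by
      rw [Am.v_map_assoc, Am.v_lift, Am.v_lift_assoc]
      refine Q.uniq _ _ _ inferInstance inferInstance g2.odd ?_
      rw [reassoc_of% hf₁' i, h1, hf₂']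
    rw [← h3, ← h2, ← Category.assoc, ← hy, Category.assoc]
  have h4 : upA Q.u 3 ≫ Am.lift f₂ = ψ₂ := Am.hom_ext fun i => by
    rw [v_upA_assoc, Am.v_lift, hf₂']
  have h5 : D.evw 2 w x ≫ ψ₂ = D.evw 2 w (Cob.dwt Laz 1 w y) ≫ ψ₂ := by
    rw [← h4, ← reassoc_of% h, h4, D.evw_dwt, ddA, Category.assoc, Preadditive.sum_comp,
      Preadditive.sum_comp, Preadditive.comp_sum, Preadditive.comp_sum]
    refine Finset.sum_congr rfl fun i _ => ?_
    rw [Preadditive.zsmul_comp, Preadditive.zsmul_comp, Preadditive.comp_zsmul,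
      Preadditive.comp_zsmul, key]
  obtain ⟨χ, hχ⟩ := g2.ext _ (fP p 2) fun a ha => fP_IC (h := n) (Ideal.mem_map_of_mem _ ha)
  rw [← fP_d, ← hχ, RingHom.comp_apply, RingHom.comp_apply, val_evw, h5, ← val_evw]
  rfl

end Vale.Agent.P236H

end
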