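import Vale.Agent.P236Z.Cv.Div
import Vale.Agent.P236Z.Tr.Fac
import Vale.Agent.P257.H762.MCell
import Vale.Agent.P251.S.CobarR
import Vale.Agent.P251.S.Coprod
import Vale.Agent.P251.M.GBasis
import Mathlib.LinearAlgebra.Basis.VectorSpace
import Mathlib.Algebra.Module.ZMod
import Mathlib.Algebra.Field.ZMod

/-!
# P236, block DETH: quotients of modules over the Eilenberg-Mac Lane ring

* `exists_compl` : a basis of a complement of a subgroup of a group killed by `p`;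
* `exists_quot` : for `f : P ⟶ H ⊗ Y` there is a quotient `q : H ⊗ Y ⟶ L` such that `f ≫ q` is onto
  on homotopy groups, with the same kernel as `f`;
* `af_of_cofIn` : the Adams filtration does not change along a highly connected map.
-/

open CategoryTheory MonoidalCategory Limits Pretriangulated MonObj

set_option linter.unusedSectionVars false

universe u

namespace Vale.Agent.P236H

open Vale.Agent.P251 Vale.Agent.P251.T Vale.Agent.P251.M Vale.Agent.P251.S Vale.Agent.P251.H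
  Vale.Agent.P236Z

theorem exists_compl_aux {V W : Type} [AddCommGroup V] [AddCommGroup W] {p : ℕ} [Fact p.Prime]
    [Module (ZMod p) W] (φ : V →+ W) (hφ : Function.Surjective φ) : ∃ (J : Type) (b : J → V),
      (∀ (s : Finset J) (m : J → ℤ), φ (∑ j ∈ s, m j • b j) = 0 → ∀ j ∈ s, (p : ℤ) ∣ m j) ∧
      (∀ v, ∃ (s : Finset J) (m : J → ℤ), φ (v - ∑ j ∈ s, m j • b j) = 0) := by
  let B := Module.Basis.ofVectorSpace (ZMod p) W
  choose b hb using fun j : Module.Basis.ofVectorSpaceIndex (ZMod p) W => hφ (B j)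
  have key : ∀ (s : Finset _) (m : _ → ℤ), φ (∑ j ∈ s, m j • b j) =
      ∑ j ∈ s, (m j : ZMod p) • B j := fun s m => by
    rw [map_sum]
    refine Finset.sum_congr rfl fun j _ => ?_
    rw [map_zsmul, Int.cast_smul_eq_zsmul, ← hb]
  refine ⟨_, b, fun s m h j hj => ?_, fun v => ?_⟩
  · rw [← ZMod.intCast_zmod_eq_zero_iff_dvd]
    refine linearIndependent_iff'.1 B.linearIndependent s (fun j => (m j : ZMod p)) ?_ j hj
    rw [← key, h]
  · refine ⟨(B.repr (φ v)).support, fun j => ((B.repr (φ v) j).cast : ℤ), ?_⟩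
    rw [map_sub, key, sub_eq_zero]
    conv_lhs => rw [← B.linearCombination_repr (φ v)]
    rw [Finsupp.linearCombination_apply, Finsupp.sum]
    exact Finset.sum_congr rfl fun j _ => by rw [ZMod.intCast_zmod_cast]

theorem exists_compl {V : Type} [AddCommGroup V] {p : ℕ} [Fact p.Prime]
    (hp : ∀ v : V, (p : ℤ) • v = 0) (U : AddSubgroup V) : ∃ (J : Type) (b : J → V),
      (∀ (s : Finset J) (m : J → ℤ), ∑ j ∈ s, m j • b j ∈ U → ∀ j ∈ s, (p : ℤ) ∣ m j) ∧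
      (∀ v, ∃ (s : Finset J) (m : J → ℤ), v - ∑ j ∈ s, m j • b j ∈ U) := by
  have hq : ∀ v : V ⧸ U, p • v = 0 := fun v => by
    obtain ⟨v, rfl⟩ := QuotientAddGroup.mk_surjective v
    rw [← QuotientAddGroup.mk_nsmul, ← natCast_zsmul, hp, QuotientAddGroup.mk_zero]
  obtain ⟨J, b, h1, h2⟩ := @exists_compl_aux V (V ⧸ U) _ _ p _ (AddCommGroup.zmodModule hq)
    (QuotientAddGroup.mk' U) (QuotientAddGroup.mk'_surjective U)
  exact ⟨J, b, fun s m h => h1 s m ((QuotientAddGroup.eq_zero_iff _).2 h),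
    fun v => (h2 v).imp fun s h => h.imp fun m h => (QuotientAddGroup.eq_zero_iff _).1 h⟩

variable {T : Type u} [Category.{0} T] [Preadditive T] [HasZeroObject T]
    [HasShift T ℤ] [∀ n : ℤ, (shiftFunctor T n).Additive] [Pretriangulated T] [IsTriangulated T]
    [MonoidalCategory T] [SymmetricCategory T] [TensorTriangulated T] [MonoidalClosed T]
    [HasCoproducts.{0} T] [HasProducts.{0} T] [StableCat T]

theorem isInv_sph (k : ℤ) : IsInv ((𝟙_ T)⟦k⟧) :=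
  IsInv.of_inverse (Tr.invOf (Iso.refl ((𝟙_ T)⟦k⟧)))

theorem big (h0 : Conn 0 (𝟙_ T)) {n : ℤ} {X : T} (h : Conn n X) : BigCell T n X :=
  have := locallySmall_self.{0} T
  P257.H762.bigCell_of_conn h0 h

theorem conn_ten (h0 : Conn 0 (𝟙_ T)) {a b c : ℤ} {X Y : T} (hX : Conn a X) (hY : Conn b Y)
    (h : c ≤ a + b) : Conn c (X ⊗ Y) :=
  (Cv.DivAux.conn_tensor (big h0 hX) hY).mono (by omega)

section HF

variable {p : ℕ} {H : T} [MonObj H] (hH : Tr.IsHF p η[H])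
include hH

theorem conn_H : Conn 0 H := fun k hk g => hH.conc k hk.ne g

theorem p_smul {A Y : T} (g : A ⟶ H ⊗ Y) : (p : ℤ) • g = 0 := by
  have h : ((p : ℤ) • η[H]) ▷ (H ⊗ Y) = (p : ℤ) • (η[H] ▷ (H ⊗ Y)) := (tensorRight _).map_zsmul ..
  rw [← Category.comp_id g, ← Preadditive.comp_zsmul, ← unitMap_mulMap, ← Preadditive.zsmul_comp,
    unitMap, ← Preadditive.comp_zsmul, ← h, (hH.ord p).2 dvd_rfl,
    MonoidalPreadditive.zero_whiskerRight, comp_zero, zero_comp, comp_zero]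

theorem hom_ne {k l : ℤ} (h : k ≠ l) (g : (𝟙_ T)⟦k⟧ ⟶ H ⊗ (𝟙_ T)⟦l⟧) : g = 0 := by
  rw [← cancel_mono (tensorUnitShiftIso H l).hom, zero_comp]
  exact eq_zero_of_shift (k - l) l k (by ring) (hH.conc _ (by omega)) _

theorem hom_eq {A : T} [IsInv A] (g : A ⟶ H ⊗ A) : ∃ m : ℤ, g = m • unitMap H A := by
  obtain ⟨g', hg⟩ := whiskerRight_surj A ((λ_ A).hom ≫ g)
  obtain ⟨m, rfl⟩ := hH.gen g'
  refine ⟨m, ?_⟩
  have h : (m • η[H]) ▷ A = m • (η[H] ▷ A) := (tensorRight _).map_zsmul ..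
  rw [unitMap, ← Preadditive.comp_zsmul, ← h, hg, Iso.inv_hom_id_assoc]

/-- Quotients of free modules. -/
theorem exists_quot [Fact p.Prime] (h0 : Conn 0 (𝟙_ T)) {P Y : T} (f : P ⟶ H ⊗ Y) :
    ∃ (L' L : T) (s : L' ⟶ H ⊗ Y) (q : H ⊗ Y ⟶ L) (δ : L ⟶ L'⟦(1 : ℤ)⟧), Dist s q δ ∧
      (∀ (k : ℤ) (z : (𝟙_ T)⟦k⟧ ⟶ L), ∃ g, g ≫ f ≫ q = z) ∧
      (∀ (k : ℤ) (g : (𝟙_ T)⟦k⟧ ⟶ P), g ≫ f ≫ q = 0 → g ≫ f = 0) ∧
      ∀ a : ℤ, (∀ k < a, ∀ x : (𝟙_ T)⟦k⟧ ⟶ H ⊗ Y, ∃ g, g ≫ f = x) → BigCell T a L' := by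
  classical
  let U : ∀ k : ℤ, AddSubgroup ((𝟙_ T)⟦k⟧ ⟶ H ⊗ Y) := fun k =>
    (Preadditive.rightComp ((𝟙_ T)⟦k⟧) f).range
  choose J b hb1 hb2 using fun k : ℤ => exists_compl (p := p)
    (fun v : (𝟙_ T)⟦k⟧ ⟶ H ⊗ Y => p_smul hH v) (U k)
  let X : (Σ k, J k) → T := fun i => H ⊗ (𝟙_ T)⟦i.1⟧
  let s : ∐ X ⟶ H ⊗ Y := Sigma.desc fun i => H ◁ b i.1 i.2 ≫ mulMap H Y
  have hs : ∀ k (j : J k), unitMap H _ ≫ Sigma.ι X ⟨k, j⟩ ≫ s = b k j := fun k j => by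
    rw [Sigma.ι_desc, ← unitMap_nat_assoc, unitMap_mulMap, Category.comp_id]
  have hexp : ∀ k (y : (𝟙_ T)⟦k⟧ ⟶ ∐ X), ∃ (t : Finset (J k)) (m : J k → ℤ),
      y = ∑ j ∈ t, m j • (unitMap H _ ≫ Sigma.ι X ⟨k, j⟩) := by
    intro k y
    have := isInv_sph (T := T) k
    obtain ⟨t, g, rfl⟩ := compact_sum X (isSphere_one_shift k) y
    choose m hm using fun j : J k => hom_eq hH (g ⟨k, j⟩)
    refine ⟨t.preimage (Sigma.mk k) sigma_mk_injective.injOn, m, ?_⟩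
    symm
    refine Finset.sum_of_injOn (Sigma.mk k) sigma_mk_injective.injOn
      (fun j hj => Finset.mem_preimage.1 hj) ?_ ?_
    · rintro ⟨l, j⟩ h1 h2
      have h3 : k ≠ l := by
        rintro rfl
        exact h2 ⟨j, by simpa using h1, rfl⟩
      rw [hom_ne hH h3 (g ⟨l, j⟩), zero_comp]
    · intro j _
      rw [← Preadditive.zsmul_comp, ← hm]
  have hinj : ∀ k (y : (𝟙_ T)⟦k⟧ ⟶ ∐ X), y ≫ s ∈ U k → y = 0 := by
    intro k y hy
    obtain ⟨t, m, rfl⟩ := hexp k y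
    rw [Preadditive.sum_comp] at hy
    simp only [Preadditive.zsmul_comp, Category.assoc, hs] at hy
    refine Finset.sum_eq_zero fun j hj => ?_
    obtain ⟨c, hc⟩ := hb1 k t m hy j hj
    rw [hc, mul_comm, ← smul_smul, ← Preadditive.zsmul_comp, p_smul hH, zero_comp, smul_zero]
  obtain ⟨L, q, δ, D⟩ := exists_cone s
  refine ⟨_, L, s, q, δ, D, fun k z => ?_, fun k g hg => ?_, fun a ha => ?_⟩
  · let c : (𝟙_ T)⟦k⟧ ≅ ((𝟙_ T)⟦k - 1⟧)⟦(1 : ℤ)⟧ :=
      (shiftFunctorAdd' T (k - 1) 1 k (by omega)).app (𝟙_ T)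
    obtain ⟨y, hy⟩ := (shiftFunctor T (1 : ℤ)).map_surjective (c.inv ≫ z ≫ δ)
    have h1 : y ≫ s = 0 := by
      apply (shiftFunctor T (1 : ℤ)).map_injective
      rw [Functor.map_comp, hy, Category.assoc, Category.assoc, D.zero₃₁, comp_zero, comp_zero,
        Functor.map_zero]
    obtain ⟨x, rfl⟩ := D.lift₃ z (by
      rw [← cancel_epi c.inv, ← hy, hinj _ y (h1 ▸ zero_mem _), Functor.map_zero, comp_zero])
    obtain ⟨t, m, g, hg⟩ := hb2 k x
    refine ⟨g, ?_⟩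
    replace hg : g ≫ f = _ := hg
    rw [← Category.assoc, hg, Preadditive.sub_comp, sub_eq_self, Preadditive.sum_comp]
    refine Finset.sum_eq_zero fun j _ => ?_
    rw [← hs, Preadditive.zsmul_comp, Category.assoc, Category.assoc, D.zero₁₂, comp_zero,
      comp_zero, smul_zero]
  · obtain ⟨y, hy⟩ := D.lift₂ (g ≫ f) (by rw [Category.assoc, hg])
    rw [← hy, hinj k y ⟨g, hy.symm⟩, zero_comp]
  · refine BigCell.coprod X fun i => ?_
    have h1 : a ≤ i.1 := by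
      by_contra h
      obtain ⟨g, hg⟩ := ha i.1 (not_le.1 h) (b i.1 i.2)
      have h2 := hb1 i.1 {i.2} (fun _ => 1) (by
        rw [Finset.sum_singleton, one_smul]
        exact ⟨g, hg⟩) i.2 (Finset.mem_singleton_self _)
      exact (Fact.out : p.Prime).one_lt.ne' (Int.natCast_dvd_natCast.1 h2 |> Nat.dvd_one.1)
    exact (big h0 (conn_H hH)).tensor (BigCell.sphere _ h1) a (zero_add a)

end HF

/-- A map which is onto on homotopy groups and injective below `N`. -/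
theorem cofIn_of {X Y : T} (c : X ⟶ Y) (N : ℤ)
    (h1 : ∀ (k : ℤ) (z : (𝟙_ T)⟦k⟧ ⟶ Y), ∃ g, g ≫ c = z)
    (h2 : ∀ k < N, ∀ g : (𝟙_ T)⟦k⟧ ⟶ X, g ≫ c = 0 → g = 0) : CofIn (Conn (N + 1)) c := by
  obtain ⟨Z, q, δ, D⟩ := exists_cone c
  refine ⟨Z, q, δ, D, fun k hk z => ?_⟩
  let e : (𝟙_ T)⟦k⟧ ≅ ((𝟙_ T)⟦k - 1⟧)⟦(1 : ℤ)⟧ :=
    (shiftFunctorAdd' T (k - 1) 1 k (by omega)).app (𝟙_ T)
  obtain ⟨y, hy⟩ := (shiftFunctor T (1 : ℤ)).map_surjective (e.inv ≫ z ≫ δ)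
  have h3 : y ≫ c = 0 := by
    apply (shiftFunctor T (1 : ℤ)).map_injective
    rw [Functor.map_comp, hy, Category.assoc, Category.assoc, D.zero₃₁, comp_zero, comp_zero,
      Functor.map_zero]
  obtain ⟨x, rfl⟩ := D.lift₃ z (by
    rw [← cancel_epi e.inv, ← hy, h2 _ (by omega) y h3, Functor.map_zero, comp_zero])
  obtain ⟨g, rfl⟩ := h1 k x
  rw [Category.assoc, D.zero₁₂, comp_zero]

theorem conn_unshift {n : ℤ} {X : T} (h : Conn (n + 1) (X⟦(1 : ℤ)⟧)) : Conn n X :=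
  (h.shift (-1) n (by ring)).of_iso (shiftShiftNeg X (1 : ℤ))

/-- The Adams filtration along a highly connected map. -/
theorem af_of_cofIn (h0 : Conn 0 (𝟙_ T)) {P L : T} (e : 𝟙_ T ⟶ P) (c : P ⟶ L) (hP : Conn 0 P)
    (hL : Conn 0 L) {N n : ℤ} (hc : CofIn (Conn N) c) (hn : n + 3 < N)
    {θ : (𝟙_ T)⟦n⟧ ⟶ 𝟙_ T} (h : Tr.AF (e ≫ c) 3 θ) : Tr.AF e 3 θ := by
  obtain ⟨I, i, δ, D⟩ := exists_fibre e
  obtain ⟨I', i', δ', D'⟩ := exists_fibre (e ≫ c)
  obtain ⟨Z, g, d, E, hZ⟩ := hc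
  have hI : Conn (-1) I := Conn.ext₁ _ D (h0.mono (by norm_num)) hP
  have hI' : Conn (-1) I' := Conn.ext₁ _ D' (h0.mono (by norm_num)) hL
  obtain ⟨m₁, m₃, -, h1, -, -, O⟩ := exists_octa rfl D.rot E D'.rot
  obtain ⟨a, rfl⟩ := (shiftFunctor T (1 : ℤ)).map_surjective m₁
  have ha : a ≫ i' = i := by
    apply (shiftFunctor T (1 : ℤ)).map_injective
    rw [Preadditive.comp_neg, neg_inj] at h1
    rw [Functor.map_comp, h1]
  have h2 : CofIn (Conn (N - 1)) a := by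
    obtain ⟨W, g', d', E'⟩ := exists_cone a
    refine ⟨W, g', d', E', conn_unshift ?_⟩
    rw [sub_add_cancel]
    exact CofIn.of_dist (conn_extClosed N) E'.rot.rot.rot
      (CofIn.neg (conn_extClosed N) ⟨Z, _, _, O, hZ⟩)
  have h3 : CofIn (Conn (N - 2)) (a ▷ I ≫ I' ◁ a) :=
    (h2.whiskerRight (conn_extClosed _) I fun X hX => conn_ten h0 hI hX (by omega)).comp
      (conn_extClosed _) (h2.whiskerLeft I' fun X hX => conn_ten h0 hI' hX (by omega))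
  obtain ⟨W, g', d', E', hW⟩ : CofIn (Conn (N - 3)) (a ▷ (I ⊗ I) ≫ I' ◁ (a ▷ I ≫ I' ◁ a)) :=
    (h2.whiskerRight (conn_extClosed _) (I ⊗ I) fun X hX =>
      conn_ten h0 (conn_ten h0 hI hI le_rfl) hX (by omega)).comp
      (conn_extClosed _) (h3.whiskerLeft I' fun X hX => conn_ten h0 hI' hX (by omega))
  obtain ⟨w, rfl⟩ := (Tr.af_three_iff D' θ).1 h
  obtain ⟨w', rfl⟩ := E'.lift₂ w (hW n (by omega) _)
  refine (Tr.af_three_iff D _).2 ⟨w', ?_⟩
  simp only [Category.assoc, ← ha, comp_whiskerRight]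
  rw [whisker_exchange_assoc, leftUnitor_naturality_assoc, Category.assoc, whisker_exchange_assoc,
    leftUnitor_naturality_assoc]

end Vale.Agent.P236H
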