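import Vale.Agent.P236H.Good
import Vale.Agent.P236H.Wedge
import Vale.Agent.P236Z.Dt.HF

/-!
# P236, block DETH: the Thom map `MU ⟶ H` and the map `MU / I_n ⟶ H ⊗ MU`

* `lawOf_thom` : the law of `H` is additive; `mem_inf` : the kernel of `Laz ⟶ π_* (H ⊗ MU)`;
* `af_P` : filtration three for `H` gives filtration three for `MU / I_n`;
* `surj_HH` : `π_{2 w} (H ⊗ MU) ⟶ π_{2 w} (H ⊗ H)` is onto for `w < p`.
-/

open CategoryTheory MonoidalCategory Limits Pretriangulated MonObj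

set_option linter.unusedSectionVars false

universe u

noncomputable section

namespace Vale.Agent.P236H

open Vale.Agent.P251 Vale.Agent.P251.T Vale.Agent.P251.M Vale.Agent.P251.S Vale.Agent.P251.F
  Vale.Agent.P251.H Vale.Agent.P251.X Vale.Agent.P251.Z
  Vale.Agent.P251.M.EvenSpheres Vale.Agent.P236Z Vale.Agent.P257.H93
open Vale.Agent.P251.I hiding addLaw
open Vale.Agent.P257.H314 hiding IC

variable {T : Type u} [Category.{0} T] [Preadditive T] [HasZeroObject T]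
    [HasShift T ℤ] [∀ n : ℤ, (shiftFunctor T n).Additive] [Pretriangulated T] [IsTriangulated T]
    [MonoidalCategory T] [SymmetricCategory T] [TensorTriangulated T] [MonoidalClosed T]
    [HasCoproducts.{0} T] [HasProducts.{0} T] [StableCat T]

/-- the identification of the even spheres -/
abbrev sI (w : ℤ) : (stdEven T).S w ≅ (𝟙_ T)⟦2 * w⟧ := (stdEven T).sphIso (Iso.refl _) w

theorem of_zero (N : T) (w : ℤ) : HRing.of (stdEven T) N w 0 = 0 :=
  map_zero (DirectSum.of ((stdEven T).Gr N) w)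

theorem af_mono {H H' : T} {e : 𝟙_ T ⟶ H} (c : H ⟶ H') :
    ∀ {s : ℕ} {A B : T} {f : A ⟶ B}, Tr.AF e s f → Tr.AF (e ≫ c) s f
  | 0, _, _, _, _ => trivial
  | _ + 1, _, B, _, ⟨_, _, h, e', hg, hh⟩ => by
    rw [e']
    refine (af_mono c hg).succ ?_
    have h1 : Tr.hur (e ≫ c) B = Tr.hur e B ≫ c ▷ B := by
      rw [Tr.hur, Tr.hur, comp_whiskerRight, Category.assoc]
    rw [Tr.Null, h1, ← Category.assoc, hh, zero_comp]

variable {D : MUData T}

theorem val_zero_C {N : T} [MonObj N] [IsCommMonObj N] (k : D.R ⟶ N) [IsMonHom k] (a : Laz) :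
    val D (s := 0) (amOne D.R ≫ k) (MvPolynomial.C a) = Laz.lift (lawOf k) a := by
  rw [val_C, lawOf_congr (g' := k) (by rw [← Category.assoc, v_amOne, Category.id_comp])]

theorem good_of {N : T} [MonObj N] [IsCommMonObj N] (k : D.R ⟶ N) [IsMonHom k]
    (hs : Function.Surjective (Laz.lift (lawOf k))) (ho : Odd0 N) {I : Ideal Laz}
    (hI : ∀ a, Laz.lift (lawOf k) a = 0 → a ∈ I) : Good D (s := 0) I (amOne D.R ≫ k) := by
  refine ⟨fun y => ?_, fun B _ φ hφ => ?_, ho⟩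
  · obtain ⟨a, rfl⟩ := hs y
    exact ⟨_, val_zero_C k a⟩
  · let χ := RingHom.liftOfSurjective _ hs ⟨φ.comp MvPolynomial.C, fun a ha => hφ a (hI a ha)⟩
    refine ⟨χ, MvPolynomial.ringHom_ext (fun a => ?_) fun ki => ki.1.elim0⟩
    rw [RingHom.comp_apply, val_zero_C]
    exact RingHom.liftOfRightInverse_comp_apply _ _ _ _ a

theorem conn_R : Conn 0 D.R := by
  obtain ⟨J, ρ, δ, hJ⟩ := exists_cone (η[D.R])
  exact Conn.ext _ hJ D.conn_unit (((D.conn J ρ δ hJ).conn D.conn_unit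
    fun Y k f => StableCat.compact k Y f).mono (by norm_num))

section HF

variable {p : ℕ} [Fact p.Prime] {H : T} [MonObj H] [IsCommMonObj H] (hH : Tr.IsHF p η[H])
include hH

theorem odd_H : Odd0 H := fun _ f => hH.conc _ (by omega) f

theorem eq_zero_H {w : ℤ} (hw : w ≠ 0) (a : (stdEven T).S w ⟶ H) : a = 0 := by
  rw [← cancel_epi (sI w).inv, hH.conc _ (by omega) (_ ≫ _), comp_zero]

theorem int_H (y : HRing (stdEven T) H) : ∃ m : ℤ, (m : HRing (stdEven T) H) = y := by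
  induction y using DirectSum.induction_on with
  | zero => exact ⟨0, Int.cast_zero⟩
  | add x y hx hy =>
    obtain ⟨a, rfl⟩ := hx
    obtain ⟨b, rfl⟩ := hy
    exact ⟨a + b, Int.cast_add a b⟩
  | of w a =>
    by_cases hw : w = 0
    · subst hw
      obtain ⟨m, hm⟩ := hH.gen ((stdEven T).zero.hom ≫ a)
      refine ⟨m, ?_⟩
      rw [← zsmul_one, ← of_one, ← map_zsmul, ← Preadditive.comp_zsmul, ← hm,
        Iso.inv_hom_id_assoc]
    · exact ⟨0, by rw [eq_zero_H hH hw a, map_zero, Int.cast_zero]⟩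

theorem fpA_of {N : T} [MonObj N] [IsCommMonObj N] (κ : H ⟶ N) [IsMonHom κ] :
    FpA p (HRing (stdEven T) N) := ⟨by
  rw [← Int.cast_natCast, ← zsmul_one, ← of_one, ← map_zsmul, ← Preadditive.comp_zsmul,
    ← IsMonHom.one_hom κ, ← Preadditive.zsmul_comp, (hH.ord p).2 dvd_rfl, zero_comp, comp_zero,
    map_zero]⟩

theorem nontrivial_H : Nontrivial (HRing (stdEven T) H) := ⟨1, 0, fun h => by
  rw [← of_one] at h
  have h1 := MUData.of_injective (h.trans (of_zero H 0).symm)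
  rw [Preadditive.IsIso.comp_left_eq_zero, ← one_smul ℤ η[H], hH.ord] at h1
  exact (Fact.out : p.Prime).one_lt.ne' (Nat.dvd_one.1 (Int.natCast_dvd_natCast.1 h1))⟩

variable (u : D.R ⟶ H) [IsMonHom u]

theorem lawOf_thom : lawOf u = addLaw _ := by
  rw [← Laz.univ_map_lift (lawOf u), ← Laz.univ_map_lift (addLaw _)]
  congr 1
  refine Laz.hom_ext fun i j => ?_
  have h1 := Laz.isWt_C_coeff (i + j + 1) (i + 1) (j + 1) (by omega)
  have h2 : MvPowerSeries.coeff (e2 (i + 1) (j + 1)) Laz.univ.ps = Laz.a i j := Laz.coeff_univ i j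
  rw [h2] at h1
  rw [← val_zero_C, val_evw D _ ⟨_, h1⟩, eq_zero_H hH (by omega) (_ ≫ _), of_zero, Laz.lift_a,
    addLaw_ps, map_add, MvPowerSeries.coeff_X, MvPowerSeries.coeff_X, if_neg, if_neg, add_zero]
  · intro h
    simpa using DFunLike.congr_fun h 0
  · intro h
    simpa using DFunLike.congr_fun h 1

theorem lawOf_add {N : T} [MonObj N] [IsCommMonObj N] (κ : H ⟶ N) [IsMonHom κ] :
    lawOf (u ≫ κ) = addLaw _ := by
  rw [lawOf_comp, lawOf_thom hH, map_addLaw]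

theorem good_H : Good D (s := 0) (RingHom.ker (Laz.lift (addLaw (ZMod p)))) (amOne D.R ≫ u) := by
  refine good_of u (fun y => ?_) (odd_H hH) fun a ha => ?_
  · obtain ⟨m, rfl⟩ := int_H hH y
    exact ⟨m, map_intCast _ m⟩
  · have := fpA_of hH (𝟙 H)
    have := nontrivial_H hH
    apply (zm p (HRing (stdEven T) H)).injective
    rw [map_zero, Laz.map_lift, map_addLaw, ← lawOf_thom hH u, ha]

variable {F : SpaceFunctor T} {e : F.S.obj CCF ≅ (stdEven T).L} (hU : MUUniv e D)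
include hU

include u in
theorem odd_HR : Odd0 (H ⊗ D.R) := odd_ten hU u (odd_H hH)

include u in
/-- The kernel of `Laz ⟶ π_* (H ⊗ MU)` is contained in `I_∞`. -/
theorem mem_inf {n : ℕ} {w : ℤ} (hw : w < (p : ℤ) ^ n - 1) (z : Cob.wt Laz 0 w)
    (hz : D.evw 0 w z ≫ amOne D.R ≫ inrM H D.R = 0) : z.1 ∈ IC p n 0 := by
  refine mem_IC_of_mem_ICinf hw z.2 ?_
  have h0 : val D (s := 0) (amOne D.R ≫ inrM H D.R) z.1 = 0 := by
    rw [val_evw, hz, of_zero]
  obtain ⟨a, ha⟩ := MvPolynomial.C_surjective (Fin 0 × ℕ) z.1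
  rw [← ha] at h0 ⊢
  refine Ideal.mem_map_of_mem _ (Ideal.Quotient.eq_zero_iff_mem.1 ?_)
  have hB : FpA p (QIinf p) := ⟨QIinf.cast_p (RingHom.id _)⟩
  let G : Law (QIinf p) := Laz.univ.map (Ideal.Quotient.mk (Iinf p))
  have hG : ∀ k, vv p k G = 0 :=
    (Iinf_vanish_iff_vv p _).1 fun a ha => Ideal.Quotient.eq_zero_iff_mem.2 ha
  let c : Chain Laz 1 (QIinf p) := mkC (Laz.lift (addLaw _)) 1 fun k =>
    if k = 0 then 1 else ⟨_, strictMk_mem (P257.H604.logb p G)⟩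
  have hc : c.pt = Laz.lift (addLaw _) := LawRing.act_one _
  obtain ⟨χ, hχ⟩ := ((good_H hH u).step hU).ext _ (Cob.ev c) fun a ha => by
    rw [Cob.ev_C, hc, ← map_addLaw (zm p _), ← Laz.map_lift, RingHom.mem_ker.1 ha, map_zero]
  have h1 := DFunLike.congr_fun hχ (Cob.map (fun _ : Fin 1 => (1 : Fin 2)) (MvPolynomial.C a))
  rw [RingHom.comp_apply, val_map, val_congr D (ψ' := amOne D.R ≫ inrM H D.R) (by
    rw [← amOne_v, Category.assoc]
    exact congrArg _ (D.v_one_toKR u)), h0, map_zero, Cob.ev_map_res, Cob.ev_C, Chain.res_pt, hc,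
    Laz.act_eq, Laz.univ_map_lift] at h1
  have h2 : c.g 1 = strictMk (P257.H604.logb p G) := by
    rw [mkC_g, if_pos rfl, if_neg (by simp), OneMemClass.coe_one, inv_one, _root_.mul_one]
  rw [h2, P257.H604.logb_smul hB.cast hG, Laz.lift_map_univ] at h1
  exact h1.symm

omit hU in
theorem exists_L {P : T} (f : P ⟶ H ⊗ D.R) (ε : 𝟙_ T ⟶ P) (hε : ε ≫ f = η[H] ≫ inlM H D.R)
    {N : ℤ} (hf : ∀ k < N, ∀ g : (𝟙_ T)⟦k⟧ ⟶ P, g ≫ f = 0 → g = 0) :
    ∃ (L : T) (q : H ⊗ D.R ⟶ L) (r : L ⟶ H), CofIn (Conn (N + 1)) (f ≫ q) ∧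
      q ≫ r = H ◁ u ≫ μ[H] ∧ (Conn 0 P → Conn 0 L) := by
  obtain ⟨L', L, s, q, δ, E, h1, h2, h3⟩ := exists_quot hH D.conn_unit f
  obtain ⟨r, hr⟩ := E.desc₂ (H ◁ u ≫ μ[H]) (X.eq_zero_of_bigCell hH.conc (h3 1 fun k hk x => by
    obtain ⟨J, ρ, d, hJ⟩ := exists_cone (η[D.R])
    obtain ⟨d', E'⟩ := Tr.dist_tensL hJ H
    obtain ⟨y, rfl⟩ := E'.lift₂ x (conn_ten D.conn_unit (conn_H hH)
      ((D.conn J ρ d hJ).conn D.conn_unit fun Y k f => StableCat.compact k Y f) le_rfl k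
      (by omega) _)
    by_cases hk0 : k = 0
    · subst hk0
      let c : (𝟙_ T)⟦(0 : ℤ)⟧ ≅ 𝟙_ T := (shiftFunctorZero T ℤ).app (𝟙_ T)
      obtain ⟨m, hm⟩ := hH.gen (c.inv ≫ y ≫ (ρ_ H).hom)
      refine ⟨m • c.hom ≫ ε, ?_⟩
      rw [Preadditive.zsmul_comp, Category.assoc, hε, ← Preadditive.comp_zsmul,
        ← Preadditive.zsmul_comp, ← hm, inlM]
      simp
    · exact ⟨0, by
        rw [zero_comp, ← Category.comp_id y, ← (ρ_ H).hom_inv_id, ← Category.assoc,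
          hH.conc k hk0 (y ≫ _), zero_comp, zero_comp]⟩) _)
  refine ⟨L, q, r, cofIn_of _ N h1 fun k hk g hg => hf k hk g (h2 k g hg), hr,
    fun hP k hk z => ?_⟩
  obtain ⟨g, rfl⟩ := h1 k z
  rw [hP k hk g, zero_comp]

include u in
/-- Filtration three for `H` gives filtration three for `MU / I_n`. -/
theorem af_P {n : ℕ} (Q : PD D p n) {k : ℤ} (hk : k + 3 ≤ 2 * ((p : ℤ) ^ n - 1))
    (hk0 : 0 ≤ k) {θ : (𝟙_ T)⟦k⟧ ⟶ 𝟙_ T} (h : Tr.AF η[H] 3 θ) : Tr.AF η[Q.P] 3 θ := by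
  have := fpA_of hH (inlM H D.R)
  obtain ⟨f, hf, hf'⟩ := Q.desc _ (inrM H D.R) (odd_HR hH u hU) fun i hi =>
    vv_lawOf_lt (u ≫ inlM H D.R) _ (fun j _ => by
      rw [lawOf_add hH, vv_addLaw FpA.cast]) hi
  have hε : η[Q.P] ≫ f = η[H] ≫ inlM H D.R := by rw [IsMonHom.one_hom, IsMonHom.one_hom]
  have hinj : ∀ l < 2 * ((p : ℤ) ^ n - 1), ∀ g : (𝟙_ T)⟦l⟧ ⟶ Q.P, g ≫ f = 0 → g = 0 := by
    intro l hl g hg
    obtain ⟨w, rfl | rfl⟩ := Int.even_or_odd' l
    · obtain ⟨z, hz⟩ := (good_zero Q).surj (HRing.of _ _ w ((sI w).hom ≫ g))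
      have h1 := exists_wt D _ hz
      have h2 := val_IC D (amOne D.R ≫ Q.u) (fun i hi => by
        rw [lawOf_congr (g' := Q.u) (by rw [← Category.assoc, v_amOne, Category.id_comp]),
          Q.vv_zero_of_lt hi]) (mem_inf hH u hU (n := n) (by omega) ⟨_, Cob.isWt_proj w z⟩ (by
        rw [← hf', reassoc_of% h1, hg, comp_zero]))
      rw [val_evw, h1, ← of_zero _ w] at h2
      rw [← cancel_epi (sI w).hom, MUData.of_injective h2, comp_zero]
    · exact Q.odd w g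
  obtain ⟨L, q, r, h1, -, h2⟩ := exists_L hH u f _ hε hinj
  have hP : Conn 0 Q.P := fun l hl g => hinj l (by omega) g
    (conn_ten D.conn_unit (conn_H hH) conn_R le_rfl l hl _)
  refine af_of_cofIn D.conn_unit _ _ hP (h2 hP) h1 (by omega) ?_
  rw [reassoc_of% hε]
  exact af_mono _ h

/-- `π_{2 w} (H ⊗ MU) ⟶ π_{2 w} (H ⊗ H)` is onto for `w < p`. -/
theorem surj_HH (hp : p ≠ 2) {w : ℤ} (hw : w < p) (g : (stdEven T).S w ⟶ H ⊗ H) :
    ∃ z : Cob.wt Laz 1 w, g = D.evw 1 w z ≫ ((amOne D.R ≫ u) ⊗ₘ u) := by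
  obtain ⟨M, i, δ, hM⟩ := exists_cone ((p : ℤ) • 𝟙 (𝟙_ T))
  obtain ⟨m, hm⟩ := hM.desc₂ η[H] (by
    rw [Preadditive.zsmul_comp, Category.id_comp, (hH.ord p).2 dvd_rfl])
  let f : Am D.R 1 ⊗ M ⟶ H ⊗ D.R := (amOne D.R ⊗ₘ m) ≫ (β_ _ _).hom
  have hf : Dt.red i _ ≫ f = amOne D.R ≫ inrM H D.R := by
    simp only [f]
    rw [Dt.red, Category.assoc, MonoidalCategory.tensorHom_def', Category.assoc,
      ← MonoidalCategory.whiskerLeft_comp_assoc, hm, whisker_exchange_assoc,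
      BraidedCategory.braiding_naturality_right, ← rightUnitor_inv_naturality_assoc, inrM]
    simp
  obtain ⟨L, q, r, ⟨Z, a, b, E, hZ⟩, hr, -⟩ := exists_L hH u f (η[Am D.R 1] ≫ Dt.red i _) (by
    rw [Category.assoc, hf, IsMonHom.one_hom_assoc, IsMonHom.one_hom, IsMonHom.one_hom])
    (N := 2 * ((p : ℤ) - 1)) fun l hl y hy => by
      obtain ⟨v, rfl | rfl⟩ := Int.even_or_odd' l
      · obtain ⟨z, c, hz, hc, h1⟩ := D.surj p hp 0 M i δ hM v ((sI v).hom ≫ y)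
        have h2 : D.evw 0 v ⟨z, hz⟩ = c := MUData.of_injective ((D.of_evw ⟨z, hz⟩).trans hc)
        replace h1 : (sI v).hom ≫ y = c ≫ Dt.red i _ := h1
        have h3 := mem_inf hH u hU (n := 1) (by rw [pow_one]; omega) ⟨z, hz⟩ (by
          rw [h2, ← hf, ← reassoc_of% h1, hy, comp_zero])
        obtain ⟨z', hz'⟩ : ∃ z', z = (p : ℤ) • z' := by
          rw [CobCompl.IC_eq_span] at h3
          have h4 : Ideal.span {x | ∃ i < 1, MvPolynomial.C (Laz.v p i) = x} ≤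
              Ideal.span {(p : Cob Laz 0)} := Ideal.span_mono (by
            rintro _ ⟨i, hi, rfl⟩
            obtain rfl : i = 0 := by omega
            rw [show Laz.v p 0 = (p : Laz) from vv_zero p _, map_natCast]
            rfl)
          obtain ⟨z', hz'⟩ := Ideal.mem_span_singleton.1 (h4 h3)
          exact ⟨z', by rw [zsmul_eq_mul, Int.cast_natCast]; exact hz'⟩
        have h4 : (⟨z, hz⟩ : Cob.wt Laz 0 v) = (p : ℤ) • ⟨_, Cob.isWt_proj v z'⟩ := by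
          apply Subtype.ext
          change z = (p : ℤ) • Cob.proj v z'
          rw [← Cob.proj_zsmul, ← hz', Cob.proj_of_isWt hz, if_pos rfl]
        rw [← cancel_epi (sI v).hom, h1, ← h2, h4, map_zsmul, Dt.zsmul_red' hM, comp_zero]
      · exact D.odd p hp 0 M i δ hM v y
  obtain ⟨b', E'⟩ := Tr.dist_tensL E H
  obtain ⟨g₁, h₁⟩ := E'.lift₂ (g ≫ H ◁ (inlM H D.R ≫ q)) (by
    rw [← cancel_epi (sI w).inv, conn_ten D.conn_unit (conn_H hH) hZ le_rfl _ (by omega) (_ ≫ _),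
      comp_zero])
  obtain ⟨d, E''⟩ := Tr.dist_tensL (Dt.dist_red hM (Am D.R 1)) H
  obtain ⟨g₂, rfl⟩ := E''.lift₃ g₁ (by
    let c : (𝟙_ T)⟦2 * w⟧ ≅ ((𝟙_ T)⟦2 * (w - 1) + 1⟧)⟦(1 : ℤ)⟧ :=
      (shiftFunctorAdd' T (2 * (w - 1) + 1) 1 (2 * w) (by omega)).app (𝟙_ T)
    obtain ⟨y, hy⟩ := (shiftFunctor T (1 : ℤ)).map_surjective (c.inv ≫ (sI w).inv ≫ g₁ ≫ d)
    have h2 : y = 0 := by
      rw [← cancel_mono (H ◁ (λ_ D.R).hom), zero_comp]
      exact odd_HR hH u hU _ _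
    rw [← cancel_epi (sI w).inv, ← cancel_epi c.inv, ← hy, h2, Functor.map_zero, comp_zero,
      comp_zero])
  obtain ⟨z, hz⟩ := ((good_H hH u).step hU).surj (HRing.of _ _ w (g₂ ≫ H ◁ amOne D.R))
  refine ⟨⟨_, Cob.isWt_proj w z⟩, ?_⟩
  have h2 := congrArg (· ≫ H ◁ r) h₁
  simp only [Category.assoc, ← MonoidalCategory.whiskerLeft_comp] at h2
  have h3 : inlM H D.R ≫ H ◁ u ≫ μ[H] = 𝟙 H := by
    rw [inlM, Category.assoc, ← MonoidalCategory.whiskerLeft_comp_assoc, IsMonHom.one_hom,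
      MonObj.mul_one, Iso.inv_hom_id]
  have h4 : inrM H D.R ≫ H ◁ u ≫ μ[H] = u := by
    rw [inrM, Category.assoc, ← whisker_exchange_assoc, MonObj.one_mul,
      ← leftUnitor_inv_naturality_assoc, Iso.inv_hom_id, Category.comp_id]
  rw [hr, h3, reassoc_of% hf, h4, MonoidalCategory.whiskerLeft_id, Category.comp_id] at h2
  rw [MonoidalCategory.tensorHom_def, reassoc_of% exists_wt D _ hz, ← h2,
    MonoidalCategory.whiskerLeft_comp]

end HF

end Vale.Agent.P236H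

end
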