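import Vale.Agent.P236H.Val

/-!
# P236, block ORD: primitive classes in `π_* (H ⊗ H)`

`inj1` : a cocycle of filtration one whose value in `π_* (H ⊗ H)` vanishes has a trivial reduction
to the cobar complex of the additive group.
-/

open CategoryTheory MonoidalCategory Limits Pretriangulated MonObj

set_option linter.unusedSectionVars false

universe u

noncomputable section

namespace Vale.Agent.P236H

open Vale.Agent.P251 Vale.Agent.P251.T Vale.Agent.P251.M Vale.Agent.P251.S Vale.Agent.P251.F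
  Vale.Agent.P251.H Vale.Agent.P251.X Vale.Agent.P251.Z
  Vale.Agent.P251.M.EvenSpheres Vale.Agent.P236Z Vale.Agent.P257.H93
open Vale.Agent.P251.I hiding addLaw
open Vale.Agent.P257.H314 hiding IC

theorem fP_right {p : ℕ} [Fact p.Prime] {w : ℤ} (hw : w ≠ 0) {z : Cob Laz 0}
    (hz : Cob.IsWt w z) : fP p 1 (Cob.map (fun _ : Fin 1 => (1 : Fin 2)) z) = 0 := by
  have h0 : fP p 0 z = 0 := by
    ext e
    by_contra h
    have h1 := fP_wt (p := p) hz h
    rw [Subsingleton.elim e 0, map_zero] at h1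
    exact hw h1.symm
  refine ext_evG fun {B} _ _ g => ?_
  rw [evG_fP, Cob.ev_map_res, res_mkC (fun _ : Fin 1 => (1 : Fin 2)) _ (fun k => (g k : strict B))
    (fun _ => (g 1 : strict B)) fun _ => rfl,
    ← evG_fP (p := p) fun _ => g 1, h0, map_zero, map_zero]

theorem d_cube {h : ℕ} (hh : h ≠ 0) {x : Cob Laz 1} (hd : Cob.d 1 x ∈ IC 3 h 2) :
    Cob.d 1 (x ^ 3) ∈ IC 3 h 2 := by
  have h3 : (3 : Cob Laz 2) ∈ IC 3 h 2 := by
    have h4 := Ideal.mem_map_of_mem (MvPolynomial.C : Laz →+* Cob Laz 2)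
      (vv_mem_Ih (p := 3) (h := h) (i := 0) (by omega) Laz.univ)
    rwa [vv_zero, map_natCast] at h4
  have key : ∀ a b c : Cob Laz 2, a ^ 3 - b ^ 3 + c ^ 3 = (a - b + c) * (a - b + c) ^ 2 -
      3 * (a * c * (a + c) - (a + c) ^ 2 * (a - b + c) + (a + c) * (a - b + c) ^ 2) := by
    intro a b c
    ring
  have e : ∀ y : Cob Laz 1, Cob.d 1 y = Cob.map (Fin.succAbove 0) y - Cob.map (Fin.succAbove 1) y +
      Cob.map (Fin.succAbove 2) y := fun y => by
    rw [Cob.d_apply, Fin.sum_univ_three]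
    simp [sub_eq_add_neg]
  rw [e] at hd ⊢
  rw [map_pow, map_pow, map_pow, key]
  exact sub_mem (Ideal.mul_mem_right _ _ hd) (Ideal.mul_mem_right _ _ h3)

variable {T : Type u} [Category.{0} T] [Preadditive T] [HasZeroObject T]
    [HasShift T ℤ] [∀ n : ℤ, (shiftFunctor T n).Additive] [Pretriangulated T] [IsTriangulated T]
    [MonoidalCategory T] [SymmetricCategory T] [TensorTriangulated T] [MonoidalClosed T]
    [HasCoproducts.{0} T] [HasProducts.{0} T] [StableCat T] {D : MUData T}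
    {p : ℕ} [Fact p.Prime] {H : T} [MonObj H] [IsCommMonObj H] (hH : Tr.IsHF p η[H])
    (u : D.R ⟶ H) [IsMonHom u]
include hH

/-- The value of a cocycle in `π_* (H ⊗ MU)` is primitive. -/
theorem prim {h : ℕ} {w : ℤ} (x : Cob.wt Laz 1 w) (hd : Cob.d 1 x.1 ∈ IC p h 2)
    (hx : D.evw 1 w x ≫ ψ₂ u = 0) :
    (D.evw 1 w x ≫ (amOne D.R ≫ u) ▷ D.R) ≫ inrM H (H ⊗ D.R) =
      (D.evw 1 w x ≫ (amOne D.R ≫ u) ▷ D.R) ≫ H ◁ inrM H D.R := by
  let Ψ : Am D.R 3 ⟶ H ⊗ H ⊗ D.R := ψ₂ u ▷ D.R ≫ (α_ H H D.R).hom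
  have v0 : Am.v D.R (0 : Fin 3) ≫ Ψ = u ≫ inlM H _ := by
    change (Am.v D.R (0 : Fin 2) ≫ inlM _ D.R) ≫ _ = _
    rw [Category.assoc, inlM_whiskerRight_assoc, v0_ψ₂_assoc, inlM_associator,
      inlM_whiskerLeft]
  have v1 : Am.v D.R (1 : Fin 3) ≫ Ψ = u ≫ inlM H D.R ≫ inrM H _ := by
    change (Am.v D.R (1 : Fin 2) ≫ inlM _ D.R) ≫ _ = _
    rw [Category.assoc, inlM_whiskerRight_assoc, v1_ψ₂_assoc, inlM_associator,
      inrM_whiskerLeft]
  have v2 : Am.v D.R (2 : Fin 3) ≫ Ψ = inrM H D.R ≫ inrM H _ := by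
    change inrM _ D.R ≫ _ = _
    rw [inrM_whiskerRight_assoc, inrM_associator]
  have w0 := D.v_zero_toKR u
  have w1 := D.v_one_toKR u
  have := fpA_of hH (inlM H (H ⊗ D.R))
  have h1 := val_IC D Ψ (fun i _ => by
    rw [lawOf_congr v0, lawOf_add hH, vv_addLaw FpA.cast]) hd
  rw [← Cob.coe_dwt, val_evw, ← of_zero _ w] at h1
  have h2 := MUData.of_injective h1
  have f0 : Am.map D.R (Fin.succAbove (0 : Fin 3)) ≫ Ψ =
      (amOne D.R ≫ u) ▷ D.R ≫ inrM H (H ⊗ D.R) := Am.hom_ext fun i => by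
    rw [Am.v_map_assoc]
    fin_cases i
    · exact v1.trans ((congrArg (· ≫ _) w0).symm ▸ Category.assoc _ _ _).symm |>.trans
        (Category.assoc _ _ _)
    · exact v2.trans ((congrArg (· ≫ _) w1).symm.trans (Category.assoc _ _ _))
  have f1 : Am.map D.R (Fin.succAbove (1 : Fin 3)) ≫ Ψ =
      (amOne D.R ≫ u) ▷ D.R ≫ H ◁ inrM H D.R := Am.hom_ext fun i => by
    rw [Am.v_map_assoc]
    fin_cases i
    · refine v0.trans (Eq.trans ?_ ((congrArg (· ≫ _) w0).symm.trans (Category.assoc _ _ _)))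
      rw [Category.assoc, inlM_whiskerLeft]
    · refine v2.trans (Eq.trans ?_ ((congrArg (· ≫ _) w1).symm.trans (Category.assoc _ _ _)))
      rw [inrM_whiskerLeft]
  have f2 : Am.map D.R (Fin.succAbove (2 : Fin 3)) ≫ Ψ = ψ₂ u ≫ H ◁ inlM H D.R :=
    Am.hom_ext fun i => by
      rw [Am.v_map_assoc]
      fin_cases i
      · refine v0.trans (Eq.trans ?_ (v0_ψ₂_assoc u _).symm)
        rw [inlM_whiskerLeft]
      · refine v1.trans (Eq.trans ?_ (v1_ψ₂_assoc u _).symm)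
        rw [inrM_whiskerLeft]
  rw [D.evw_dwt, Fin.sum_univ_three, Category.assoc, Preadditive.add_comp, Preadditive.add_comp,
    Preadditive.zsmul_comp, Preadditive.zsmul_comp, Preadditive.zsmul_comp, f0, f1, f2,
    Preadditive.comp_add, Preadditive.comp_add, Preadditive.comp_zsmul, Preadditive.comp_zsmul,
    Preadditive.comp_zsmul, reassoc_of% hx, zero_comp, smul_zero, add_zero] at h2
  rw [Category.assoc, Category.assoc, ← sub_eq_zero, ← h2]
  simp [sub_eq_add_neg]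

variable {F : SpaceFunctor T} {e : F.S.obj CCF ≅ (stdEven T).L} (hU : MUUniv e D)
include hU

include u in
theorem exists_f {n : ℕ} (Q : PD D p n) : ∃ (f : Q.P ⟶ H ⊗ D.R) (_ : IsMonHom f),
    Q.u ≫ f = inrM H D.R ∧
      ∀ l < 2 * ((p : ℤ) ^ n - 1), ∀ g : (𝟙_ T)⟦l⟧ ⟶ Q.P, g ≫ f = 0 → g = 0 := by
  have := fpA_of hH (inlM H D.R)
  obtain ⟨f, hf, hf'⟩ := Q.desc _ (inrM H D.R) (odd_HR hH u hU) fun i hi =>
    vv_lawOf_lt (u ≫ inlM H D.R) _ (fun j _ => by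
      rw [lawOf_add hH, vv_addLaw FpA.cast]) hi
  refine ⟨f, hf, hf', fun l hl g hg => ?_⟩
  obtain ⟨w, rfl | rfl⟩ := Int.even_or_odd' l
  · obtain ⟨z, hz⟩ := (good_zero Q).surj (HRing.of _ _ w ((sI w).hom ≫ g))
    have h1 := exists_wt D _ hz
    have h2 := val_IC D (amOne D.R ≫ Q.u) (fun i hi => by
      rw [lawOf_congr (g' := Q.u) (by rw [← Category.assoc, v_amOne, Category.id_comp]),
        Q.vv_zero_of_lt hi]) (mem_inf hH u hU (n := n) (by omega) ⟨_, Cob.isWt_proj w z⟩ (by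
      rw [← hf', reassoc_of% h1, hg, comp_zero]))
    rw [val_evw, h1, ← of_zero _ w] at h2
    rw [← cancel_epi (sI w).hom, MUData.of_injective h2, comp_zero]
  · exact Q.odd w g

include u in
/-- Primitive classes come from the right unit. -/
theorem of_prim (hp : p ≠ 2) {w : ℤ} (a : (stdEven T).S w ⟶ H ⊗ D.R)
    (ha : a ≫ inrM H (H ⊗ D.R) = a ≫ H ◁ inrM H D.R) :
    ∃ z : Cob.wt Laz 0 w, a = D.evw 0 w z ≫ amOne D.R ≫ inrM H D.R := by
  obtain ⟨Q⟩ := exists_PD hU hp (n := w.toNat + 2) (by omega)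
  have hn : w + 2 < (p : ℤ) ^ (w.toNat + 2) := by
    have h1 : w.toNat + 2 < p ^ (w.toNat + 2) := Nat.lt_pow_self (Fact.out : p.Prime).one_lt
    have h2 : ((w.toNat + 2 : ℕ) : ℤ) < (p : ℤ) ^ (w.toNat + 2) := by exact_mod_cast h1
    omega
  obtain ⟨f, hf, hf', hinj⟩ := exists_f hH u hU Q
  obtain ⟨L, q, r, ⟨Z, b, c, E, hZ⟩, -, -⟩ := exists_L hH u f η[Q.P]
    (by rw [IsMonHom.one_hom, IsMonHom.one_hom]) hinj
  obtain ⟨g, hg⟩ := E.lift₂ (a ≫ q) (by
    rw [← cancel_epi (sI w).inv, hZ _ (by omega) (_ ≫ _), comp_zero])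
  obtain ⟨z, hz⟩ := (good_zero Q).surj (HRing.of _ _ w g)
  have h1 := exists_wt D _ hz
  refine ⟨⟨_, Cob.isWt_proj w z⟩, ?_⟩
  set z₀ := D.evw 0 w ⟨_, Cob.isWt_proj w z⟩
  obtain ⟨d, E'⟩ := Tr.dist_tensL E H
  obtain ⟨s, t, E''⟩ := Dist.invRot' E'
  have hr : ∀ {Y : T} (k : Y ⟶ L), inrM H Y ≫ H ◁ k = k ≫ inrM H L := fun k => (unitMap_nat k).symm
  obtain ⟨y, hy⟩ := E''.lift₂ ((a - z₀ ≫ amOne D.R ≫ inrM H D.R) ≫ H ◁ Q.u) (by
    rw [Category.assoc, ← MonoidalCategory.whiskerLeft_comp, Preadditive.sub_comp, sub_eq_zero,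
      Category.assoc, Category.assoc, hr, Category.assoc, reassoc_of% h1,
      ← Category.assoc g, hg, reassoc_of% hf', MonoidalCategory.whiskerLeft_comp, ← reassoc_of% ha,
      hr, Category.assoc])
  have h2 : y = 0 := by
    rw [← cancel_epi (sI w).inv, comp_zero]
    exact (conn_ten D.conn_unit (conn_H hH) hZ le_rfl).shift (-1) _ rfl _ (by omega) _
  have h3 : H ◁ Q.u ≫ H ◁ f ≫ mulMap H D.R = 𝟙 _ := by
    rw [← MonoidalCategory.whiskerLeft_comp_assoc, hf']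
    exact whiskerLeft_unitMap_mulMap _
  rw [← sub_eq_zero, ← Category.comp_id (_ - _), ← h3, ← reassoc_of% hy, h2, zero_comp]

/-- A cocycle with value zero in `π_* (H ⊗ H)` reduces to zero. -/
theorem inj1 (hp : p ≠ 2) {h : ℕ} {w : ℤ} (hw : w ≠ 0) (x : Cob.wt Laz 1 w)
    (hd : Cob.d 1 x.1 ∈ IC p h 2) (hx : D.evw 1 w x ≫ ψ₂ u = 0) : fP p 1 x.1 = 0 := by
  obtain ⟨z, hz⟩ := of_prim hH u hU hp _ (prim hH u x hd hx)
  obtain ⟨χ, hχ⟩ := ((good_H hH u).step hU).ext _ (fP p 1) fun a ha => ext_evG fun g => by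
    rw [evG_fP, Cob.ev_C, mkC_pt, act_lift_addLaw (g 0).2, ← map_addLaw (zm p _), ← Laz.map_lift,
      RingHom.mem_ker.1 ha, map_zero, map_zero]
  rw [← fP_right (p := p) hw z.2, ← hχ, RingHom.comp_apply, RingHom.comp_apply, val_evw, hz,
    val_map, val_congr D (ψ' := amOne D.R ≫ inrM H D.R) (by
      rw [← amOne_v, Category.assoc]
      exact congrArg _ (D.v_one_toKR u)), val_evw]

end Vale.Agent.P236H

end
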