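import Vale.Agent.P236H.Wedge
import Vale.Agent.P236R.Cube
import Vale.Agent.P236G.Cyc
import Vale.Agent.P251.S.TowerR
import Vale.Agent.P251.X.HQ

/-!
# P236, block ORD: upper bounds for homology, exterior products

* `Up H n W` : the homology of `W` vanishes above `n`; `UC H n X` : the same after tensoring;
* `four` : the four lemma; `inj_D2` : maps of skeleta which are injective on homology;
* `st` : the exterior product of homology classes.
-/

open CategoryTheory MonoidalCategory Limits Pretriangulated MonObj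

set_option linter.unusedSectionVars false

universe u

noncomputable section

namespace Vale.Agent.P236H

open Vale.Agent.P251 Vale.Agent.P251.T Vale.Agent.P251.M Vale.Agent.P251.S Vale.Agent.P251.H
  Vale.Agent.P236Z Vale.Agent.P236G
open Vale.Agent.P236R (Sph sph_self sph_unit)

variable {T : Type u} [Category.{0} T] [Preadditive T] [HasZeroObject T]
    [HasShift T ℤ] [∀ n : ℤ, (shiftFunctor T n).Additive] [Pretriangulated T] [IsTriangulated T]
    [MonoidalCategory T] [SymmetricCategory T] [TensorTriangulated T] [MonoidalClosed T]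
    [HasCoproducts.{0} T] [HasProducts.{0} T] [StableCat T] {H : T}

theorem four {S X Y Z X' Y' Z' : T} {f : X ⟶ Y} {g : Y ⟶ Z} {h : Z ⟶ X⟦(1 : ℤ)⟧} {f' : X' ⟶ Y'}
    {g' : Y' ⟶ Z'} {h' : Z' ⟶ X'⟦(1 : ℤ)⟧} (D : Dist f g h) (D' : Dist f' g' h') {a : X ⟶ X'}
    {b : Y ⟶ Y'} {c : Z ⟶ Z'} (h1 : f ≫ b = a ≫ f') (h2 : b ≫ g' = g ≫ c)
    (h3 : c ≫ h' = h ≫ a⟦(1 : ℤ)⟧') (ia : ∀ x : S ⟶ X, x ≫ a = 0 → x = 0)
    (ic : ∀ x : S ⟶ Z, x ≫ c = 0 → x = 0) (sc : ∀ x : S⟦(1 : ℤ)⟧ ⟶ Z', ∃ y, y ≫ c = x)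
    (x : S ⟶ Y) (hx : x ≫ b = 0) : x = 0 := by
  obtain ⟨y, rfl⟩ := D.lift₂ x (ic _ (by rw [Category.assoc, ← h2, reassoc_of% hx, zero_comp]))
  obtain ⟨z', hz⟩ := D'.lift₁ ((y ≫ a)⟦(1 : ℤ)⟧') (by
    rw [← Functor.map_comp, Category.assoc, ← h1, ← Category.assoc, hx, Functor.map_zero])
  obtain ⟨z, rfl⟩ := sc z'
  obtain ⟨w, hw⟩ := (shiftFunctor T (1 : ℤ)).map_surjective (z ≫ h)
  have h4 := ia (y - w) (by
    apply (shiftFunctor T (1 : ℤ)).map_injective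
    rw [Preadditive.sub_comp, Functor.map_sub, ← hz, Functor.map_comp, hw, Category.assoc,
      Category.assoc, h3, sub_self, Functor.map_zero])
  apply (shiftFunctor T (1 : ℤ)).map_injective
  rw [sub_eq_zero.1 h4, Functor.map_comp, hw, Category.assoc, D.zero₃₁, comp_zero,
    Functor.map_zero]

theorem dist_L {X Y Z : T} {f : X ⟶ Y} {g : Y ⟶ Z} {h : Z ⟶ X⟦(1 : ℤ)⟧} (D : Dist f g h) (B : T) :
    Dist (B ◁ f) (B ◁ g) (B ◁ h ≫ (csh B 1 X).hom) := dist_whiskerLeft B D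

variable (H) in
/-- The homology of `W` vanishes above `n`. -/
def Up (n : ℤ) (W : T) : Prop := ∀ (S : T) (k : ℤ), Sph S k → n < k → ∀ g : S ⟶ H ⊗ W, g = 0

variable (H) in
/-- The cells of `X` have dimension at most `n`, as far as homology is concerned. -/
def UC (n : ℤ) (X : T) : Prop := ∀ (m : ℤ) (W : T), Up H m W → Up H (m + n) (X ⊗ W)

theorem up_ext (n : ℤ) : ExtClosed (Up H n) where
  zero X hX _ _ _ _ g := by
    rw [← Category.comp_id g, ← MonoidalCategory.whiskerLeft_id, hX.eq_of_src (𝟙 X) 0,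
      MonoidalPreadditive.whiskerLeft_zero, comp_zero]
  ext D hX hZ S k hS hk g := by
    obtain ⟨y, rfl⟩ := (dist_L D H).lift₂ g (hZ S k hS hk _)
    rw [hX S k hS hk y, zero_comp]

theorem Up.mono {m n : ℤ} {W : T} (h : Up H m W) (hn : m ≤ n) : Up H n W :=
  fun S k hS hk => h S k hS (by omega)

theorem Up.shift {n : ℤ} {W : T} (h : Up H n W) (l : ℤ) {m : ℤ} (hm : n + l ≤ m) :
    Up H m (W⟦l⟧) := fun _ k ⟨e⟩ hk g => by
  rw [← cancel_epi e.inv, ← cancel_mono (csh H l W).hom, comp_zero, zero_comp]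
  exact eq_zero_of_shift (k - l) l k (by ring) (h _ _ (sph_self _) (by omega)) _

theorem uc_ext (n : ℤ) : ExtClosed (UC H n) where
  zero _ hX _ W _ := (up_ext _).zero _ ((tensorRight W).map_isZero hX)
  ext D hX hZ m W hW :=
    (Tr.dist_tensR D W).elim fun _ E => (up_ext _).ext E (hX m W hW) (hZ m W hW)

theorem UC.mono {m n : ℤ} {X : T} (h : UC H m X) (hn : m ≤ n) : UC H n X :=
  fun l W hW => (h l W hW).mono (by omega)

theorem UC.tensor {a b c : ℤ} {X Y : T} (hX : UC H a X) (hY : UC H b Y) (h : a + b ≤ c) :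
    UC H c (X ⊗ Y) := fun m W hW =>
  (up_ext _).iso (α_ X Y W).symm ((hX _ _ (hY m W hW)).mono (by omega))

theorem UC.shift {n : ℤ} {X : T} (h : UC H n X) (l : ℤ) {m : ℤ} (hm : n + l ≤ m) :
    UC H m (X⟦l⟧) := fun k W hW =>
  (up_ext _).iso (((tensorRight W).commShiftIso l).app X).symm ((h k W hW).shift l (by omega))

theorem uc_sph {L : T} {n m : ℤ} (h : Sph L n) (hm : n ≤ m) : UC H m L :=
  (uc_ext _).iso h.some.symm (UC.shift (n := 0) (fun _ W hW =>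
    (up_ext _).iso (λ_ W).symm (hW.mono (by omega))) n (by omega))

theorem inj_of {A A' S : T} {φ : A ⟶ A'} {M k : ℤ} (h : CofIn (Up H M) φ) (hS : Sph S k)
    (hk : M ≤ k) (x : S ⟶ H ⊗ A) (hx : x ≫ H ◁ φ = 0) : x = 0 := by
  obtain ⟨Z, g, d, D, hZ⟩ := h
  obtain ⟨a, b, E⟩ := Dist.invRot' D
  obtain ⟨y, rfl⟩ := (dist_L E H).lift₂ x hx
  rw [hZ.shift (-1) le_rfl S k hS (by omega) y, zero_comp]

theorem sur_of {A A' S : T} {φ : A ⟶ A'} {M k : ℤ} (h : CofIn (Up H M) φ) (hS : Sph S k)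
    (hk : M < k) (x : S ⟶ H ⊗ A') : ∃ y, y ≫ H ◁ φ = x := by
  obtain ⟨Z, g, d, D, hZ⟩ := h
  exact (dist_L D H).lift₂ x (hZ S k hS hk _)

theorem four_L {S X Y Z X' Y' Z' : T} {f : X ⟶ Y} {g : Y ⟶ Z} {h : Z ⟶ X⟦(1 : ℤ)⟧}
    {f' : X' ⟶ Y'} {g' : Y' ⟶ Z'} {h' : Z' ⟶ X'⟦(1 : ℤ)⟧} (D : Dist f g h) (D' : Dist f' g' h')
    {a : X ⟶ X'} {b : Y ⟶ Y'} {c : Z ⟶ Z'} (h1 : f ≫ b = a ≫ f') (h2 : b ≫ g' = g ≫ c)
    (h3 : c ≫ h' = h ≫ a⟦(1 : ℤ)⟧') (ia : ∀ x : S ⟶ H ⊗ X, x ≫ H ◁ a = 0 → x = 0) {M k : ℤ}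
    (hc : CofIn (Up H M) c) (hS : Sph S k) (hk : M ≤ k) (x : S ⟶ H ⊗ Y) (hx : x ≫ H ◁ b = 0) :
    x = 0 :=
  four (dist_L D H) (dist_L D' H)
    (by rw [← MonoidalCategory.whiskerLeft_comp, h1, MonoidalCategory.whiskerLeft_comp])
    (by rw [← MonoidalCategory.whiskerLeft_comp, h2, MonoidalCategory.whiskerLeft_comp])
    (by rw [← MonoidalCategory.whiskerLeft_comp_assoc, h3, MonoidalCategory.whiskerLeft_comp,
      Category.assoc, csh_nat, Category.assoc]) ia (inj_of hc hS hk)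
    (sur_of hc (hS.shift 1 rfl) (by omega)) x hx

/-- A map of skeleta which is injective on homology. -/
theorem inj_D2 {A A' S : T} {t : A ⟶ A} {t' : A' ⟶ A'} {P : Orb A t} {P' : Orb A' t'} {φ : A ⟶ A'}
    (m : P.Map P' φ) {M k : ℤ} (h : CofIn (Up H M) φ) (hS : Sph S k) (hk : M + 2 ≤ k)
    (x : S ⟶ H ⊗ P.D2) (hx : x ≫ H ◁ m.m2 = 0) : x = 0 := by
  have h1 := h.shift_one (fun _ hX => hX.shift 1 le_rfl) (up_ext _)
  have h2 := h1.shift_one (fun _ hX => hX.shift 1 le_rfl) (up_ext _)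
  refine four_L (Dist.rot P.tr2) (Dist.rot P'.tr2) m.i2 m.j2 ?_
    (four_L P.tr1 P'.tr1 m.i1 m.j1 m.d1 (inj_of h hS (by omega)) h1 hS (by omega)) h2 hS
    (by omega) x hx
  rw [Preadditive.comp_neg, Preadditive.neg_comp, ← Functor.map_comp, ← Functor.map_comp, m.bd]

theorem cof_cube_uc {X Y : T} {f : X ⟶ Y} {a n : ℤ} (h : CofIn (UC H a) f) (hX : UC H n X)
    (hY : UC H n Y) : CofIn (UC H (n + n + a)) (f ⊗ₘ f ⊗ₘ f) := by
  rw [MonoidalCategory.tensorHom_def, MonoidalCategory.tensorHom_def]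
  exact (h.whiskerRight (uc_ext _) _ fun _ k => (hX.tensor hX le_rfl).tensor k le_rfl).comp
    (uc_ext _) (((h.whiskerRight (uc_ext (n + a)) X fun _ k => hX.tensor k le_rfl).comp (uc_ext _)
      (h.whiskerLeft Y fun _ k => hY.tensor k le_rfl)).whiskerLeft Y
        fun _ k => hY.tensor k (by omega))

theorem cof_cube_conn (h0 : Conn 0 (𝟙_ T)) {X Y : T} {f : X ⟶ Y} {a : ℤ} (h : CofIn (Conn a) f)
    (hX : Conn 0 X) (hY : Conn 0 Y) : CofIn (Conn a) (f ⊗ₘ f ⊗ₘ f) := by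
  rw [MonoidalCategory.tensorHom_def, MonoidalCategory.tensorHom_def]
  exact (h.whiskerRight (conn_extClosed _) _ fun _ k =>
    conn_ten h0 (conn_ten h0 hX hX le_rfl) k (by omega)).comp (conn_extClosed _)
      (((h.whiskerRight (conn_extClosed a) X fun _ k => conn_ten h0 hX k (by omega)).comp
        (conn_extClosed _) (h.whiskerLeft Y fun _ k => conn_ten h0 hY k (by omega))).whiskerLeft Y
          fun _ k => conn_ten h0 hY k (by omega))

variable [MonObj H]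

/-- The exterior product of homology classes. -/
def st {S S' M M' : T} (z : S ⟶ H ⊗ M) (z' : S' ⟶ H ⊗ M') : S ⊗ S' ⟶ H ⊗ M ⊗ M' :=
  (z ⊗ₘ z') ≫ tensorμ H M H M' ≫ μ[H] ▷ (M ⊗ M')

@[reassoc]
theorem st_nat {S S' M M' N N' : T} (z : S ⟶ H ⊗ M) (z' : S' ⟶ H ⊗ M') (a : M ⟶ N)
    (a' : M' ⟶ N') : st z z' ≫ H ◁ (a ⊗ₘ a') = st (z ≫ H ◁ a) (z' ≫ H ◁ a') := by
  rw [st, st, Category.assoc, Category.assoc, ← whisker_exchange, ← tensorHom_comp_tensorHom,
    Category.assoc, ← id_tensorHom H a, ← id_tensorHom H a', tensorμ_natural_assoc, id_tensorHom_id,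
    id_tensorHom]

theorem st_unit (S S' : T) : st (unitMap H S) (unitMap H S') = unitMap H (S ⊗ S') := by
  rw [st, unitMap, unitMap, unitMap, ← tensorHom_comp_tensorHom, Category.assoc,
    ← tensorHom_id η[H], ← tensorHom_id η[H], tensorμ_natural_assoc, id_tensorHom_id, tensorHom_id,
    ← comp_whiskerRight, MonoidalCategory.tensorHom_def η[H], Category.assoc, MonObj.mul_one,
    rightUnitor_naturality, comp_whiskerRight]
  simp only [tensorμ, braiding_tensorUnit_right, MonoidalCategory.tensorHom_def]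
  monoidal

theorem st_mul {S S' : T} (z : S ⟶ H ⊗ H) (z' : S' ⟶ H ⊗ H) :
    st z z' ≫ H ◁ μ[H] = (z ⊗ₘ z') ≫ μ[H ⊗ H] := by
  rw [st, MonObj.tensorObj.mul_def, MonoidalCategory.tensorHom_def μ[H], Category.assoc,
    Category.assoc]

variable {p : ℕ} (hH : Tr.IsHF p η[H])
include hH

theorem UC.up {n : ℤ} {X : T} (h : UC H n X) : Up H n X :=
  (up_ext _).iso (ρ_ X) ((h 0 _ fun _ k ⟨e⟩ hk g => by
    rw [← cancel_epi e.inv, ← cancel_mono (ρ_ H).hom, comp_zero, zero_comp]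
    exact hH.conc k hk.ne' _).mono (by omega))

theorem coh_zero (h0 : Conn 0 (𝟙_ T)) {W : T} (hW : Conn 1 W) (f : W ⟶ H) : f = 0 :=
  X.eq_zero_of_bigCell hH.conc (big h0 hW) f

theorem unit_ne (hp : p ≠ 1) {S : T} {k : ℤ} (hS : Sph S k) : unitMap H S ≠ 0 := fun h => by
  have := isInv_sph (T := T) k
  have h1 : η[H] ▷ (𝟙_ T)⟦k⟧ = (0 : 𝟙_ T ⟶ H) ▷ (𝟙_ T)⟦k⟧ := by
    rw [MonoidalPreadditive.zero_whiskerRight, ← cancel_epi (λ_ _).inv, comp_zero,
      ← cancel_epi hS.some.hom, comp_zero]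
    exact (unitMap_nat _).trans (by rw [h, zero_comp])
  have h2 := whiskerRight_inj _ h1
  rw [← one_smul ℤ η[H], hH.ord] at h2
  exact hp (Nat.dvd_one.1 (Int.natCast_dvd_natCast.1 h2))

theorem hom_sph {S : T} {k : ℤ} (hS : Sph S k) (g : S ⟶ H ⊗ S) : ∃ m : ℤ, g = m • unitMap H S := by
  have := isInv_sph (T := T) k
  obtain ⟨e⟩ := hS
  obtain ⟨m, hm⟩ := hom_eq hH (e.inv ≫ g ≫ H ◁ e.hom)
  refine ⟨m, ?_⟩
  rw [← cancel_epi e.inv, ← cancel_mono (whiskerLeftIso H e).hom, whiskerLeftIso_hom,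
    Category.assoc, hm, Category.assoc, Preadditive.zsmul_comp, ← unitMap_nat,
    Preadditive.comp_zsmul, Iso.inv_hom_id_assoc]

end Vale.Agent.P236H

end
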