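import Vale.Agent.P236H.OrdB
import Vale.Agent.P236R.Kap
import Vale.Agent.P236Z.Dt.Thom

/-!
# P236, block ORD: the invariant of the cyclic cube is the cube of the invariant

* `F2 H b φ` : `φ` has a lift to the cofibre of the unit which vanishes on homology;
* `exists_U` : the cube of a cohomology class extends over the two-skeleton;
* `cube_zero` : if `F κ` has filtration two, then the cube of the invariant of `f` vanishes.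
-/

open CategoryTheory MonoidalCategory Limits Pretriangulated MonObj

set_option linter.unusedSectionVars false

universe u

noncomputable section

namespace Vale.Agent.P236H

open Vale.Agent.P251 Vale.Agent.P251.T Vale.Agent.P251.M Vale.Agent.P251.S Vale.Agent.P251.H
  Vale.Agent.P236Z Vale.Agent.P236G
open Vale.Agent.P236R (Sph sph_self sph_unit Moo Kap)

variable {T : Type u} [Category.{0} T] [Preadditive T] [HasZeroObject T]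
    [HasShift T ℤ] [∀ n : ℤ, (shiftFunctor T n).Additive] [Pretriangulated T] [IsTriangulated T]
    [MonoidalCategory T] [SymmetricCategory T] [TensorTriangulated T] [MonoidalClosed T]
    [HasCoproducts.{0} T] [HasProducts.{0} T] [StableCat T] {H : T}

/-- The suspension of a homology class. -/
def sus {S M : T} (y : S ⟶ H ⊗ M) : S⟦(1 : ℤ)⟧ ⟶ H ⊗ M⟦(1 : ℤ)⟧ := y⟦(1 : ℤ)⟧' ≫ (csh H 1 M).inv

theorem sus_nat {S M N : T} (y : S ⟶ H ⊗ M) (a : M ⟶ N) :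
    sus y ≫ H ◁ a⟦(1 : ℤ)⟧' = sus (y ≫ H ◁ a) := by
  rw [sus, sus, Functor.map_comp, Category.assoc, Category.assoc, csh_inv_nat]

theorem sus_ne {S M : T} {y : S ⟶ H ⊗ M} (h : y ≠ 0) : sus y ≠ 0 := fun k => h (by
  rw [sus, Preadditive.IsIso.comp_right_eq_zero] at k
  exact (shiftFunctor T (1 : ℤ)).map_injective (k.trans (Functor.map_zero _ _ _).symm))

theorem conn_sph (h0 : Conn 0 (𝟙_ T)) {L : T} {n m : ℤ} (h : Sph L n) (hm : m ≤ n) : Conn m L :=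
  ((h0.shift n n (zero_add n)).of_iso h.some.symm).mono hm

variable (H) in
/-- A lift to the cofibre of the unit which vanishes on homology. -/
def F2 {J A : T} (b : J ⟶ (𝟙_ T)⟦(1 : ℤ)⟧) (φ : A ⟶ 𝟙_ T) : Prop :=
  ∃ c : A⟦(1 : ℤ)⟧ ⟶ J, c ≫ b = φ⟦(1 : ℤ)⟧' ∧ H ◁ c = 0

theorem F2.add {J A : T} {b : J ⟶ (𝟙_ T)⟦(1 : ℤ)⟧} {φ ψ : A ⟶ 𝟙_ T} (h : F2 H b φ)
    (k : F2 H b ψ) : F2 H b (φ + ψ) := by
  obtain ⟨c, h1, h2⟩ := h
  obtain ⟨d, k1, k2⟩ := k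
  exact ⟨c + d, by rw [Preadditive.add_comp, h1, k1, Functor.map_add],
    by rw [MonoidalPreadditive.whiskerLeft_add, h2, k2, add_zero]⟩

theorem F2.pre {J A B : T} {b : J ⟶ (𝟙_ T)⟦(1 : ℤ)⟧} {φ : A ⟶ 𝟙_ T} (h : F2 H b φ) (a : B ⟶ A) :
    F2 H b (a ≫ φ) := by
  obtain ⟨c, h1, h2⟩ := h
  exact ⟨a⟦(1 : ℤ)⟧' ≫ c, by rw [Category.assoc, h1, Functor.map_comp],
    by rw [MonoidalCategory.whiskerLeft_comp, h2, comp_zero]⟩

variable [MonObj H]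

theorem sus_unit (S : T) : sus (unitMap H S) = unitMap H (S⟦(1 : ℤ)⟧) := by
  rw [sus, ← unitMap_csh, Category.assoc, Iso.hom_inv_id, Category.comp_id]

/-- The third power of a class. -/
def cub {M : T} (h : M ⟶ H) : M ⊗ M ⊗ M ⟶ H := (h ⊗ₘ (h ⊗ₘ h) ≫ μ[H]) ≫ μ[H]

theorem cub_nat {M N : T} (a : M ⟶ N) (h : N ⟶ H) : (a ⊗ₘ a ⊗ₘ a) ≫ cub h = cub (a ≫ h) := by
  rw [cub, cub, tensorHom_comp_tensorHom_assoc, tensorHom_comp_tensorHom_assoc]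

theorem cub_one : cub η[H] = (λ_ _).hom ≫ (λ_ _).hom ≫ η[H] := by
  have h : ∀ {M : T} (a : M ⟶ H), (η[H] ⊗ₘ a) ≫ μ[H] = (λ_ M).hom ≫ a := fun a => by
    rw [MonoidalCategory.tensorHom_def', Category.assoc, MonObj.one_mul, leftUnitor_naturality]
  rw [cub, h, h]

theorem st_cub {S M : T} (z : S ⟶ H ⊗ M) (h : M ⟶ H) :
    st z (st z z) ≫ H ◁ cub h = cub (H := H ⊗ H) (z ≫ H ◁ h) := by
  rw [cub, MonoidalCategory.whiskerLeft_comp, st_nat_assoc, MonoidalCategory.whiskerLeft_comp,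
    st_nat_assoc, st_mul, st_mul, cub]

theorem cub_neg {M : T} (h : M ⟶ H) : cub (-h) = -cub h := by
  have h1 : ∀ {A B : T} (a : A ⟶ H) (b : B ⟶ H), ((-a) ⊗ₘ b) = -(a ⊗ₘ b) := fun a b => by
    rw [MonoidalCategory.tensorHom_def, MonoidalCategory.tensorHom_def, ← Preadditive.neg_comp]
    exact congrArg (· ≫ _) ((tensorRight _).map_neg)
  have h2 : ∀ {A B : T} (a : A ⟶ H) (b : B ⟶ H), (a ⊗ₘ (-b)) = -(a ⊗ₘ b) := fun a b => by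
    rw [MonoidalCategory.tensorHom_def, MonoidalCategory.tensorHom_def, ← Preadditive.comp_neg]
    exact congrArg (_ ≫ ·) ((tensorLeft _).map_neg)
  rw [cub, cub, h1, h1, h2, neg_neg, Preadditive.neg_comp]

variable {J : T} {k : H ⟶ J} {b : J ⟶ (𝟙_ T)⟦(1 : ℤ)⟧} (hJ : Dist η[H] k b)

include hJ in
theorem f2_of_af {A : T} {φ : A ⟶ 𝟙_ T} (h : Tr.AF η[H] 2 φ) : F2 H b φ := by
  obtain ⟨_, _, c, rfl, ⟨_, e, a, rfl, -, ha⟩, hc⟩ := h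
  obtain ⟨c₁, h₁⟩ := hJ.lift₁ (c⟦(1 : ℤ)⟧') (by
    rw [← Functor.map_comp, (Tr.null_unit_iff c).1 hc, Functor.map_zero])
  refine ⟨(e ≫ a)⟦(1 : ℤ)⟧' ≫ c₁, by rw [Category.assoc, h₁, ← Functor.map_comp], ?_⟩
  rw [MonoidalCategory.whiskerLeft_comp, Dt.null_shift (Dt.null_of_un (ha.pre e)), zero_comp]

variable (hH : Tr.IsHF 3 η[H]) (h0 : Conn 0 (𝟙_ T))
include hH

theorem exists_top {L X : T} {i : L ⟶ X} {δ : X ⟶ L⟦(1 : ℤ)⟧} (hX : Moo i δ) :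
    ∃ y, y ≫ H ◁ δ = unitMap H (L⟦(1 : ℤ)⟧) :=
  (dist_L (Dist.rot (Dist.rot hX)) H).lift₂ _ (by
    rw [← unitMap_nat, Functor.map_zsmul, Preadditive.neg_comp, Preadditive.zsmul_comp]
    exact neg_eq_zero.2 (p_smul hH _))

include h0

variable {X C : T} {f : X ⟶ 𝟙_ T} {e : 𝟙_ T ⟶ C} {p : C ⟶ X⟦(1 : ℤ)⟧} (hC : Dist f e p)
  (K : Cyc3 f e p)
include hC

theorem exists_U (hX : Conn 0 X) {h : C ⟶ H} (hh : e ≫ h = η[H]) : ∃ U : K.PC.D2 ⟶ H,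
    K.PC.i1 ≫ K.PC.i2 ≫ U = cub h ∧ K.me.m2 ≫ U = K.r ≫ (λ_ _).hom ≫ (λ_ _).hom ≫ η[H] := by
  have c1 : Conn 1 (X⟦(1 : ℤ)⟧) := hX.shift 1 1 rfl
  have c2 : Conn 0 C := Conn.ext _ hC.rot h0 (c1.mono (by norm_num))
  have c3 : ∀ {M : T}, Conn 0 M → Conn 1 ((M ⊗ M ⊗ M)⟦(1 : ℤ)⟧) := fun h =>
    (conn_ten h0 h (conn_ten h0 h h le_rfl) le_rfl).shift 1 1 rfl
  have h1 : (e ⊗ₘ e ⊗ₘ e) ≫ cub h = K.PY.i1 ≫ K.PY.i2 ≫ K.r ≫ (λ_ _).hom ≫ (λ_ _).hom ≫ η[H] := by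
    rw [cub_nat, hh, cub_one, reassoc_of% K.ret]
  obtain ⟨W, g, d, E, hW⟩ := cof_cube_conn h0 ⟨_, _, _, hC.rot, c1⟩ h0 c2
  obtain ⟨d₁, hd⟩ := (shiftFunctor T (1 : ℤ)).map_surjective K.PC.d1
  obtain ⟨v, hv⟩ := E.desc₂ (d₁ ≫ cub h) (by
    apply (shiftFunctor T (1 : ℤ)).map_injective
    rw [Functor.map_comp, Functor.map_comp, hd, reassoc_of% K.me.d1, ← Functor.map_comp, h1,
      Functor.map_comp, reassoc_of% Dist.zero₃₁ K.PY.tr1, zero_comp, Functor.map_zero])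
  obtain ⟨U₁', h2⟩ := Dist.desc₁ K.PC.tr1 ((cub h)⟦(1 : ℤ)⟧') (by
    rw [← hd, ← Functor.map_comp, ← hv, coh_zero hH h0 hW v, comp_zero, Functor.map_zero])
  obtain ⟨U₁, rfl⟩ := (shiftFunctor T (1 : ℤ)).map_surjective U₁'
  rw [← Functor.map_comp] at h2
  obtain ⟨U, h3⟩ := Dist.desc₂ K.PC.tr2 U₁ (coh_zero hH h0 (c3 c2) _)
  have h4 : K.PC.i1 ≫ K.PC.i2 ≫ U = cub h := by
    rw [h3]
    exact (shiftFunctor T (1 : ℤ)).map_injective h2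
  refine ⟨U, h4, ?_⟩
  rw [← sub_eq_zero]
  obtain ⟨s, hs⟩ := Dist.desc₂ K.PY.tr1
    (K.PY.i2 ≫ (K.me.m2 ≫ U - K.r ≫ (λ_ _).hom ≫ (λ_ _).hom ≫ η[H])) (by
      rw [Preadditive.comp_sub, Preadditive.comp_sub, reassoc_of% K.me.i2, h3, reassoc_of% K.me.i1,
        ← h3, h4, h1, sub_self])
  obtain ⟨s', hs'⟩ := Dist.desc₃ K.PY.tr2 _ (by rw [← hs, coh_zero hH h0 (c3 h0) s, comp_zero])
  rw [← hs', coh_zero hH h0 (((c3 h0).shift 1 2 rfl).mono (by norm_num)) s', comp_zero]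

include hJ in
/-- The cube of the invariant of `f` is the invariant of the cyclic cube. -/
theorem cube_zero {L : T} {i : L ⟶ X} {δ : X ⟶ L⟦(1 : ℤ)⟧} (hX : Moo i δ) {n : ℤ} (hL : Sph L n)
    (hn : 1 ≤ n) {S : T} (σ : L⟦(1 : ℤ)⟧⟦(1 : ℤ)⟧ ≅ S) {t : S ⟶ H ⊗ H} {c : X⟦(1 : ℤ)⟧ ⟶ J}
    (hc : c ≫ b = f⟦(1 : ℤ)⟧') (ht : c ≫ unitMap H J = (δ⟦(1 : ℤ)⟧' ≫ σ.hom) ≫ t ≫ H ◁ k)
    {Z : T} (hZ : Conn 0 Z) (κ : Z ⟶ K.PX.D2) {S' : T} (hS' : Sph S' (3 * n + 5))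
    (ζ : S' ⟶ H ⊗ Z) (hζ : ζ ≫ H ◁ (κ ≫ K.PX.j2) ≠ 0)
    (hF : F2 H b (κ ≫ K.mf.m2 ≫ K.r ≫ (λ_ _).hom ≫ (λ_ _).hom)) : cub (H := H ⊗ H) t = 0 := by
  have s1 := hL.shift 1 rfl
  have sS : Sph S (n + 2) := (s1.shift 1 (by ring)).iso σ.symm
  have s3 : Sph (S ⊗ S ⊗ S) (3 * n + 6) := sS.tensor (sS.tensor sS rfl) (by ring)
  have cX : Conn 0 X := Conn.ext _ (Dist.rot hX) (conn_sph h0 hL (by omega))
    (conn_sph h0 s1 (by omega))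
  have u0 : UC H 0 (𝟙_ T) := uc_sph sph_unit le_rfl
  have uX : UC H (n + 2) (X⟦(1 : ℤ)⟧) := ((uc_ext (n + 1)).ext (Dist.rot hX)
    (uc_sph hL (by omega)) (uc_sph s1 le_rfl)).shift 1 (by omega)
  have uC : UC H (n + 2) C := (uc_ext _).ext hC.rot (u0.mono (by omega)) uX
  have hk : ∀ {A : T} {m : ℤ}, Sph A m → 0 < m → ∀ x : A ⟶ H ⊗ H, x ≫ H ◁ k = 0 → x = 0 :=
    fun hA hm x hx => by
      obtain ⟨y, rfl⟩ := (dist_L hJ H).lift₂ x hx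
      rw [u0.up hH _ _ hA hm y, zero_comp]
  have lift : ∀ {A : T} (_ : Conn 0 A) {x y : A⟦(1 : ℤ)⟧ ⟶ J}, x ≫ b = -(y ≫ b) → x = -y :=
    fun hA x y hx => by
      obtain ⟨v, hv⟩ := hJ.lift₃ (x + y) (by rw [Preadditive.add_comp, hx, neg_add_cancel])
      rw [← add_eq_zero_iff_eq_neg, ← hv, coh_zero hH h0 (hA.shift 1 1 rfl) v, zero_comp]
  obtain ⟨h, hh⟩ := hC.desc₂ η[H] (by
    apply (shiftFunctor T (1 : ℤ)).map_injective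
    rw [Functor.map_comp, ← hc, Category.assoc, hJ.zero₃₁, comp_zero, Functor.map_zero])
  obtain ⟨U, hU, hU'⟩ := exists_U hH h0 hC K cX hh
  obtain ⟨y₀, hy₀⟩ := exists_top hH hX
  obtain ⟨y, hy⟩ : ∃ y : S ⟶ H ⊗ X⟦(1 : ℤ)⟧, y ≫ H ◁ (δ⟦(1 : ℤ)⟧' ≫ σ.hom) = unitMap H S :=
    ⟨σ.inv ≫ sus y₀, by
      rw [MonoidalCategory.whiskerLeft_comp, Category.assoc, reassoc_of% sus_nat, hy₀, sus_unit,
        ← unitMap_nat, Iso.inv_hom_id_assoc]⟩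
  obtain ⟨z, hz⟩ := (dist_L hC.rot.rot H).lift₂ y
    ((u0.shift 1 le_rfl).up hH _ _ sS (by omega) _)
  obtain ⟨f', e1, e2⟩ := hC.rot.map₃ hJ (𝟙 _) h (by rw [hh, Category.id_comp])
  rw [CategoryTheory.Functor.map_id, Category.comp_id, ← hc] at e2
  have e3 : z ≫ H ◁ h = -t := by
    rw [← add_eq_zero_iff_eq_neg]
    refine hk sS (by omega) _ ?_
    rw [Preadditive.add_comp, Category.assoc, ← MonoidalCategory.whiskerLeft_comp, ← e1,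
      lift cX e2.symm, MonoidalCategory.whiskerLeft_comp, reassoc_of% hz,
      show H ◁ (-c) = -(H ◁ c) from (tensorLeft H).map_neg, Preadditive.comp_neg,
      neg_add_eq_zero, ← Category.comp_id (H ◁ c), ← whiskerLeft_unitMap_mulMap,
      ← MonoidalCategory.whiskerLeft_comp_assoc, ht, MonoidalCategory.whiskerLeft_comp,
      Category.assoc, reassoc_of% hy, ← unitMap_nat_assoc, unitMap_mulMap, Category.comp_id]
  obtain ⟨c₁, k1, k2⟩ := hF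
  obtain ⟨F', g1, g2⟩ := (Dist.rot K.tr).map₃ hJ (K.r ≫ (λ_ _).hom ≫ (λ_ _).hom) (K.Φ ≫ U) (by
    rw [reassoc_of% K.eΦ, hU', Category.assoc, Category.assoc])
  have g3 : κ⟦(1 : ℤ)⟧' ≫ F' = -c₁ := lift hZ (by
    rw [Category.assoc, ← g2, k1, Preadditive.neg_comp, Preadditive.comp_neg, ← Functor.map_comp,
      ← Functor.map_comp])
  have u3 : UC H 0 (𝟙_ T ⊗ 𝟙_ T ⊗ 𝟙_ T) := u0.tensor (u0.tensor u0 le_rfl) le_rfl
  have u4 : UC H 2 K.PY.D2 := (uc_ext _).ext (Dist.rot K.PY.tr2) ((uc_ext _).ext K.PY.tr1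
    (u3.mono (by norm_num)) (u3.shift 1 (by norm_num))) ((u3.shift 1 le_rfl).shift 1 le_rfl)
  obtain ⟨τ⟩ := s3.nonempty_iso (hS'.shift 1 (by ring))
  obtain ⟨ω, hω⟩ := (dist_L (Dist.rot (Dist.rot K.tr)) H).lift₂ (τ.hom ≫ sus (ζ ≫ H ◁ κ))
    ((u4.shift 1 le_rfl).up hH _ _ s3 (by omega) _)
  have g4 : ω ≫ H ◁ K.Φ ≫ H ◁ U = 0 := hk s3 (by omega) _ (by
    rw [← MonoidalCategory.whiskerLeft_comp, Category.assoc, ← MonoidalCategory.whiskerLeft_comp,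
      ← g1, MonoidalCategory.whiskerLeft_comp, reassoc_of% hω, ← sus_nat, Category.assoc,
      ← MonoidalCategory.whiskerLeft_comp, g3,
      show H ◁ (-c₁) = -(H ◁ c₁) from (tensorLeft H).map_neg, k2, neg_zero, comp_zero, comp_zero])
  let v := τ.hom ≫ sus (ζ ≫ H ◁ (κ ≫ K.PX.j2)) ≫ H ◁ K.θ.hom
  have hπ : CofIn (UC H (n + 2)) (δ⟦(1 : ℤ)⟧' ≫ σ.hom) := (CofIn.shift_one (P := UC H (n + 1))
    (fun _ h => h.shift 1 (by omega)) (uc_ext (n + 2))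
    ⟨_, _, _, Dist.rot (Dist.rot hX), uc_sph s1 le_rfl⟩).comp_iso (uc_ext _) σ
  obtain ⟨m, hm⟩ := hom_sph hH s3 (v ≫ H ◁ ((δ⟦(1 : ℤ)⟧' ≫ σ.hom) ⊗ₘ (δ⟦(1 : ℤ)⟧' ≫ σ.hom) ⊗ₘ
    (δ⟦(1 : ℤ)⟧' ≫ σ.hom)))
  have g5 : v = m • st y (st y y) := by
    rw [← sub_eq_zero]
    refine inj_of ((cof_cube_uc hπ uX (uc_sph sS le_rfl)).mono fun _ h => h.up hH) s3 (by omega) _ ?_
    rw [Preadditive.sub_comp, hm, Preadditive.zsmul_comp, st_nat, st_nat, hy, st_unit, st_unit,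
      sub_self]
  have g6 : ω ≫ H ◁ K.Φ = m • st z (st z z) ≫ H ◁ (K.PC.i1 ≫ K.PC.i2) := by
    rw [← sub_eq_zero]
    refine inj_D2 K.mp ((cof_cube_uc ⟨_, _, _, hC.rot.rot, u0.shift 1 le_rfl⟩ uC uX).mono
      fun _ h => h.up hH) s3 (by omega) _ ?_
    rw [Preadditive.sub_comp, Preadditive.zsmul_comp, Category.assoc, Category.assoc,
      ← MonoidalCategory.whiskerLeft_comp, ← MonoidalCategory.whiskerLeft_comp, K.Φp,
      Category.assoc, K.mp.i2, reassoc_of% K.mp.i1, MonoidalCategory.whiskerLeft_comp H (_ ⊗ₘ _),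
      st_nat_assoc, st_nat, hz, ← Preadditive.zsmul_comp, ← g5, MonoidalCategory.whiskerLeft_comp,
      reassoc_of% hω, MonoidalCategory.whiskerLeft_comp, reassoc_of% sus_nat,
      MonoidalCategory.whiskerLeft_comp H K.θ.hom, sub_eq_zero]
    simp only [v, Category.assoc, MonoidalCategory.whiskerLeft_comp]
  rw [reassoc_of% g6, Preadditive.zsmul_comp, Category.assoc, ← MonoidalCategory.whiskerLeft_comp,
    Category.assoc, hU, st_cub, e3, cub_neg, smul_neg, neg_eq_zero] at g4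
  have g7 : ¬ (3 : ℤ) ∣ m := by
    rintro ⟨m, rfl⟩
    rw [mul_comm, mul_smul, show (3 : ℤ) • st y (st y y) = 0 from p_smul hH _, smul_zero] at g5
    simp only [v, Preadditive.IsIso.comp_left_eq_zero, Preadditive.IsIso.comp_right_eq_zero] at g5
    exact sus_ne hζ g5
  obtain ⟨a, a', ha⟩ : IsCoprime (3 : ℤ) m := (Int.prime_three.coprime_iff_not_dvd).2 g7
  rw [← one_smul ℤ (cub t), ← ha, add_smul, mul_smul, mul_smul, g4,
    show (3 : ℤ) • cub (H := H ⊗ H) t = 0 from p_smul hH _, smul_zero, smul_zero, add_zero]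

omit hC in
/-- The class over the top cell. -/
theorem exists_zeta {L : T} {i : L ⟶ X} {δ : X ⟶ L⟦(1 : ℤ)⟧} (hX : Moo i δ) {n : ℤ} (hL : Sph L n)
    {P : Orb (X ⊗ X ⊗ X) (Cat.rot X X X)} (κ : Kap P i δ) : ∃ (S' : T) (ζ : S' ⟶ H ⊗ κ.Z),
      Sph S' (3 * n + 5) ∧ ζ ≫ H ◁ (κ.κ ≫ P.j2) ≠ 0 := by
  have s1 := hL.shift 1 rfl
  have s3 := s1.tensor (s1.tensor s1 rfl) rfl
  have s5 : Sph _ (3 * n + 5) := (s3.shift 1 rfl).shift 1 (by ring)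
  have uX : UC H (n + 1) X := (uc_ext _).ext (Dist.rot hX) (uc_sph hL (by omega)) (uc_sph s1 le_rfl)
  obtain ⟨y, hy⟩ := exists_top hH hX
  obtain ⟨ζ, hζ⟩ := (dist_L (Dist.rot (Dist.rot κ.tr)) H).lift₂
    (sus (sus (st (unitMap H _) (st (unitMap H _) y)))) ((((uc_sph hL le_rfl).tensor
      ((uc_sph hL le_rfl).tensor uX le_rfl) le_rfl).shift 1 le_rfl).up hH _ _ s5 (by omega) _)
  refine ⟨_, ζ, s5, ?_⟩
  rw [κ.κj, MonoidalCategory.whiskerLeft_comp, reassoc_of% hζ, sus_nat, sus_nat]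
  refine sus_ne (sus_ne fun h => unit_ne hH (by norm_num) s3 ?_)
  have h1 := congrArg (· ≫ H ◁ (δ ⊗ₘ δ ⊗ₘ δ)) h
  simp only [Category.assoc, zero_comp] at h1
  rwa [← MonoidalCategory.whiskerLeft_comp, κ.top, ← id_tensorHom _ δ, ← id_tensorHom _ (_ ⊗ₘ δ),
    st_nat, st_nat, hy, MonoidalCategory.whiskerLeft_id, Category.comp_id, st_unit, st_unit] at h1

end Vale.Agent.P236H

end
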