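import Vale.Agent.P236H.OrdA
import Vale.Agent.P236H.OrdC
import Vale.Agent.P236H.OrdDef

/-!
# P236, block ORD: detection of the class given by the cyclic cube

`det` : the difference class `g` of the cyclic cube construction on a map which is detected in
filtration one is again detected in filtration one.
-/

open CategoryTheory MonoidalCategory Limits Pretriangulated MonObj

set_option linter.unusedSectionVars false

universe u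

noncomputable section

namespace Vale.Agent.P236H

open Vale.Agent.P251 Vale.Agent.P251.T Vale.Agent.P251.M Vale.Agent.P251.S Vale.Agent.P251.F
  Vale.Agent.P251.H Vale.Agent.P251.X Vale.Agent.P251.Z
  Vale.Agent.P251.M.EvenSpheres Vale.Agent.P236Z Vale.Agent.P257.H93 Vale.Agent.P236G
open Vale.Agent.P251.I hiding addLaw
open Vale.Agent.P257.H314 hiding IC
open Vale.Agent.P236R (Sph Moo Kap)

variable {T : Type u} [Category.{0} T] [Preadditive T] [HasZeroObject T]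
    [HasShift T ℤ] [∀ n : ℤ, (shiftFunctor T n).Additive] [Pretriangulated T] [IsTriangulated T]
    [MonoidalCategory T] [SymmetricCategory T] [TensorTriangulated T] [MonoidalClosed T]
    [HasCoproducts.{0} T] [HasProducts.{0} T] [StableCat T] {D : MUData T} {U : UnitCof D.R}

theorem Rep.push {H : T} [MonObj H] [IsCommMonObj H] (u : D.R ⟶ H) [IsMonHom u] {J : T} {k : H ⟶ J}
    {b : J ⟶ (𝟙_ T)⟦(1 : ℤ)⟧} (hJ : Dist η[H] k b) {w : ℤ} {x : Cob.wt Laz 1 w} {X : T}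
    {φ : X ⟶ 𝟙_ T} {π : X⟦(1 : ℤ)⟧ ⟶ (stdEven T).S w} (h : Rep D U x φ π) :
    ∃ c : X⟦(1 : ℤ)⟧ ⟶ J, c ≫ b = φ⟦(1 : ℤ)⟧' ∧
      c ≫ unitMap H J = π ≫ (D.evw 1 w x ≫ ψ₂ u) ≫ H ◁ k := by
  obtain ⟨c, h1, h2⟩ := h
  obtain ⟨a, h3, h4⟩ := (Tw.ofCof U).d₀.map₃ hJ (𝟙 _) ((ρ_ D.R).hom ≫ u) (by
    rw [← Category.assoc, Category.id_comp, ← IsMonHom.one_hom u]
    exact congrArg (· ≫ u) Tr.hur_unit)
  rw [CategoryTheory.Functor.map_id, Category.comp_id] at h4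
  have h5 : Dt.qq D U 1 ≫ (u ⊗ₘ a) = ψ₂ u ≫ H ◁ k := by
    have h6 : Dt.qq D U 1 = ((ρ_ _).inv ≫ (α_ _ _ _).hom ≫ (α_ _ _ _).hom ≫ (λ_ _).hom) ≫
        D.R ◁ (Tw.ofCof U).k₀ := by
      rw [Dt.qq, CobarData.q_succ, CobarData.q_zero, Category.comp_id]
      rfl
    rw [h6, Category.assoc, ← id_tensorHom, tensorHom_comp_tensorHom, h3]
    change _ = ((((λ_ D.R).hom ≫ u) ⊗ₘ u)) ≫ H ◁ k
    simp only [MonoidalCategory.tensorHom_def, Category.id_comp]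
    monoidal
  refine ⟨c ≫ a, by rw [Category.assoc, ← h4]; exact h1, ?_⟩
  rw [Category.assoc, ← unitMap_tensorHom u, reassoc_of% h2, h5, Category.assoc]

variable {F : SpaceFunctor T} {e : F.S.obj CCF ≅ (stdEven T).L} (hU : MUUniv e D)
include hU

theorem cub_ne {H : T} [MonObj H] [IsCommMonObj H] (hH : Tr.IsHF 3 η[H]) (u : D.R ⟶ H)
    [IsMonHom u] {w : ℤ} (hw : w ≠ 0) (x : Cob.wt Laz 1 w) (hd : Cob.d 1 x.1 ∈ IC 3 1 2)
    (h : cub (H := H ⊗ H) (D.evw 1 w x ≫ ψ₂ u) = 0) : fP 3 1 x.1 = 0 := by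
  have h1 : Cob.IsWt (w + (w + w)) (x.1 ^ 3) := by
    rw [pow_three]
    exact x.2.mul (x.2.mul x.2)
  refine pow_eq_zero_iff (n := 3) (by norm_num) |>.1 ?_
  rw [← map_pow]
  refine inj1 hH u hU (by norm_num) (by omega) ⟨_, h1⟩ (d_cube one_ne_zero hd)
    (MUData.of_injective ?_)
  have h2 := of_ext_mul (rfl : w + (w + w) = _) (𝟙 _) ((stdEven T).ext rfl (𝟙 _) (𝟙 _))
    (D.evw 1 w x ≫ ψ₂ u) (((D.evw 1 w x ≫ ψ₂ u) ⊗ₘ (D.evw 1 w x ≫ ψ₂ u)) ≫ μ[H ⊗ H])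
  rw [← cub, h, comp_zero, of_ext_mul, Category.id_comp, ← val_evw, ← pow_three, ← map_pow] at h2
  rw [← val_evw, h2]

/-- **Detection.** -/
theorem det {L X C : T} {i : L ⟶ X} {δ : X ⟶ L⟦(1 : ℤ)⟧} (hX : Moo i δ) {n : ℤ} (hL : Sph L n)
    (hn : 1 ≤ n) {f : X ⟶ 𝟙_ T} {ε : 𝟙_ T ⟶ C} {p : C ⟶ X⟦(1 : ℤ)⟧} (hC : Dist f ε p)
    (K : Cyc3 f ε p) (κ : Kap K.PX i δ) {G : κ.Z ⟶ 𝟙_ T} (hG : Tr.AF η[D.R] 2 G)
    {g : ((L⟦(1 : ℤ)⟧) ⊗ (L⟦(1 : ℤ)⟧) ⊗ X)⟦(1 : ℤ)⟧⟦(1 : ℤ)⟧ ⟶ 𝟙_ T}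
    (hg : Kap.F K κ ≫ (λ_ _).hom ≫ (λ_ _).hom = G + κ.q ≫ g) {w w' : ℤ} (hw : w ≠ 0)
    {x : Cob.wt Laz 1 w} (hd : Cob.d 1 x.1 ∈ IC 3 1 2) (hx : fP 3 1 x.1 ≠ 0)
    (σ : L⟦(1 : ℤ)⟧⟦(1 : ℤ)⟧ ≅ (stdEven T).S w) (hf : Rep D U x f (δ⟦(1 : ℤ)⟧' ≫ σ.hom))
    {y : Cob.wt Laz 1 w'} {π} (hy : Rep D U y g π) : fP 3 1 y.1 ≠ 0 := by
  intro h0
  have := locallySmall_self.{0} T
  obtain ⟨H, _, _, hH⟩ := Dt.exists_HFmon F (p := 3) (by norm_num)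
  obtain ⟨u, hu⟩ := Dt.exists_thom D hH.conc
  obtain ⟨J, k, b, hJ⟩ := exists_cone η[H]
  obtain ⟨c, h1, h2⟩ := hf.push u hJ
  obtain ⟨c', h3, h4⟩ := hy.push u hJ
  have h5 := val₂_of_fP u hH h0
  rw [val_evw, ← of_zero _ w'] at h5
  rw [MUData.of_injective h5, zero_comp, comp_zero] at h4
  have h6 := af_mono u hG
  rw [IsMonHom.one_hom] at h6
  have h7 := (f2_of_af hJ h6).add (F2.pre ⟨c', h3, Dt.null_of_un h4⟩ κ.q)
  rw [← hg, Kap.F, Category.assoc, Category.assoc] at h7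
  obtain ⟨S', ζ, s, hζ⟩ := exists_zeta hH D.conn_unit hX hL κ
  have c0 := conn_sph D.conn_unit hL (m := 0) (by omega)
  have c1 := conn_sph D.conn_unit (hL.shift 1 rfl) (m := 0) (by omega)
  have cX : Conn 0 X := Conn.ext _ (Dist.rot hX) c0 c1
  have cT : ∀ {A : T}, Conn 0 A → Conn 0 (A ⊗ A ⊗ X) := fun h =>
    conn_ten D.conn_unit h (conn_ten D.conn_unit h cX le_rfl) le_rfl
  exact hx (cub_ne hU hH u hw x hd (cube_zero hJ hH D.conn_unit hC K hX hL hn σ h1 h2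
    (Conn.ext _ (Dist.rot κ.tr) (cT c0) ((((cT c1).shift 1 1 rfl).shift 1 2 rfl).mono (by norm_num)))
    κ.κ s ζ hζ h7))

end Vale.Agent.P236H

end
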