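import Vale.Agent.P236H.Inj
import Vale.Agent.P236H.Alg

/-!
# P236, block DETH: two stages of Adams towers

* `Tw K` : the first two stages of an Adams tower for `K`, in cofibre form; `Tw.push`, `Tw.lift3`;
* `not_af` : a class whose cocycle reduces to `± b_j` does not have filtration three.
-/

open CategoryTheory MonoidalCategory Limits Pretriangulated MonObj

set_option linter.unusedSectionVars false

universe u

noncomputable section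

namespace Vale.Agent.P236H

open Vale.Agent.P251 Vale.Agent.P251.T Vale.Agent.P251.M Vale.Agent.P251.S Vale.Agent.P251.F
  Vale.Agent.P251.H Vale.Agent.P251.X Vale.Agent.P251.Z
  Vale.Agent.P251.M.EvenSpheres Vale.Agent.P236Z Vale.Agent.P257.H93
open Vale.Agent.P251.I hiding addLaw

variable {T : Type u} [Category.{0} T] [Preadditive T] [HasZeroObject T]
    [HasShift T ℤ] [∀ n : ℤ, (shiftFunctor T n).Additive] [Pretriangulated T] [IsTriangulated T]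
    [MonoidalCategory T] [SymmetricCategory T] [TensorTriangulated T] [MonoidalClosed T]
    [HasCoproducts.{0} T] [HasProducts.{0} T] [StableCat T]

/-- The first two stages of an Adams tower, in cofibre form. -/
structure Tw (K : T) [MonObj K] where
  /-- the first stage -/
  C₁ : T
  /-- the second stage -/
  C₂ : T
  /-- the first projection -/
  k₀ : K ⊗ 𝟙_ T ⟶ C₁
  /-- the first boundary -/
  b₀ : C₁ ⟶ (𝟙_ T)⟦(1 : ℤ)⟧
  /-- the second projection -/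
  k₁ : K ⊗ C₁ ⟶ C₂
  /-- the second boundary -/
  b₁ : C₂ ⟶ C₁⟦(1 : ℤ)⟧
  d₀ : Dist (unitMap K (𝟙_ T)) k₀ b₀
  d₁ : Dist (unitMap K C₁) k₁ b₁

theorem zsmul_ten {K : T} [MonObj K] {n : ℤ} (hn : n • η[K] = 0) {A Y : T} (g : A ⟶ K ⊗ Y) :
    n • g = 0 := by
  have h : (n • η[K]) ▷ (K ⊗ Y) = n • (η[K] ▷ (K ⊗ Y)) := (tensorRight _).map_zsmul ..
  rw [← Category.comp_id g, ← Preadditive.comp_zsmul, ← unitMap_mulMap, ← Preadditive.zsmul_comp,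
    unitMap, ← Preadditive.comp_zsmul, ← h, hn, MonoidalPreadditive.zero_whiskerRight, comp_zero,
    zero_comp, comp_zero]

theorem unitMap_tensorHom {R K : T} [MonObj R] [MonObj K] (u : R ⟶ K) [IsMonHom u] {X Y : T}
    (a : X ⟶ Y) : unitMap R X ≫ (u ⊗ₘ a) = a ≫ unitMap K Y := by
  rw [MonoidalCategory.tensorHom_def', ← unitMap_nat_assoc, unitMap, unitMap, Category.assoc,
    ← comp_whiskerRight, IsMonHom.one_hom]

theorem odd_shift {K : T} (h : Odd0 K) {w : ℤ} (f : (stdEven T).S w ⟶ K⟦(1 : ℤ)⟧) : f = 0 := by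
  let c : (𝟙_ T)⟦2 * w⟧ ≅ ((𝟙_ T)⟦2 * (w - 1) + 1⟧)⟦(1 : ℤ)⟧ :=
    (shiftFunctorAdd' T (2 * (w - 1) + 1) 1 (2 * w) (by omega)).app (𝟙_ T)
  obtain ⟨y, hy⟩ := (shiftFunctor T (1 : ℤ)).map_surjective (c.inv ≫ (sI w).inv ≫ f)
  rw [← cancel_epi (sI w).inv, ← cancel_epi c.inv, ← hy, h _ y, Functor.map_zero, comp_zero,
    comp_zero]

namespace Tw

variable {R K : T} [MonObj R] [MonObj K]

/-- the composite of the boundaries -/
def bb (W : Tw K) : W.C₂ ⟶ ((𝟙_ T)⟦(1 : ℤ)⟧)⟦(1 : ℤ)⟧ := W.b₁ ≫ W.b₀⟦(1 : ℤ)⟧'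

/-- the composite of the projections -/
def pr (W : Tw K) : K ⊗ K ⊗ 𝟙_ T ⟶ W.C₂ := K ◁ W.k₀ ≫ W.k₁

/-- the tower of a cofibre of the unit -/
abbrev ofCof (U : UnitCof K) : Tw K :=
  ⟨_, _, _, _, _, _, U.towerTriangle_distinguished 0 (𝟙_ T), U.towerTriangle_distinguished 1 (𝟙_ T)⟩

theorem push (W : Tw R) (W' : Tw K) (u : R ⟶ K) [IsMonHom u] {A : T} (t : A ⟶ W.C₂)
    (c : A ⟶ R ⊗ R ⊗ R ⊗ 𝟙_ T) (a : A ⟶ R ⊗ W.C₂) {n : ℤ} (hn : n • η[K] = 0)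
    (ht : t ≫ unitMap R _ = c ≫ R ◁ W.pr + n • a) : ∃ t' : A ⟶ W'.C₂, t' ≫ W'.bb = t ≫ W.bb ∧
      t' ≫ unitMap K _ = c ≫ (u ⊗ₘ u ⊗ₘ u ▷ 𝟙_ T) ≫ K ◁ W'.pr := by
  obtain ⟨a₁, h₁, h₁'⟩ := W.d₀.map₃ W'.d₀ (𝟙 _) (u ⊗ₘ 𝟙 _) (unitMap_tensorHom u _)
  obtain ⟨a₂, h₂, h₂'⟩ := W.d₁.map₃ W'.d₁ a₁ (u ⊗ₘ a₁) (unitMap_tensorHom u _)
  rw [CategoryTheory.Functor.map_id, Category.comp_id] at h₁'
  refine ⟨t ≫ a₂, ?_, ?_⟩
  · rw [bb, bb, Category.assoc, ← reassoc_of% h₂', ← Functor.map_comp, ← h₁']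
  · rw [Category.assoc, ← unitMap_tensorHom u, reassoc_of% ht, Preadditive.add_comp,
      Preadditive.zsmul_comp, zsmul_ten hn, add_zero, Category.assoc, ← id_tensorHom,
      ← id_tensorHom K, tensorHom_comp_tensorHom, tensorHom_comp_tensorHom, pr, pr, Category.assoc,
      h₂, ← id_tensorHom, ← id_tensorHom K, tensorHom_comp_tensorHom_assoc,
      tensorHom_comp_tensorHom_assoc, h₁, tensorHom_id]
    simp only [Category.id_comp, Category.comp_id]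

theorem lift3 (W : Tw K) {A : T} {θ : A ⟶ 𝟙_ T} (h : Tr.AF η[K] 3 θ) :
    ∃ t : (A⟦(1 : ℤ)⟧)⟦(1 : ℤ)⟧ ⟶ W.C₂, t ≫ W.bb = (θ⟦(1 : ℤ)⟧')⟦(1 : ℤ)⟧' ∧
      t ≫ unitMap K _ = 0 := by
  obtain ⟨_, _, c, rfl, ⟨_, _, b, rfl, ⟨_, e, a, rfl, -, ha⟩, hb⟩, hc⟩ := h
  obtain ⟨c₁, h₁⟩ := W.d₀.lift₁ (c⟦(1 : ℤ)⟧') (by
    rw [← Functor.map_comp]
    exact (congrArg _ hc).trans (Functor.map_zero _ _ _))
  obtain ⟨c₂, h₂⟩ := W.d₁.lift₁ ((b⟦(1 : ℤ)⟧' ≫ c₁)⟦(1 : ℤ)⟧') (by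
    rw [← Functor.map_comp, unitMap_nat, MonoidalCategory.whiskerLeft_comp,
      Dt.null_shift (Dt.null_of_un hb), zero_comp, comp_zero, Functor.map_zero])
  refine ⟨((e ≫ a)⟦(1 : ℤ)⟧')⟦(1 : ℤ)⟧' ≫ c₂, ?_, ?_⟩
  · rw [bb, Category.assoc, reassoc_of% h₂, ← Functor.map_comp, Category.assoc, h₁]
    simp only [Functor.map_comp, Category.assoc]
  · rw [unitMap_nat, MonoidalCategory.whiskerLeft_comp,
      Dt.null_shift (Dt.null_shift (Dt.null_of_un (ha.pre e)) 1), zero_comp, comp_zero]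

theorem eq_of (W : Tw K) (ho : Odd0 K) {w : ℤ} (t : (stdEven T).S w ⟶ W.C₂) (ht : t ≫ W.bb = 0) :
    ∃ y, y ≫ W.k₁ = t := by
  obtain ⟨z, hz⟩ := W.d₀.rot.rot.rot.rot.lift₂ (t ≫ W.b₁) (by
    rw [Preadditive.comp_neg, Category.assoc, ← bb, ht, neg_zero])
  refine W.d₁.lift₃ t ?_
  rw [← hz, odd_shift (fun l f => by
    rw [← cancel_mono (ρ_ K).hom, zero_comp]
    exact ho l _) z, zero_comp]

end Tw

/-- `Am R 3 ⟶ R ⊗ R ⊗ R ⊗ 𝟙` -/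
def unA (R : T) : Am R 3 ⟶ R ⊗ R ⊗ R ⊗ 𝟙_ T :=
  (ρ_ _).inv ≫ (α_ _ _ _).hom ≫ (α_ _ _ _).hom ≫ (α_ _ _ _).hom ≫ (λ_ _).hom

theorem upA_unA {R K : T} (u : R ⟶ K) :
    unA R ≫ (u ⊗ₘ u ⊗ₘ u ▷ 𝟙_ T) = upA u 3 ≫ unA K := by
  simp only [unA, upA, MonoidalCategory.tensorHom_def]
  monoidal

section cob

variable {K : T} [MonObj K] [IsCommMonObj K] (U : UnitCof K)

/-- `Q n 𝟙 ≅ K ^ n` -/
def qA (n : ℕ) : U.cobar.Q n (𝟙_ T) ≅ Am K n := U.θ n (𝟙_ T) ≪≫ ρ_ (Am K n)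

theorem qA_three : (qA U 3).inv = unA K := rfl

@[reassoc]
theorem d_qA (n : ℕ) : U.cobar.d n (𝟙_ T) ≫ (qA U (n + 1)).hom = (qA U n).hom ≫ ddA K n := by
  have h := U.d_θ n (𝟙_ T)
  rw [qA, qA, Iso.trans_hom, Iso.trans_hom, reassoc_of% h, Category.assoc, ddA]
  congr 1
  rw [Preadditive.sum_comp, Preadditive.comp_sum]
  refine Finset.sum_congr rfl fun i _ => ?_
  rw [Preadditive.zsmul_comp, Preadditive.comp_zsmul, rightUnitor_naturality]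

theorem cobdy_A {A : T} (c : A ⟶ Am K 3) (hc : c ≫ ddA K 3 = 0) (y : A ⟶ K ⊗ (Tw.ofCof U).C₁)
    (h : c ≫ unA K ≫ K ◁ (Tw.ofCof U).pr = y ≫ (Tw.ofCof U).k₁ ≫ unitMap K _) :
    ∃ c' : A ⟶ Am K 2, c' ≫ ddA K 2 = c := by
  obtain ⟨c', h1, -⟩ : ∃ c' : A ⟶ U.cobar.Q 2 (𝟙_ T), c' ≫ U.cobar.d 2 (𝟙_ T) = c ≫ unA K ∧
      c' ≫ U.cobar.q 1 (𝟙_ T) = y :=
    U.cobar.exists_cobdy (F := preadditiveCoyoneda.obj (Opposite.op A)) 1 (𝟙_ T) (c ≫ unA K) (by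
      change (c ≫ unA K) ≫ U.cobar.d 3 (𝟙_ T) = 0
      rw [← cancel_mono (qA U 4).hom, Category.assoc, d_qA, ← qA_three U, Category.assoc,
        Iso.inv_hom_id_assoc, hc, zero_comp]) y (by
      change (c ≫ unA K) ≫ U.cobar.q 2 (𝟙_ T) = _
      rw [CobarData.q_two, Category.assoc]
      exact h)
  refine ⟨c' ≫ (qA U 2).hom, ?_⟩
  rw [Category.assoc, ← d_qA, reassoc_of% h1, ← qA_three U, Iso.inv_hom_id, Category.comp_id]

end cob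

variable {D : MUData T} {F : SpaceFunctor T} {e : F.S.obj CCF ≅ (stdEven T).L}

theorem qq_two (U : UnitCof D.R) : Dt.qq D U 2 = unA D.R ≫ D.R ◁ (Tw.ofCof U).pr := by
  rw [Dt.qq, CobarData.q_two]
  rfl

/-- A class whose cocycle reduces to `± b_j` does not have filtration three. -/
theorem not_af (hU : MUUniv e D) {H : T} [MonObj H] [IsCommMonObj H] (hH : Tr.IsHF 3 η[H])
    (U : UnitCof D.R) {j : ℕ} {w w' : ℤ} (hw : w + 1 = w') (hw' : w' = 2 * 3 ^ (j + 1))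
    (θ : (stdEven T).S w ⟶ 𝟙_ T) (t : (stdEven T).S w' ⟶ (Tw.ofCof U).C₂) (x : Cob.wt Laz 2 w')
    (a : (stdEven T).S w' ⟶ D.R ⊗ (Tw.ofCof U).C₂)
    (h1 : t ≫ (Tw.ofCof U).bb = (Dt.eS hw).hom ≫ (θ⟦(1 : ℤ)⟧')⟦(1 : ℤ)⟧')
    (h2 : t ≫ unitMap D.R _ = D.evw 2 w' x ≫ Dt.qq D U 2 + (3 : ℤ) • a) {h : ℕ}
    (h3 : Cob.d 2 x.1 ∈ IC 3 h 3) {ε : ℤ} (hε : ε = 1 ∨ ε = -1)
    (h4 : fP 3 2 x.1 = ε • P257.H134.bP 3 1 j) : ¬ Tr.AF η[H] 3 θ := by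
  intro hθ
  obtain ⟨u, hu⟩ := Dt.exists_thom D hH.conc
  obtain ⟨Q⟩ := exists_PD hU (p := 3) (by norm_num) (n := h + j + 2) (by omega)
  obtain ⟨U'⟩ := exists_unitCof Q.P
  have hp : (0 : ℤ) < 3 ^ j := by positivity
  have h5 := (af_P hH u hU Q (k := 2 * w) (by
    have h6 : (3 : ℤ) ^ (j + 2) ≤ 3 ^ (h + j + 2) := pow_le_pow_right₀ (by norm_num) (by omega)
    rw [pow_succ, pow_succ] at h6
    rw [pow_succ] at hw'
    push_cast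
    omega) (by
    rw [pow_succ] at hw'
    omega) (hθ.pre (sI w).inv)).pre (sI w).hom
  rw [Iso.hom_inv_id_assoc] at h5
  have h6 : (3 : ℤ) • η[Q.P] = 0 := by
    have h7 := Q.vv_zero_of_lt (i := 0) (by omega)
    rw [vv_zero, ← Int.cast_natCast, ← zsmul_one, ← of_one, ← map_zsmul, ← of_zero _ 0] at h7
    have h8 := MUData.of_injective h7
    rwa [← Preadditive.comp_zsmul, Preadditive.IsIso.comp_left_eq_zero] at h8
  obtain ⟨t', h7, h8⟩ := (Tw.ofCof U).push (Tw.ofCof U') Q.u t (D.evw 2 w' x ≫ unA D.R) a h6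
    (by rw [h2, qq_two, Category.assoc])
  obtain ⟨t'', h9, h10⟩ := (Tw.ofCof U').lift3 h5
  obtain ⟨y, hy⟩ := (Tw.ofCof U').eq_of Q.odd (t' - (Dt.eS hw).hom ≫ t'') (by
    rw [Preadditive.sub_comp, h7, h1, Category.assoc, h9, sub_self])
  obtain ⟨c', hc'⟩ := cobdy_A U' (D.evw 2 w' x ≫ upA Q.u 3) (by
    have h11 := val_IC D (upA Q.u 4) (fun i hi => by
      rw [lawOf_congr (v_upA Q.u (0 : Fin 4)), lawOf_comp, vv_map, Q.vv_zero_of_lt (by omega), map_zero]) h3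
    rw [← Cob.coe_dwt, val_evw, ← of_zero _ w'] at h11
    rw [Category.assoc, ← ddA_upA, ← MUData.of_injective h11, D.evw_dwt, Category.assoc]
    rfl) y (by
    rw [← Category.assoc y, hy, Preadditive.sub_comp, h8, Category.assoc _ t'', h10, comp_zero,
      sub_zero, Category.assoc, Category.assoc, reassoc_of% upA_unA])
  obtain ⟨z, hz⟩ := cobdy_of_P hU Q x c' hc'
  exact bP_ne j (hw' ▸ fP_wt z.2) hε (h4.symm.trans hz)

end Vale.Agent.P236H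

end
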