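import Vale.Agent.P236H.Tw

/-!
# P236, block DETH: values of cochains in `π_* (H ⊗ H)` and `π_* (H ⊗ H ⊗ H)`

* `val_of_fP` : the values in a ring with additive laws only depend on the image in `CobP`;
* `exists_sign` : a non-zero class in `π_4 (H ⊗ H)` is `± t_1`;
* `val_cup` : the value of a cup product.
-/

open CategoryTheory MonoidalCategory Limits Pretriangulated MonObj

set_option linter.unusedSectionVars false

universe u

noncomputable section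

namespace Vale.Agent.P236H

open Vale.Agent.P251 Vale.Agent.P251.T Vale.Agent.P251.M Vale.Agent.P251.S Vale.Agent.P251.F
  Vale.Agent.P251.H Vale.Agent.P251.X Vale.Agent.P251.Z
  Vale.Agent.P251.M.EvenSpheres Vale.Agent.P236Z Vale.Agent.P257.H93
open Vale.Agent.P251.I hiding addLaw

variable {T : Type u} [Category.{0} T] [Preadditive T] [HasZeroObject T]
    [HasShift T ℤ] [∀ n : ℤ, (shiftFunctor T n).Additive] [Pretriangulated T] [IsTriangulated T]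
    [MonoidalCategory T] [SymmetricCategory T] [TensorTriangulated T] [MonoidalClosed T]
    [HasCoproducts.{0} T] [HasProducts.{0} T] [StableCat T] {D : MUData T}

theorem val_of_fP {p : ℕ} [Fact p.Prime] {N : T} [MonObj N] [IsCommMonObj N] {s : ℕ}
    (ψ : Am D.R (s + 1) ⟶ N) [IsMonHom ψ] [FpA p (HRing (stdEven T) N)]
    (hv : ∀ i, lawOf (Am.v D.R i ≫ ψ) = addLaw _) {z : Cob Laz s} (hz : fP p s z = 0) :
    val D ψ z = 0 := by
  let c : Chain Laz s (HRing (stdEven T) N) := (Cob.univ Laz s).map (val D ψ)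
  have h1 : ∀ i, c.g i • Laz.univ.map c.pt = addLaw _ := fun i => by
    rw [← hv i, lawOf_comp]
    unfold lawOf
    rw [D.law_map_v, InvSeries.map_smul, Law.map_map]
    congr 1
  have h2 : c.pt = Laz.lift (addLaw _) := by
    rw [← h1 0, c.zero, one_smul, Laz.lift_map_univ]
  rw [h2, Laz.univ_map_lift] at h1
  have h3 := evG_fP (p := p) (fun k => if h : k < s + 1 then ⟨⟨c.g ⟨k, h⟩, c.strict _⟩, h1 _⟩ else 1) z
  rw [hz, map_zero, ← h2, mkC_congr (g' := fun k => if h : k < s + 1 then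
    ⟨c.g ⟨k, h⟩, c.strict _⟩ else 1) _ fun k hk => by
      rw [dif_pos (Nat.lt_succ_of_le hk), dif_pos (Nat.lt_succ_of_le hk)], mkC_of_chain,
    Cob.ev_map, Cob.ev_univ] at h3
  exact h3.symm

theorem of_ext_mul {A B N : T} [MonObj N] {m n k : ℤ} (h : m + n = k) (a : (stdEven T).S m ⟶ A)
    (b : (stdEven T).S n ⟶ B) (x : A ⟶ N) (y : B ⟶ N) :
    HRing.of _ N k ((stdEven T).ext h a b ≫ (x ⊗ₘ y) ≫ μ[N]) =
      HRing.of _ N m (a ≫ x) * HRing.of _ N n (b ≫ y) := by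
  rw [of_mul_of h, gmul, ext_comp, Category.assoc]

section maps

variable {R H : T} [MonObj R] [IsCommMonObj R] [MonObj H] [IsCommMonObj H] (u : R ⟶ H)
  [IsMonHom u]

/-- `R ^ 2 ⟶ H ⊗ H` -/
abbrev ψ₂ : Am R 2 ⟶ H ⊗ H := (amOne R ≫ u) ⊗ₘ u

/-- `R ^ 3 ⟶ H ⊗ H ⊗ H` -/
abbrev ψ₃ : Am R 3 ⟶ H ⊗ H ⊗ H := (ψ₂ u ⊗ₘ u) ≫ (α_ H H H).hom

/-- the first edge -/
abbrev e₀₁ (H : T) [MonObj H] : H ⊗ H ⟶ H ⊗ H ⊗ H := inlM (H ⊗ H) H ≫ (α_ H H H).hom

@[reassoc]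
theorem inlM_tensorHom {X Y X' Y' : T} [MonObj Y] [MonObj Y'] (f : X ⟶ X') (g : Y ⟶ Y')
    [IsMonHom g] : inlM X Y ≫ (f ⊗ₘ g) = f ≫ inlM X' Y' := by
  rw [MonoidalCategory.tensorHom_def, inlM_whiskerRight_assoc, inlM, inlM, Category.assoc,
    ← MonoidalCategory.whiskerLeft_comp, IsMonHom.one_hom]

@[reassoc]
theorem inrM_tensorHom {X Y X' Y' : T} [MonObj X] [MonObj X'] (f : X ⟶ X') (g : Y ⟶ Y')
    [IsMonHom f] : inrM X Y ≫ (f ⊗ₘ g) = g ≫ inrM X' Y' := by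
  rw [MonoidalCategory.tensorHom_def, inrM_whiskerRight_assoc, inrM, inrM, Category.assoc,
    ← whisker_exchange, leftUnitor_inv_naturality_assoc]

@[reassoc]
theorem v0_ψ₂ : Am.v R (0 : Fin 2) ≫ ψ₂ u = u ≫ inlM H H := by
  rw [show Am.v R (0 : Fin 2) = Am.v R 0 ≫ inlM _ R from Am.v_castSucc R (0 : Fin 1),
    Category.assoc, inlM_tensorHom, Category.assoc, reassoc_of% v_amOne]

@[reassoc]
theorem v1_ψ₂ : Am.v R (1 : Fin 2) ≫ ψ₂ u = u ≫ inrM H H := by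
  rw [show Am.v R (1 : Fin 2) = inrM _ R from Am.v_last R 1, inrM_tensorHom]

theorem front_ψ₃ : Am.map R (Cob.front 1 1) ≫ ψ₃ u = ψ₂ u ≫ e₀₁ H := by
  rw [show Am.map R (Cob.front 1 1) = inlM _ R from Am.map_castSucc R 2, inlM_tensorHom_assoc]

theorem inr_inl_α : inrM H H ≫ inlM (H ⊗ H) H ≫ (α_ H H H).hom = inlM H H ≫ inrM H (H ⊗ H) := by
  rw [inlM_associator, inrM_whiskerLeft]

theorem inr_α : inrM (H ⊗ H) H ≫ (α_ H H H).hom = inrM H H ≫ inrM H (H ⊗ H) := by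
  rw [inrM_associator]

theorem back_ψ₃ : Am.map R (Cob.back 1 1) ≫ ψ₃ u = ψ₂ u ≫ inrM H (H ⊗ H) := by
  refine Am.hom_ext fun i => ?_
  rw [Am.v_map_assoc]
  fin_cases i
  · refine Eq.trans ?_ (v0_ψ₂_assoc u _).symm
    change (Am.v R (1 : Fin 2) ≫ inlM _ R) ≫ _ = _
    rw [Category.assoc, inlM_tensorHom_assoc, v1_ψ₂_assoc, inr_inl_α]
  · refine Eq.trans ?_ (v1_ψ₂_assoc u _).symm
    change inrM _ R ≫ _ = _
    rw [inrM_tensorHom_assoc, inr_α]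

theorem unA_ψ₃ : unA R ≫ (u ⊗ₘ u ⊗ₘ u ▷ 𝟙_ T) ≫ H ◁ H ◁ (ρ_ H).hom = ψ₃ u := by
  change _ = ((((λ_ R).hom ≫ u) ⊗ₘ u) ⊗ₘ u) ≫ (α_ H H H).hom
  simp only [unA, MonoidalCategory.tensorHom_def]
  monoidal

theorem bar_eq : (α_ H H (H ⊗ H)).hom ≫ H ◁ ((α_ H H H).inv ≫ μ[H] ▷ H) =
    (e₀₁ H ⊗ₘ inrM H (H ⊗ H)) ≫ μ[H ⊗ H ⊗ H] := by
  refine (eq_descM _).trans ?_
  congr 1
  · rw [inlM_associator_assoc, ← MonoidalCategory.whiskerLeft_comp, inlM_associator_inv_assoc,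
      inlM_whiskerRight, inlM_mul_assoc, e₀₁, inlM_associator]
  · simp only [inrM, Category.assoc, MonObj.tensorObj.one_def, MonoidalCategory.tensorHom_def,
      comp_whiskerRight]
    rw [associator_naturality_middle_assoc, ← MonoidalCategory.whiskerLeft_comp,
      associator_inv_naturality_left_assoc, ← comp_whiskerRight, MonObj.one_mul]
    monoidal

end maps

variable {H : T} [MonObj H] [IsCommMonObj H] (u : D.R ⟶ H) [IsMonHom u]

theorem val_cup (y z : Cob Laz 1) : val D (s := 2) (ψ₃ u) (Cob.cup y z) =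
    HRing.map (e₀₁ H) (val D (s := 1) (ψ₂ u) y) *
      HRing.map (inrM H (H ⊗ H)) (val D (s := 1) (ψ₂ u) z) := by
  rw [← val_comp, ← val_comp, ← val_congr D (front_ψ₃ u), ← val_congr D (back_ψ₃ u), ← val_map,
    ← val_map, ← map_mul]
  rfl

variable {p : ℕ} [Fact p.Prime] (hH : Tr.IsHF p η[H])
include hH

theorem val₂_of_fP {z : Cob Laz 1} (hz : fP p 1 z = 0) : val D (s := 1) (ψ₂ u) z = 0 := by
  have := fpA_of hH (inlM H H)
  refine val_of_fP _ (fun i => ?_) hz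
  fin_cases i
  · exact (lawOf_congr (v0_ψ₂ u)).trans (lawOf_add hH u _)
  · exact (lawOf_congr (v1_ψ₂ u)).trans (lawOf_add hH u _)

theorem val₃_of_fP {z : Cob Laz 2} (hz : fP p 2 z = 0) : val D (s := 2) (ψ₃ u) z = 0 := by
  have := fpA_of hH (inlM H (H ⊗ H))
  refine val_of_fP _ (fun i => ?_) hz
  have h1 := fun i => (Am.v_map_assoc D.R (Cob.front 1 1) i (ψ₃ u)).symm.trans
    (congrArg _ (front_ψ₃ u))
  have h2 := fun i => (Am.v_map_assoc D.R (Cob.back 1 1) i (ψ₃ u)).symm.trans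
    (congrArg _ (back_ψ₃ u))
  fin_cases i
  · exact (lawOf_congr ((h1 0).trans (v0_ψ₂_assoc u _))).trans (lawOf_add hH u _)
  · exact (lawOf_congr ((h1 1).trans (v1_ψ₂_assoc u _))).trans (lawOf_add hH u _)
  · exact (lawOf_congr ((h2 1).trans (v1_ψ₂_assoc u _))).trans (lawOf_add hH u _)

/-- `π_{2 p - 2} (H ⊗ H)` is generated by `t_1`. -/
theorem exists_mul {F : SpaceFunctor T} {e : F.S.obj CCF ≅ (stdEven T).L} (hU : MUUniv e D)
    (hp : p ≠ 2) {t : Cob Laz 1} (ht : IsT1 p t) {w : ℤ} (hw : w = (p : ℤ) - 1)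
    (g : (stdEven T).S w ⟶ H ⊗ H) :
    ∃ c : ℤ, HRing.of _ _ w g = c • val D (s := 1) (ψ₂ u) t := by
  obtain ⟨z, rfl⟩ := surj_HH hH u hU hp (by omega) g
  obtain ⟨c, hc⟩ := eq_of_wt (p := p) (by rw [← hw]; exact fP_wt z.2)
  refine ⟨c, ?_⟩
  rw [← val_evw, ← map_zsmul, ← sub_eq_zero, ← map_sub]
  exact val₂_of_fP u hH (by rw [map_sub, map_zsmul, fP_t ht, hc, sub_self])

end Vale.Agent.P236H

end
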